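import Mathlib
import Vale.Agent.PNT.Main

set_option linter.all false

section

section

namespace Vale.Agent.P030

/-- The Dirichlet beta function at a natural number: `β(s) = ∑_{j≥0} (-1)^j (2j+1)^{-s}`. -/
noncomputable def beta (s : ℕ) : ℝ := ∑' j : ℕ, (-1 : ℝ) ^ j / (2 * (j : ℝ) + 1) ^ s

end Vale.Agent.P030
end
end

section

section

/-! Common definitions for the determinant method. Parameters: `N ≥ 1` and `K ≤ 3 N`.
In the end `N = 4 M`, `K = 10 M`. -/

namespace Vale.Agent.P030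

open Finset Polynomial

/-! ### The weight and the functional -/

/-- `∏_{|j| ≤ N} (t - j)`. -/
noncomputable def Den (N : ℕ) (t : ℝ) : ℝ := ∏ j ∈ Icc (-(N : ℤ)) N, (t - (j : ℝ))

/-- `∏_{k < B} (t² - (k+1/2)²)`. -/
noncomputable def Num (B : ℕ) (t : ℝ) : ℝ := ∏ k ∈ range B, (t ^ 2 - ((k : ℝ) + 1 / 2) ^ 2)

/-- the rational function `t ∏_{k<N} (t² - (k+1/2)²) / ∏_{|j|≤N} (t-j)^7` (it is even). -/
noncomputable def fN (N : ℕ) (t : ℝ) : ℝ := t * Num N t / Den N t ^ 7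

/-- the signed weight at `t = m + 1/2`. -/
noncomputable def wt (N m : ℕ) : ℝ := (-1) ^ m * fN N ((m : ℝ) + 1 / 2)

/-- moments `∑_m (-1)^m f_N(m+1/2) ((m+1/2)²)^i`. -/
noncomputable def mom (N i : ℕ) : ℝ := ∑' m : ℕ, wt N m * (((m : ℝ) + 1 / 2) ^ 2) ^ i

/-- the linear functional with these moments. -/
noncomputable def psi (N : ℕ) : ℝ[X] →ₗ[ℝ] ℝ :=
  Polynomial.lsum fun i => (LinearMap.id : ℝ →ₗ[ℝ] ℝ).smulRight (mom N i)

/-! ### Node polynomials -/

/-- nodes `0,1,...,a-1`. -/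
def natNodes (a : ℕ) : Multiset ℤ := (Multiset.range a).map fun n : ℕ => (n : ℤ)

/-! ### The rational version of the functional, assuming `β(2), β(4), β(6)` rational -/

/-- the power series `τ + c`. -/
noncomputable def lin (c : ℚ) : PowerSeries ℚ := PowerSeries.X + PowerSeries.C c

/-- `S_i(j) = ∑_{-j ≤ l < 0} (-1)^l/(l+1/2)^i - ∑_{0 ≤ l < -j} (-1)^l/(l+1/2)^i`. -/
noncomputable def Ssum (i : ℕ) (j : ℤ) : ℚ :=
  (∑ l ∈ Ico (-j) 0, (-1 : ℚ) ^ l / ((l : ℚ) + 1 / 2) ^ i) -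
    ∑ l ∈ Ico 0 (-j), (-1 : ℚ) ^ l / ((l : ℚ) + 1 / 2) ^ i

/-- `∑_{i ≥ 1} (c_i + S_i(j)) τ^{i-1}`. -/
noncomputable def WS (c : ℕ → ℚ) (j : ℤ) : PowerSeries ℚ :=
  PowerSeries.mk fun i => c (i + 1) + Ssum (i + 1) j

/-! ### `p`-adic bookkeeping -/

/-- `v_p(x) ≥ n` (true for `x = 0`). -/
def VG (p : ℕ) (n : ℤ) (x : ℚ) : Prop := padicNorm p x ≤ (p : ℚ) ^ (-n)

/-- number of `j' ∈ [-N,N]` congruent to `r` mod `p`. -/
noncomputable def Pc (N p : ℕ) (r : ℤ) : ℕ := ((Icc (-(N : ℤ)) N).filter fun j => (p : ℤ) ∣ r - j).card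

/-- number of `k ∈ [-N,N)` with `2k+1 ≡ 2r` mod `p`. -/
noncomputable def Zc (N p : ℕ) (r : ℤ) : ℕ :=
  ((Ico (-(N : ℤ)) N).filter fun k => (p : ℤ) ∣ 2 * r - 2 * k - 1).card

/-- `∑_y φ_λ(h_y)` over the half system of classes mod `p`, only classes with `P_y ≥ 2`. -/
noncomputable def phiSum (N p : ℕ) (lam : ℝ) : ℝ :=
  ∑ y ∈ range ((p + 1) / 2), if 2 ≤ Pc N p y then
    (max (7 * (Pc N p y : ℝ) - (Zc N p y : ℝ) - lam + 1) 0) ^ 2 / 4 else 0

/-! ### Archimedean side -/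

/-- exponent function `h_b(y) = b (4 log y - 2 log (1-y⁴)) + 8 log (1-y) - 4 log y`. -/
noncomputable def hb (b y : ℝ) : ℝ :=
  b * (4 * Real.log y - 2 * Real.log (1 - y ^ 4)) + 8 * Real.log (1 - y) - 4 * Real.log y

end Vale.Agent.P030
end
end

section

section

/-! API for `VG` (`p`-adic valuation at least `n`) and for the classes `AC` of power series. -/

namespace Vale.Agent.P030

open Finset

variable {p : ℕ} [hp : Fact p.Prime]

section VG

variable {n m : ℤ} {x y : ℚ}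

theorem VG_p_pos : (0 : ℚ) < (p : ℚ) := by exact_mod_cast hp.out.pos

theorem VG_one_lt_p : (1 : ℚ) < (p : ℚ) := by exact_mod_cast hp.out.one_lt

theorem VG_zero (n : ℤ) : VG p n 0 := by
  unfold VG
  rw [padicNorm.zero]
  exact (zpow_pos VG_p_pos _).le

theorem VG_mono (hx : VG p n x) (h : m ≤ n) : VG p m x :=
  le_trans hx (zpow_le_zpow_right₀ VG_one_lt_p.le (by omega))

theorem VG_iff (hx : x ≠ 0) : VG p n x ↔ n ≤ padicValRat p x := by
  unfold VG
  rw [padicNorm.eq_zpow_of_nonzero hx, zpow_le_zpow_iff_right₀ VG_one_lt_p]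
  omega

theorem VG_add (hx : VG p n x) (hy : VG p n y) : VG p n (x + y) :=
  le_trans padicNorm.nonarchimedean (max_le hx hy)

omit hp in
theorem VG_neg (hx : VG p n x) : VG p n (-x) := by
  unfold VG at *
  rwa [padicNorm.neg]

theorem VG_sub (hx : VG p n x) (hy : VG p n y) : VG p n (x - y) := by
  rw [sub_eq_add_neg]
  exact VG_add hx (VG_neg hy)

theorem VG_mul (hx : VG p n x) (hy : VG p m y) : VG p (n + m) (x * y) := by
  unfold VG at *
  rw [padicNorm.mul, neg_add, zpow_add₀ VG_p_pos.ne']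
  exact mul_le_mul hx hy (padicNorm.nonneg _) (zpow_pos VG_p_pos _).le

/-- multiplication with prescribed exponent. -/
theorem VG_mul' {k : ℤ} (hx : VG p n x) (hy : VG p m y) (h : k ≤ n + m) : VG p k (x * y) :=
  VG_mono (VG_mul hx hy) h

omit hp in
theorem VG_one : VG p 0 1 := by
  unfold VG
  simp

theorem VG_int (z : ℤ) : VG p 0 (z : ℚ) := by
  unfold VG
  simpa using padicNorm.of_int z

theorem VG_nat (z : ℕ) : VG p 0 (z : ℚ) := by
  exact_mod_cast VG_int (p := p) (z : ℤ)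

theorem VG_sum {ι : Type*} (s : Finset ι) (f : ι → ℚ) (h : ∀ i ∈ s, VG p n (f i)) :
    VG p n (∑ i ∈ s, f i) := by
  classical
  induction s using Finset.induction_on with
  | empty => simpa using VG_zero n
  | insert a s ha ih =>
    rw [sum_insert ha]
    exact VG_add (h a (mem_insert_self a s)) (ih fun i hi => h i (mem_insert_of_mem hi))

theorem VG_prod {ι : Type*} (s : Finset ι) (f : ι → ℚ) (v : ι → ℤ)
    (h : ∀ i ∈ s, VG p (v i) (f i)) : VG p (∑ i ∈ s, v i) (∏ i ∈ s, f i) := by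
  classical
  induction s using Finset.induction_on with
  | empty => simpa using VG_one
  | insert a s ha ih =>
    rw [sum_insert ha, prod_insert ha]
    exact VG_mul (h a (mem_insert_self a s)) (ih fun i hi => h i (mem_insert_of_mem hi))

theorem VG_pow (hx : VG p n x) (k : ℕ) : VG p (k * n) (x ^ k) := by
  have h := VG_prod (range k) (fun _ => x) (fun _ => n) (fun _ _ => hx)
  simpa using h

theorem VG_int_of_dvd {k : ℕ} {z : ℤ} (h : (p : ℤ) ^ k ∣ z) : VG p k (z : ℚ) := by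
  obtain ⟨w, rfl⟩ := h
  push_cast
  have h1 : VG p k ((p : ℚ) ^ k) := by
    have h2 : VG p 1 (p : ℚ) := by
      unfold VG
      rw [padicNorm.padicNorm_p hp.out.one_lt, zpow_neg_one]
    simpa using VG_pow h2 k
  simpa using VG_mul h1 (VG_int (p := p) w)

theorem VG_intCast_iff_dvd {k : ℕ} {z : ℤ} : VG p k (z : ℚ) ↔ (p : ℤ) ^ k ∣ z := by
  have h := padicNorm.dvd_iff_norm_le (p := p) (n := k) (z := z)
  unfold VG
  have h2 : ((p ^ k : ℕ) : ℤ) = (p : ℤ) ^ k := by push_cast; rfl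
  rw [← h2, h]

theorem VG_neg_one_zpow (j : ℤ) : VG p 0 ((-1 : ℚ) ^ j) := by
  rcases Int.even_or_odd j with h | h
  · rw [h.neg_one_zpow]
    exact VG_one
  · rw [h.neg_one_zpow]
    exact VG_neg VG_one

/-- valuation of an inverse. -/
theorem VG_inv (hx : x ≠ 0) (h : padicValRat p x ≤ n) : VG p (-n) (x⁻¹) := by
  rw [VG_iff (inv_ne_zero hx), padicValRat.inv]
  omega

theorem VG_two_inv (hp2 : p ≠ 2) : VG p 0 ((2 : ℚ)⁻¹) := by
  have h := VG_inv (p := p) (n := 0) (x := 2) (by norm_num) ?_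
  · simpa using h
  · have h2 : (2 : ℚ) = ((2 : ℕ) : ℚ) := by norm_num
    rw [h2, padicValRat.of_nat, padicValNat_primes hp2]
    simp

/-- `z/2` for odd `p`. -/
theorem VG_half {k : ℕ} {z : ℤ} (hp2 : p ≠ 2) (h : (p : ℤ) ^ k ∣ z) :
    VG p k ((z : ℚ) / 2) := by
  rw [div_eq_mul_inv]
  simpa using VG_mul (VG_int_of_dvd h) (VG_two_inv hp2)

end VG

/-! ### classes of power series -/

/-- `f ∈ AC p e v` iff `v_p(coeff_m f) ≥ v - e m` for all `m`. -/
def AC (p e : ℕ) (v : ℤ) (f : PowerSeries ℚ) : Prop :=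
  ∀ m : ℕ, VG p (v - e * m) (PowerSeries.coeff m f)

section AC

variable {e : ℕ} {v w : ℤ} {f g : PowerSeries ℚ}

theorem AC_mono (hf : AC p e v f) (h : w ≤ v) : AC p e w f :=
  fun m => VG_mono (hf m) (by omega)

theorem AC_one : AC p e 0 1 := by
  intro m
  rw [PowerSeries.coeff_one]
  split_ifs with h
  · subst h
    simpa using VG_one
  · exact VG_zero _

theorem AC_mul (hf : AC p e v f) (hg : AC p e w g) : AC p e (v + w) (f * g) := by
  intro m
  rw [PowerSeries.coeff_mul]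
  refine VG_sum _ _ fun ab hab => ?_
  rw [HasAntidiagonal.mem_antidiagonal] at hab
  refine VG_mul' (hf ab.1) (hg ab.2) ?_
  have : (m : ℤ) = ab.1 + ab.2 := by exact_mod_cast hab.symm
  rw [this]
  apply le_of_eq
  ring

theorem AC_prod {ι : Type*} (s : Finset ι) (f : ι → PowerSeries ℚ) (v : ι → ℤ)
    (h : ∀ i ∈ s, AC p e (v i) (f i)) : AC p e (∑ i ∈ s, v i) (∏ i ∈ s, f i) := by
  classical
  induction s using Finset.induction_on with
  | empty => simpa using AC_one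
  | insert a s ha ih =>
    rw [sum_insert ha, prod_insert ha]
    exact AC_mul (h a (mem_insert_self a s)) (ih fun i hi => h i (mem_insert_of_mem hi))

theorem AC_pow (hf : AC p e v f) (k : ℕ) : AC p e (k * v) (f ^ k) := by
  have h := AC_prod (range k) (fun _ => f) (fun _ => v) (fun _ _ => hf)
  simpa using h

theorem AC_multiset_prod {ι : Type*} (s : Multiset ι) (f : ι → PowerSeries ℚ) (v : ι → ℤ)
    (h : ∀ i ∈ s, AC p e (v i) (f i)) : AC p e ((s.map v).sum) ((s.map f).prod) := by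
  classical
  induction s using Multiset.induction_on with
  | empty => simpa using AC_one
  | cons a s ih =>
    rw [Multiset.map_cons, Multiset.map_cons, Multiset.sum_cons, Multiset.prod_cons]
    exact AC_mul (h a (Multiset.mem_cons_self a s))
      (ih fun i hi => h i (Multiset.mem_cons_of_mem hi))

theorem coeff_lin (c : ℚ) (m : ℕ) :
    PowerSeries.coeff m (lin c) = if m = 0 then c else if m = 1 then 1 else 0 := by
  unfold lin
  rw [map_add, PowerSeries.coeff_X, PowerSeries.coeff_C]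
  rcases m with _ | _ | m <;> simp

/-- `τ + c ∈ A_v` if `v_p(c) ≥ v` and `v ≤ e`. -/
theorem AC_lin {c : ℚ} (h : VG p v c) (hv : v ≤ e) : AC p e v (lin c) := by
  intro m
  rw [coeff_lin]
  split_ifs with h0 h1
  · subst h0
    simpa using h
  · subst h1
    refine VG_mono VG_one ?_
    push_cast
    omega
  · exact VG_zero _

theorem lin_inv {c : ℚ} (hc : c ≠ 0) :
    (lin c)⁻¹ = PowerSeries.mk fun m => (-1 : ℚ) ^ m * (c⁻¹) ^ (m + 1) := by
  have h0 : PowerSeries.constantCoeff (lin c) ≠ 0 := by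
    rw [← PowerSeries.coeff_zero_eq_constantCoeff_apply, coeff_lin]
    simpa using hc
  rw [eq_comm, PowerSeries.eq_inv_iff_mul_eq_one h0]
  ext m
  unfold lin
  rw [mul_add, map_add, PowerSeries.coeff_one]
  rcases m with _ | m
  · rw [PowerSeries.coeff_zero_mul_X, PowerSeries.coeff_mul_C, PowerSeries.coeff_mk]
    simp [hc]
  · rw [PowerSeries.coeff_succ_mul_X, PowerSeries.coeff_mul_C, PowerSeries.coeff_mk,
      PowerSeries.coeff_mk]
    rw [if_neg (Nat.succ_ne_zero m)]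
    have h3 : c⁻¹ ^ (m + 1 + 1) * c = c⁻¹ ^ (m + 1) := by
      rw [pow_succ, mul_assoc, inv_mul_cancel₀ hc, mul_one]
    rw [mul_assoc, h3]
    ring

/-- `(τ + c)⁻¹ ∈ A_{-v}` if `v_p(c) = v ≤ e` (it suffices `v_p(c) ≤ v ≤ e`). -/
theorem AC_lin_inv {c : ℚ} (hc : c ≠ 0) (h : padicValRat p c ≤ v) (hv : v ≤ e) :
    AC p e (-v) ((lin c)⁻¹) := by
  intro m
  rw [lin_inv hc, PowerSeries.coeff_mk]
  have h1 : VG p 0 ((-1 : ℚ) ^ m) := by
    have := VG_neg_one_zpow (p := p) (m : ℤ)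
    rwa [zpow_natCast] at this
  have h2 := VG_pow (VG_inv hc h) (m + 1)
  refine VG_mul' h1 h2 ?_
  push_cast
  linarith only [mul_le_mul_of_nonneg_right hv (Int.natCast_nonneg m)]

end AC

end Vale.Agent.P030
end
end

section

section

/-! Sums of floors `⌊(2k-1)/p⌋` for odd `p`. -/

namespace Vale.Agent.P030

open Finset

/-- number of `k < K` with `r p ≤ 2k-1` (for `r ≥ 1`, `p` odd or not). -/
theorem Flo_card_le (K p r : ℕ) (hr : 0 < r * p) :
    2 * (((range K).filter (fun k => r * p ≤ 2 * k - 1)).card : ℤ) ≤ max 0 (2 * (K : ℤ) - r * p) := by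
  have h1 : (range K).filter (fun k => r * p ≤ 2 * k - 1) ⊆ Ico ((r * p + 2) / 2) K := by
    intro k hk
    rw [mem_filter, mem_range] at hk
    rw [mem_Ico]
    omega
  have h2 := card_le_card h1
  rw [Nat.card_Ico] at h2
  have h3 : 2 * (K - (r * p + 2) / 2 : ℕ) ≤ max 0 (2 * (K : ℤ) - r * p) := by
    have : ((r * p : ℕ) : ℤ) = (r : ℤ) * p := by push_cast; rfl
    rw [← this]
    omega
  calc 2 * (((range K).filter (fun k => r * p ≤ 2 * k - 1)).card : ℤ)
      ≤ 2 * ((K - (r * p + 2) / 2 : ℕ) : ℤ) := by exact_mod_cast Nat.mul_le_mul_left 2 h2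
    _ ≤ _ := by exact_mod_cast h3

theorem Flo_sum_eq (K p : ℕ) (hp : 0 < p) (R : ℕ) (hR : 2 * K ≤ (R + 1) * p) :
    ∑ k ∈ range K, (2 * k - 1) / p
      = ∑ r ∈ Icc 1 R, ((range K).filter (fun k => r * p ≤ 2 * k - 1)).card := by
  have h1 : ∀ k ∈ range K, (2 * k - 1) / p = ∑ r ∈ Icc 1 R, if r * p ≤ 2 * k - 1 then 1 else 0 := by
    intro k hk
    rw [mem_range] at hk
    rw [← sum_filter, sum_const, smul_eq_mul, mul_one]
    have h2 : (Icc 1 R).filter (fun r => r * p ≤ 2 * k - 1) = Icc 1 ((2 * k - 1) / p) := by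
      ext r
      rw [mem_filter, mem_Icc, mem_Icc, Nat.le_div_iff_mul_le hp]
      constructor
      · rintro ⟨⟨a, _⟩, b⟩; exact ⟨a, b⟩
      · rintro ⟨a, b⟩
        refine ⟨⟨a, ?_⟩, b⟩
        by_contra hcon
        push Not at hcon
        have h4 : (R + 1) * p ≤ r * p := Nat.mul_le_mul_right p hcon
        have h5 : 0 < r * p := Nat.mul_pos a hp
        have h6 : 2 * K ≤ r * p := hR.trans h4
        have h7 : 2 * K ≤ 2 * k - 1 := h6.trans b
        omega
    rw [h2, Nat.card_Icc, Nat.add_sub_cancel]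
  rw [sum_congr rfl h1, sum_comm]
  refine sum_congr rfl (fun r _ => ?_)
  rw [← sum_filter, sum_const, smul_eq_mul, mul_one]

theorem Flo_sum_le (K p : ℕ) (hp : 0 < p) (R : ℕ) (hR : 2 * K ≤ (R + 1) * p) (hR' : R * p ≤ 2 * K) :
    2 * ((∑ k ∈ range K, (2 * k - 1) / p : ℕ) : ℝ) ≤ 2 * K * R - p * (R * (R + 1) / 2) := by
  rw [Flo_sum_eq K p hp R hR]
  have h1 : (2 * ((∑ r ∈ Icc 1 R, ((range K).filter (fun k => r * p ≤ 2 * k - 1)).card : ℕ) : ℤ))
      ≤ ∑ r ∈ Icc 1 R, (2 * (K : ℤ) - r * p) := by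
    push_cast
    rw [mul_sum]
    refine sum_le_sum (fun r hr => ?_)
    rw [mem_Icc] at hr
    have h2 := Flo_card_le K p r (Nat.mul_pos (by omega) hp)
    have h3 : r * p ≤ R * p := Nat.mul_le_mul_right p hr.2
    have h4 : (0 : ℤ) ≤ 2 * (K : ℤ) - r * p := by
      have : ((r * p : ℕ) : ℤ) ≤ ((2 * K : ℕ) : ℤ) := by exact_mod_cast h3.trans hR'
      push_cast at this
      linarith only [hR', h3]
    rw [max_eq_right h4] at h2
    exact h2
  have h5 : (∑ r ∈ Icc 1 R, (2 * (K : ℝ) - r * p)) = 2 * K * R - p * (R * (R + 1) / 2) := by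
    clear h1 hR hR'
    induction R with
    | zero => simp
    | succ R ih =>
      rw [sum_Icc_succ_top (by omega), ih]
      push_cast; ring
  rw [← h5]
  have h6 : (((2 * ((∑ r ∈ Icc 1 R, ((range K).filter (fun k => r * p ≤ 2 * k - 1)).card : ℕ) : ℤ)) : ℤ) : ℝ)
      ≤ ((∑ r ∈ Icc 1 R, (2 * (K : ℤ) - r * p) : ℤ) : ℝ) := by exact_mod_cast h1
  push_cast at h6 ⊢
  exact h6

/-- sum of floors, all `p`. -/
theorem floor_sum {K p : ℕ} (hp : Odd p) :
    2 * ((∑ k ∈ range K, (2 * k - 1) / p : ℕ) : ℝ) ≤ 2 * (K : ℝ) ^ 2 / p - K + p / 8 := by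
  have hp0 : 0 < p := hp.pos
  have hpr : (0 : ℝ) < p := by exact_mod_cast hp0
  have h1 := Flo_sum_le K p hp0 (2 * K / p) (by
    have := Nat.lt_mul_div_succ (2 * K) hp0
    rw [mul_comm p] at this
    exact this.le) (Nat.div_mul_le_self _ _)
  refine h1.trans ?_
  set R : ℝ := ((2 * K / p : ℕ) : ℝ) with hR
  have h2 : (0 : ℝ) ≤ p * ((2 * K) / p - 1 / 2 - R) ^ 2 / 2 := by positivity
  have h3 : (p : ℝ) * ((2 * K) / p - 1 / 2 - R) ^ 2 / 2
      = (2 * (K : ℝ) ^ 2 / p - K + p / 8) - (2 * K * R - p * (R * (R + 1) / 2)) := by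
    field_simp; ring
  linarith only [h3, h2]

theorem floor_sum_two {K p : ℕ} (hp : Odd p) (h : 2 * K ≤ 3 * p) (h' : p ≤ K) :
    2 * ((∑ k ∈ range K, (2 * k - 1) / p : ℕ) : ℝ) ≤ 4 * K - 3 * p := by
  have h1 := Flo_sum_le K p hp.pos 2 (by omega) (by omega)
  push_cast at h1 ⊢
  linarith only [h1]

theorem floor_sum_one {K p : ℕ} (hp : Odd p) (h' : K < p) (h : p ≤ 2 * K) :
    2 * ((∑ k ∈ range K, (2 * k - 1) / p : ℕ) : ℝ) ≤ 2 * K - p := by
  have h1 := Flo_sum_le K p hp.pos 1 (by omega) (by omega)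
  push_cast at h1 ⊢
  linarith only [h1]

end Vale.Agent.P030
end
end

section

section

/-! `∑ v_p(y) log p ≤ log |y|`. -/

namespace Vale.Agent.P030

open Finset

theorem LogAbs_nat (n : ℕ) (hn : n ≠ 0) (T : Finset ℕ) (hT : ∀ p ∈ T, p.Prime)
    (hsub : n.primeFactors ⊆ T) :
    Real.log n = ∑ p ∈ T, (padicValNat p n : ℝ) * Real.log p := by
  have h1 : (n : ℝ) = ∏ p ∈ n.primeFactors, (p : ℝ) ^ (n.factorization p) := by
    have := Nat.prod_factorization_pow_eq_self hn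
    conv_lhs => rw [← this]
    rw [Finsupp.prod, Nat.support_factorization]
    push_cast
    rfl
  have h2 : Real.log n = ∑ p ∈ n.primeFactors, (padicValNat p n : ℝ) * Real.log p := by
    rw [h1, Real.log_prod]
    · refine sum_congr rfl (fun p hp => ?_)
      rw [Real.log_pow, Nat.factorization_def n (Nat.prime_of_mem_primeFactors hp)]
    · intro p hp
      have := (Nat.prime_of_mem_primeFactors hp).pos
      positivity
  rw [h2]
  refine sum_subset hsub (fun p hp hpn => ?_)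
  have : padicValNat p n = 0 := by
    rw [← Nat.factorization_def n (hT p hp)]
    rw [Nat.factorization_eq_zero_iff]
    by_contra hcon
    push Not at hcon
    exact hpn (Nat.mem_primeFactors.2 ⟨hcon.1, hcon.2.1, hn⟩)
  rw [this]; simp

theorem log_abs_ge (y : ℚ) (hy : y ≠ 0) (S : Finset ℕ) (hS : ∀ p ∈ S, p.Prime)
    (h : ∀ p : ℕ, p.Prime → p ∉ S → 0 ≤ padicValRat p y) :
    ∑ p ∈ S, (padicValRat p y : ℝ) * Real.log p ≤ Real.log |(y : ℝ)| := by
  set a : ℕ := y.num.natAbs with ha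
  set b : ℕ := y.den with hb
  have ha0 : a ≠ 0 := by
    rw [ha]; simpa using hy
  have hb0 : b ≠ 0 := y.den_nz
  set T : Finset ℕ := S ∪ a.primeFactors ∪ b.primeFactors with hT
  have hTp : ∀ p ∈ T, p.Prime := by
    intro p hp
    rw [hT, mem_union, mem_union] at hp
    rcases hp with (hp | hp) | hp
    · exact hS p hp
    · exact Nat.prime_of_mem_primeFactors hp
    · exact Nat.prime_of_mem_primeFactors hp
  have h1 := LogAbs_nat a ha0 T hTp (by
    intro p hp; rw [hT, mem_union, mem_union]; exact Or.inl (Or.inr hp))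
  have h2 := LogAbs_nat b hb0 T hTp (by
    intro p hp; rw [hT, mem_union, mem_union]; exact Or.inr hp)
  have habs : |(y : ℝ)| = (a : ℝ) / (b : ℝ) := by
    have h3 : (y : ℝ) = (y.num : ℝ) / (y.den : ℝ) := by
      exact_mod_cast (Rat.num_div_den y).symm
    rw [h3, abs_div, Nat.abs_cast, ha, Nat.cast_natAbs, Int.cast_abs]
  have h4 : Real.log |(y : ℝ)| = ∑ p ∈ T, (padicValRat p y : ℝ) * Real.log p := by
    have ha' : (a : ℝ) ≠ 0 := by exact_mod_cast ha0
    have hb' : (b : ℝ) ≠ 0 := by exact_mod_cast hb0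
    rw [habs, Real.log_div ha' hb', h1, h2, ← sum_sub_distrib]
    refine sum_congr rfl (fun p hp => ?_)
    have : padicValRat p y = (padicValNat p a : ℤ) - (padicValNat p b : ℤ) := by
      unfold padicValRat padicValInt
      rfl
    rw [this, Int.cast_sub, Int.cast_natCast, Int.cast_natCast]; ring
  rw [h4]
  have hST : S ⊆ T := by
    intro p hp; rw [hT, mem_union, mem_union]; exact Or.inl (Or.inl hp)
  refine sum_le_sum_of_subset_of_nonneg hST (fun p hp hpS => ?_)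
  have hpp := hTp p hp
  apply mul_nonneg
  · exact_mod_cast h p hpp hpS
  · apply Real.log_nonneg
    exact_mod_cast hpp.one_le

end Vale.Agent.P030
end
end

section

section

/-! Definitions for the second theorem: at least one of `β(2)`, `β(4)` is irrational.
Family: `f5 N t = t / ∏_{|j| ≤ N} (t - j)^5`, sum over the half-integers `m + 1/2`, `m ≥ N`.
In the end `N = 2 M`, `K = 5 M`. -/

namespace Vale.Agent.P030.Five

open Finset Polynomial Vale.Agent.P030

/-! ### The weight and the functional -/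

/-- `t / ∏_{|j| ≤ N} (t - j)^5`. -/
noncomputable def f5 (N : ℕ) (t : ℝ) : ℝ := t / Den N t ^ 5

/-- the signed weight at `t = N + i + 1/2`. -/
noncomputable def wt5 (N i : ℕ) : ℝ := (-1) ^ (N + i) * f5 N ((N : ℝ) + i + 1 / 2)

/-- moments `∑_{m ≥ N} (-1)^m f(m+1/2) ((m+1/2)²)^k`, `m = N + i`. -/
noncomputable def mom5 (N k : ℕ) : ℝ := ∑' i : ℕ, wt5 N i * (((N : ℝ) + i + 1 / 2) ^ 2) ^ k

/-- the linear functional with these moments. -/
noncomputable def psi5 (N : ℕ) : ℝ[X] →ₗ[ℝ] ℝ :=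
  Polynomial.lsum fun i => (LinearMap.id : ℝ →ₗ[ℝ] ℝ).smulRight (mom5 N i)

/-- the Hankel determinant. -/
noncomputable def HK5 (N K : ℕ) : ℝ :=
  (Matrix.of fun a b : Fin K => psi5 N (X ^ ((a : ℕ) + (b : ℕ)))).det

/-! ### Node polynomials with doubled nodes -/

/-- `∏_{n ∈ l} (X - (n/2)²)`: the integers `n` are doubled nodes. -/
noncomputable def nodePoly2 (l : Multiset ℤ) : ℝ[X] :=
  (l.map fun n : ℤ => (X : ℝ[X]) - C (((n : ℝ) / 2) ^ 2)).prod

/-- doubled nodes `0,2,4,...,2(a-1)` (the nodes are the integers `0,1,...,a-1`). -/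
def evenNodes (a : ℕ) : Multiset ℤ := (Multiset.range a).map fun n : ℕ => (2 * n : ℤ)

/-! ### The rational version of the functional, assuming `β(2), β(4)` rational -/

/-- local expansion at `j` of `(t-j)^5 f5(t) ∏_{n∈l}(t²-(n/2)²)`, `t = j + τ`. -/
noncomputable def uS5 (N : ℕ) (l : Multiset ℤ) (j : ℤ) : PowerSeries ℚ :=
  lin (j : ℚ) *
    (l.map fun n : ℤ => lin ((j : ℚ) - (n : ℚ) / 2) * lin ((j : ℚ) + (n : ℚ) / 2)).prod *
    ∏ i ∈ (Icc (-(N : ℤ)) N).erase j, ((lin ((j : ℚ) - (i : ℚ)))⁻¹) ^ 5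

/-- rational value of the full sum `∑_{m ≥ 0} (-1)^m (f5 · nodePoly2 l)(m+1/2)`. -/
noncomputable def psiQ5 (c : ℕ → ℚ) (N : ℕ) (l : Multiset ℤ) : ℚ :=
  ∑ j ∈ Icc (-(N : ℤ)) N, (-1 : ℚ) ^ j * PowerSeries.coeff 4 (uS5 N l j * WS c j)

/-- the value of `f5 · nodePoly2 l` at `m + 1/2`. -/
noncomputable def site5 (N : ℕ) (l : Multiset ℤ) (m : ℕ) : ℚ :=
  ((m : ℚ) + 1 / 2) / (∏ j ∈ Icc (-(N : ℤ)) N, ((m : ℚ) + 1 / 2 - (j : ℚ))) ^ 5 *
    (l.map fun n : ℤ => ((m : ℚ) + 1 / 2) ^ 2 - ((n : ℚ) / 2) ^ 2).prod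

/-- the excluded part `∑_{m < N}`. -/
noncomputable def exQ5 (N : ℕ) (l : Multiset ℤ) : ℚ := ∑ m ∈ range N, (-1 : ℚ) ^ m * site5 N l m

/-- `c_i = 2^i β(i)` for `i = 2,4` and `c_i = 0` for `i = 1,3,5`. -/
def GoodC5 (c : ℕ → ℚ) : Prop :=
  c 1 = 0 ∧ c 3 = 0 ∧ c 5 = 0 ∧
    (2 : ℝ) ^ 2 * beta 2 = (c 2 : ℝ) ∧ (2 : ℝ) ^ 4 * beta 4 = (c 4 : ℝ)

/-! ### `p`-adic bookkeeping, in doubled coordinates -/

/-- number of poles `j ∈ [-N,N]` with `2j ≡ s` mod `p`. -/
noncomputable def Pd (N p : ℕ) (s : ℤ) : ℕ :=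
  ((Icc (-(N : ℤ)) N).filter fun j => (p : ℤ) ∣ s - 2 * j).card

/-- number of hits of `s` by `± doubled nodes` mod `p`. -/
def qd (p : ℕ) (l : Multiset ℤ) (s : ℤ) : ℕ :=
  (l.map fun n : ℤ => (if (p : ℤ) ∣ s - n then 1 else 0) + (if (p : ℤ) ∣ s + n then 1 else 0)).sum

/-- the excluded sites `m < N` (that is `m + 1/2`) in the class of `± y` mod `p`. -/
def siteSet (N p y : ℕ) : Finset ℕ :=
  (range N).filter fun m => (p : ℤ) ∣ (2 * m + 1 : ℤ) - 2 * y ∨ (p : ℤ) ∣ (2 * m + 1 : ℤ) + 2 * y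

/-- level of the class `y` after `n` nodes of this class. -/
noncomputable def lev5 (N p y n : ℕ) : ℕ :=
  if 2 ≤ Pd N p (2 * y) then 5 * Pd N p (2 * y) - 2 * n
  else if Pd N p (2 * y) = 1 ∧ n < (siteSet N p y).card then 5 - 2 * n else 0

/-- sum of the levels above `lam`. -/
noncomputable def levSum (N K p lam : ℕ) : ℕ :=
  ∑ y ∈ range ((p + 1) / 2), ∑ n ∈ range K, (lev5 N p y n - lam)

/-- the bound for the exponent of the odd prime `p` (used with `2 K = 5 N`). -/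
noncomputable def Ebd5 (d N K p : ℕ) : ℝ :=
  if p ^ 2 ≤ 2 * K then (K : ℝ) * (5 * (Nat.log p (2 * K) : ℝ) + d)
  else if p ≤ N then
    5 * (K : ℝ) * (2 * N / p - ((2 * N / p : ℕ) : ℝ)) + 29 / 32 * p + 16 * N / p +
      50 * (N : ℝ) ^ 2 / (p : ℝ) ^ 2
  else if p ≤ 2 * N then
    30 * ((N : ℝ) - (p - 1) / 2) + 5 * ((p : ℝ) - N) +
      3 * min ((p : ℝ) - N) ((N : ℝ) - (p - 1) / 2) - 6 * K + 2 * (K : ℝ) ^ 2 / p + p / 8
  else if p ≤ K then 4 * (K : ℝ) - 3 * p + 5 * (2 * (N : ℝ) - (p - 1) / 2)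
  else if p ≤ 4 * N then 2 * (K : ℝ) - p + 5 * (2 * (N : ℝ) - (p - 1) / 2)
  else 2 * (K : ℝ) - p

end Vale.Agent.P030.Five
end
end

section

section

/-! `p`-adic bounds of the determinant. The theorems of this file whose name ends in `_of` take the
facts proved in other files as hypotheses. -/

namespace Vale.Agent.P030

open Finset Polynomial

theorem VG_det {p : ℕ} [Fact p.Prime] {K : ℕ} (A : Matrix (Fin K) (Fin K) ℚ)
    (e : Fin K → Fin K → ℤ) (L : Fin K → ℤ) (hA : ∀ a b, VG p (e a b) (A a b))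
    (hL : ∀ a b, -(L a + L b) ≤ 2 * e a b) : VG p (-(∑ a, L a)) A.det := by
  rw [Matrix.det_apply']
  apply VG_sum
  intro σ _
  have h1 : VG p (∑ i, e (σ i) i) (∏ i, A (σ i) i) :=
    VG_prod univ (fun i => A (σ i) i) (fun i => e (σ i) i) (fun i _ => hA _ _)
  have h2 : VG p 0 (((Equiv.Perm.sign σ : ℤ) : ℚ)) := VG_int _
  refine VG_mul' h2 h1 ?_
  have h3 : ∑ i, (-(L (σ i) + L i)) ≤ ∑ i, 2 * e (σ i) i := sum_le_sum fun i _ => hL _ _
  have h4 : ∑ i, L (σ i) = ∑ i, L i := Equiv.sum_comp σ L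
  rw [sum_neg_distrib, sum_add_distrib, h4, ← mul_sum] at h3
  omega

/-- the numbers of hits in the greedy choice -/
noncomputable def Lev_cnt {Y : Type} [Fintype Y] [DecidableEq Y] [Nonempty Y] (h : Y → ℤ) :
    ℕ → Y → ℕ
  | 0 => fun _ => 0
  | k + 1 => fun z => Lev_cnt h k z + if z = (Finite.exists_max
      (fun z => h z - 2 * (Lev_cnt h k z : ℤ))).choose then 1 else 0

/-! ### the determinant in terms of node polynomials -/

/-! ### residue classes -/

/-- every integer is congruent to `± y` with `y` in the half system -/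
theorem Lev_half' {p : ℕ} (hp : Odd p) (j : ℤ) :
    ∃ y : Fin ((p + 1) / 2), (p : ℤ) ∣ j - (y : ℕ) ∨ (p : ℤ) ∣ j + (y : ℕ) := by
  obtain ⟨q, rfl⟩ := hp
  have h0 : (0 : ℤ) < ((2 * q + 1 : ℕ) : ℤ) := by positivity
  have h1 := Int.emod_nonneg j h0.ne'
  have h2 := Int.emod_lt_of_pos j h0
  have h3 : ((2 * q + 1 : ℕ) : ℤ) ∣ j - j % ((2 * q + 1 : ℕ) : ℤ) := Int.dvd_self_sub_emod
  set r := j % ((2 * q + 1 : ℕ) : ℤ) with hr
  by_cases h : r ≤ q
  · refine ⟨⟨r.toNat, by (clear * - h0 h; omega)⟩, Or.inl ?_⟩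
    simpa [Int.toNat_of_nonneg h1] using h3
  · have h4 : (0 : ℤ) ≤ ((2 * q + 1 : ℕ) : ℤ) - r := by omega
    refine ⟨⟨(((2 * q + 1 : ℕ) : ℤ) - r).toNat, by push_cast at *; (clear * - h h2 hr; omega)⟩, Or.inr ?_⟩
    simp only [Int.toNat_of_nonneg h4]
    have h5 := dvd_add h3 (dvd_refl ((2 * q + 1 : ℕ) : ℤ))
    have e : j - r + ((2 * q + 1 : ℕ) : ℤ) = j + (((2 * q + 1 : ℕ) : ℤ) - r) := by ring
    rwa [e] at h5

end Vale.Agent.P030
end
end

section

section

/-! `p`-adic bounds of the determinant. The theorems of this file whose name ends in `_of` take the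
facts proved in other files as hypotheses. -/

namespace Vale.Agent.P030.Five

open Finset Polynomial Vale.Agent.P030

/-- the numbers of hits in the greedy choice -/
noncomputable def F5Lev_cnt {Y : Type} [Fintype Y] [DecidableEq Y] [Nonempty Y] (ell : Y → ℕ → ℕ) :
    ℕ → Y → ℕ
  | 0 => fun _ => 0
  | k + 1 => fun z => F5Lev_cnt ell k z + if z = (Finite.exists_max
      (fun z => ell z (F5Lev_cnt ell k z))).choose then 1 else 0

/-- greedy choice with general nonincreasing level functions. -/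
theorem greedy5 {Y : Type} [Fintype Y] [DecidableEq Y] [Nonempty Y] (ell : Y → ℕ → ℕ)
    (hmono : ∀ y n, ell y (n + 1) ≤ ell y n) (K lam : ℕ) :
    ∃ y : ℕ → Y, ∃ L : ℕ → ℕ,
      (∀ k z, ell z (((range k).filter (fun i => y i = z)).card) ≤ L k) ∧
      ∑ k ∈ range K, L k ≤ K * lam + ∑ z, ∑ n ∈ range K, (ell z n - lam) := by
  have _ := hmono
  set y : ℕ → Y := fun k => (Finite.exists_max
      (fun z => ell z (F5Lev_cnt ell k z))).choose with hy
  have hmax : ∀ k z, ell z (F5Lev_cnt ell k z) ≤ ell (y k) (F5Lev_cnt ell k (y k)) :=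
    fun k => (Finite.exists_max (fun z => ell z (F5Lev_cnt ell k z))).choose_spec
  have hstep : ∀ k z, F5Lev_cnt ell (k + 1) z = F5Lev_cnt ell k z + if z = y k then 1 else 0 :=
    fun k z => rfl
  have hcnt : ∀ k z, F5Lev_cnt ell k z = ((range k).filter (fun i => y i = z)).card := by
    intro k z
    induction k with
    | zero => simp [F5Lev_cnt]
    | succ k ih =>
      rw [hstep, ih, range_add_one, filter_insert]
      by_cases hz : y k = z
      · rw [if_pos hz.symm, if_pos hz, card_insert_of_notMem (by simp)]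
      · rw [if_neg (fun e => hz e.symm), if_neg hz, add_zero]
  refine ⟨y, fun k => ell (y k) (F5Lev_cnt ell k (y k)), fun k z => ?_, ?_⟩
  · rw [← hcnt]
    exact hmax k z
  have hsum : ∀ J : ℕ, ∑ k ∈ range J, (ell (y k) (F5Lev_cnt ell k (y k)) - lam) =
      ∑ z, ∑ n ∈ range (F5Lev_cnt ell J z), (ell z n - lam) := by
    intro J
    induction J with
    | zero => simp [F5Lev_cnt]
    | succ J ih =>
      rw [sum_range_succ, ih]
      have h1 : ∀ z, ∑ n ∈ range (F5Lev_cnt ell (J + 1) z), (ell z n - lam) =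
          ∑ n ∈ range (F5Lev_cnt ell J z), (ell z n - lam) +
            if z = y J then (ell (y J) (F5Lev_cnt ell J (y J)) - lam) else 0 := by
        intro z
        rw [hstep]
        by_cases hz : z = y J
        · rw [if_pos hz, if_pos hz, sum_range_succ, hz]
        · rw [if_neg hz, if_neg hz, add_zero, add_zero]
      rw [sum_congr rfl (fun z _ => h1 z), sum_add_distrib, sum_ite_eq' univ (y J)]
      simp
  have hle : ∀ z, F5Lev_cnt ell K z ≤ K := by
    intro z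
    rw [hcnt]
    exact (card_filter_le _ _).trans (card_range K).le
  calc ∑ k ∈ range K, ell (y k) (F5Lev_cnt ell k (y k)) ≤
      ∑ k ∈ range K, (lam + (ell (y k) (F5Lev_cnt ell k (y k)) - lam)) :=
        sum_le_sum fun k _ => by omega
    _ = K * lam + ∑ z, ∑ n ∈ range (F5Lev_cnt ell K z), (ell z n - lam) := by
        rw [sum_add_distrib, hsum, sum_const, card_range, smul_eq_mul]
    _ ≤ K * lam + ∑ z, ∑ n ∈ range K, (ell z n - lam) := by
        refine Nat.add_le_add_left (sum_le_sum fun z _ => ?_) _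
        exact sum_le_sum_of_subset (range_subset_range.2 (hle z))

/-! ### the determinant in terms of node polynomials -/

theorem F5Lev_nodePoly_eq (l : Multiset ℤ) :
    nodePoly2 l = ((l.map fun n : ℤ => ((n : ℝ) / 2) ^ 2).map fun a => (X : ℝ[X]) - C a).prod := by
  unfold nodePoly2
  rw [Multiset.map_map]
  rfl

theorem F5Lev_nodePoly_monic (l : Multiset ℤ) : (nodePoly2 l).Monic := by
  rw [F5Lev_nodePoly_eq]
  exact monic_multisetProd_X_sub_C _

theorem F5Lev_nodePoly_natDegree (l : Multiset ℤ) : (nodePoly2 l).natDegree = l.card := by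
  rw [F5Lev_nodePoly_eq, natDegree_multiset_prod_X_sub_C_eq_card, Multiset.card_map]

theorem F5Lev_nodePoly_add (l l' : Multiset ℤ) :
    nodePoly2 (l + l') = nodePoly2 l * nodePoly2 l' := by
  unfold nodePoly2
  rw [Multiset.map_add, Multiset.prod_add]

/-- statement of `HK5_eq_det` -/
def F5LevHdet (N K : ℕ) : Prop := ∀ Q : ℕ → ℝ[X], (∀ a, (Q a).Monic) →
    (∀ a, (Q a).natDegree = a) →
    HK5 N K = (Matrix.of fun a b : Fin K => psi5 N (Q a * Q b)).det

/-- statement of `psi5_eq` -/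
def F5LevHpsi (c : ℕ → ℚ) (N : ℕ) : Prop := ∀ l : Multiset ℤ, l.card ≤ 5 * N →
    psi5 N (nodePoly2 l) = ((psiQ5 c N l - exQ5 N l : ℚ) : ℝ)

/-- the rational matrix of the functional in the basis of the node polynomials -/
noncomputable def F5LevMat (c : ℕ → ℚ) (N K : ℕ) (l : ℕ → Multiset ℤ) :
    Matrix (Fin K) (Fin K) ℚ :=
  Matrix.of fun a b => psiQ5 c N (l a + l b) - exQ5 N (l a + l b)

theorem F5Lev_det {c : ℕ → ℚ} {N K : ℕ} (hdet : F5LevHdet N K) (hpsi : F5LevHpsi c N)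
    (hK : 2 * K ≤ 5 * N) (l : ℕ → Multiset ℤ) (hl : ∀ a, (l a).card = a) :
    HK5 N K = ((F5LevMat c N K l).det : ℝ) := by
  rw [hdet (fun a => nodePoly2 (l a)) (fun a => F5Lev_nodePoly_monic _)
    (fun a => by rw [F5Lev_nodePoly_natDegree, hl])]
  have h1 : (Matrix.of fun a b : Fin K => psi5 N (nodePoly2 (l a) * nodePoly2 (l b))) =
      (F5LevMat c N K l).map (Rat.castHom ℝ) := by
    ext a b
    simp only [Matrix.of_apply, Matrix.map_apply, F5LevMat]
    rw [← F5Lev_nodePoly_add, hpsi]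
    · rfl
    · rw [Multiset.card_add, hl, hl]
      have := a.2
      have := b.2
      omega
  rw [h1]
  exact ((Rat.castHom ℝ).map_det (F5LevMat c N K l)).symm

theorem F5Lev_det_eq {c : ℕ → ℚ} {N K : ℕ} (hdet : F5LevHdet N K) (hpsi : F5LevHpsi c N)
    (hK : 2 * K ≤ 5 * N) (l : ℕ → Multiset ℤ) (hl : ∀ a, (l a).card = a) {x : ℚ}
    (hx : HK5 N K = (x : ℝ)) : x = (F5LevMat c N K l).det := by
  have h := F5Lev_det hdet hpsi hK l hl
  rw [hx] at h
  exact_mod_cast h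

theorem F5Lev_card_evenNodes (a : ℕ) : (evenNodes a).card = a := by
  simp [evenNodes]

theorem exists_rat_HK5_of {c : ℕ → ℚ} {N K : ℕ} (hdet : F5LevHdet N K) (hpsi : F5LevHpsi c N)
    (hK : 2 * K ≤ 5 * N) : ∃ x : ℚ, HK5 N K = (x : ℝ) :=
  ⟨_, F5Lev_det hdet hpsi hK evenNodes F5Lev_card_evenNodes⟩

/-! ### residue classes -/

theorem F5Lev_Pd_congr {N p : ℕ} {r s : ℤ} (h : (p : ℤ) ∣ r - s) : Pd N p r = Pd N p s := by
  unfold Pd
  congr 1
  apply filter_congr
  intro j _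
  constructor
  · intro h1
    have := dvd_sub h1 h
    have e : r - 2 * j - (r - s) = s - 2 * j := by ring
    rwa [e] at this
  · intro h1
    have := dvd_add h1 h
    have e : s - 2 * j + (r - s) = r - 2 * j := by ring
    rwa [e] at this

theorem F5Lev_Pd_neg {N p : ℕ} (r : ℤ) : Pd N p (-r) = Pd N p r := by
  unfold Pd
  refine card_bij' (fun j _ => -j) (fun j _ => -j) ?_ ?_ (fun j _ => neg_neg j)
    (fun j _ => neg_neg j)
  · intro j hj
    rw [mem_filter, mem_Icc] at hj ⊢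
    refine ⟨⟨by omega, by omega⟩, ?_⟩
    have := (dvd_neg).2 hj.2
    have e : -(-r - 2 * j) = r - 2 * -j := by ring
    rwa [e] at this
  · intro j hj
    rw [mem_filter, mem_Icc] at hj ⊢
    refine ⟨⟨by omega, by omega⟩, ?_⟩
    have := (dvd_neg).2 hj.2
    have e : -(r - 2 * j) = -r - 2 * -j := by ring
    rwa [e] at this

theorem F5Lev_Pd_pm {N p : ℕ} {s z : ℤ} (h : (p : ℤ) ∣ s - z ∨ (p : ℤ) ∣ s + z) :
    Pd N p s = Pd N p z := by
  rcases h with h | h
  · exact F5Lev_Pd_congr h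
  · rw [← F5Lev_Pd_neg z]
    apply F5Lev_Pd_congr
    simpa using h

/-- the number of hits counts the chosen nodes in the class of `r` -/
theorem F5Lev_qd_ge {p : ℕ} {Y : Type} [DecidableEq Y] (f : ℕ → ℤ) (y : ℕ → Y) (a : ℕ) (z : Y)
    (r : ℤ) (hz : ∀ i, y i = z → (p : ℤ) ∣ r - f i ∨ (p : ℤ) ∣ r + f i) :
    ((range a).filter (fun i => y i = z)).card ≤ qd p ((Multiset.range a).map f) r := by
  unfold qd
  rw [Multiset.map_map]
  have h1 : ((Multiset.range a).map ((fun n => (if (p : ℤ) ∣ r - n then 1 else 0) +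
      (if (p : ℤ) ∣ r + n then 1 else 0)) ∘ f)).sum =
      ∑ i ∈ range a, ((if (p : ℤ) ∣ r - f i then 1 else 0) +
        (if (p : ℤ) ∣ r + f i then 1 else 0)) := rfl
  rw [h1, card_filter]
  apply sum_le_sum
  intro i _
  by_cases h : y i = z
  · rw [if_pos h]
    rcases hz i h with hz | hz
    · rw [if_pos hz]; omega
    · rw [if_pos hz]; omega
  · rw [if_neg h]; omega

theorem F5Lev_qd_add (p : ℕ) (l l' : Multiset ℤ) (r : ℤ) :
    qd p (l + l') r = qd p l r + qd p l' r := by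
  unfold qd
  rw [Multiset.map_add, Multiset.sum_add]

/-- the step at which the class `z` is chosen for the `i`-th time -/
theorem F5Lev_step {Y : Type} [DecidableEq Y] (y : ℕ → Y) (z : Y) (a i : ℕ)
    (h : i < ((range a).filter (fun j => y j = z)).card) :
    ∃ k < a, y k = z ∧ ((range k).filter (fun j => y j = z)).card = i := by
  induction a with
  | zero => simp at h
  | succ a ih =>
    by_cases h1 : i < ((range a).filter (fun j => y j = z)).card
    · obtain ⟨k, hk, h2, h3⟩ := ih h1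
      exact ⟨k, by omega, h2, h3⟩
    · rw [range_add_one, filter_insert] at h
      by_cases hz : y a = z
      · rw [if_pos hz, card_insert_of_notMem (by simp)] at h
        exact ⟨a, by omega, hz, by omega⟩
      · rw [if_neg hz] at h
        exact absurd h h1

theorem F5Lev_mono (N p y n : ℕ) : lev5 N p y (n + 1) ≤ lev5 N p y n := by
  unfold lev5
  by_cases h1 : 2 ≤ Pd N p (2 * y)
  · rw [if_pos h1, if_pos h1]
    omega
  · rw [if_neg h1, if_neg h1]
    by_cases h2 : Pd N p (2 * y) = 1 ∧ n + 1 < (siteSet N p y).card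
    · rw [if_pos h2, if_pos ⟨h2.1, by omega⟩]
      omega
    · rw [if_neg h2]
      omega

/-- enumeration of the sites of a class -/
theorem F5Lev_sites (s : Finset ℕ) : ∃ e : ℕ → ℕ, (∀ i < s.card, e i ∈ s) ∧
    ∀ m ∈ s, ∃ i < s.card, e i = m := by
  refine ⟨fun i => if h : i < s.card then (s.equivFin.symm ⟨i, h⟩).1 else 0, ?_, ?_⟩
  · intro i hi
    simp only [dif_pos hi]
    exact (s.equivFin.symm ⟨i, hi⟩).2
  · intro m hm
    refine ⟨(s.equivFin ⟨m, hm⟩).1, (s.equivFin ⟨m, hm⟩).2, ?_⟩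
    simp only [dif_pos (s.equivFin ⟨m, hm⟩).2]
    simp

theorem det_refined5_of {p : ℕ} [Fact p.Prime] (hp2 : p ≠ 2) (N K : ℕ)
    (hK : 2 * K ≤ 5 * N) (c : ℕ → ℚ) (hdet : F5LevHdet N K) (hpsi : F5LevHpsi c N)
    (hentry : ∀ (l : Multiset ℤ) (B : ℤ), 0 ≤ B →
      (∀ j ∈ Icc (-(N : ℤ)) N, 2 ≤ Pd N p (2 * j) →
        5 * (Pd N p (2 * j) : ℤ) - (qd p l (2 * j) : ℤ) ≤ B) →
      VG p (-B) (psiQ5 c N l))
    (hentry' : ∀ (l : Multiset ℤ) (B : ℤ), 0 ≤ B →
      (∀ m ∈ range N, 1 ≤ Pd N p (2 * m + 1) → (2 * m + 1 : ℤ) ∈ l ∨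
        5 * (Pd N p (2 * m + 1) : ℤ) - (qd p l (2 * m + 1) : ℤ) ≤ B) →
      VG p (-B) (exQ5 N l))
    (x : ℚ) (hx : HK5 N K = (x : ℝ)) (hx0 : x ≠ 0) (lam : ℕ) :
    -(padicValRat p x : ℝ) ≤ K * lam + levSum N K p lam := by
  have hpodd : Odd p := (Fact.out : p.Prime).odd_of_ne_two hp2
  have hne : Nonempty (Fin ((p + 1) / 2)) := by
    refine ⟨⟨0, ?_⟩⟩
    have := (Fact.out : p.Prime).two_le
    omega
  obtain ⟨y, L, hL, hsum⟩ := greedy5 (fun z : Fin ((p + 1) / 2) => lev5 N p z)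
    (fun z n => F5Lev_mono N p z n) K lam
  choose e he1 he2 using fun z : Fin ((p + 1) / 2) => F5Lev_sites (siteSet N p z)
  -- the counters and the nodes
  set cn : ℕ → Fin ((p + 1) / 2) → ℕ :=
    fun a z => ((range a).filter (fun i => y i = z)).card with hcn
  set nd : ℕ → ℤ := fun k =>
    if Pd N p (2 * ((y k : ℕ) : ℤ)) = 1 ∧ cn k (y k) < (siteSet N p (y k)).card then
      2 * (e (y k) (cn k (y k)) : ℤ) + 1 else 2 * ((y k : ℕ) : ℤ) with hnd
  set l : ℕ → Multiset ℤ := fun a => (Multiset.range a).map nd with hl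
  have hcard : ∀ a, (l a).card = a := by
    intro a
    simp [hl]
  -- the nodes are in their classes
  have hcls : ∀ k, (p : ℤ) ∣ nd k - 2 * ((y k : ℕ) : ℤ) ∨ (p : ℤ) ∣ nd k + 2 * ((y k : ℕ) : ℤ) := by
    intro k
    simp only [hnd]
    split_ifs with h
    · have h1 := he1 (y k) _ h.2
      rw [siteSet, mem_filter] at h1
      exact h1.2
    · left
      simp
  -- number of hits
  have hhit : ∀ (a : ℕ) (z : Fin ((p + 1) / 2)) (s : ℤ),
      (p : ℤ) ∣ s - 2 * ((z : ℕ) : ℤ) ∨ (p : ℤ) ∣ s + 2 * ((z : ℕ) : ℤ) →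
      cn a z ≤ qd p (l a) s := by
    intro a z s hs
    apply F5Lev_qd_ge
    intro i hi
    have h1 := hcls i
    rw [hi] at h1
    rcases hs with hs | hs <;> rcases h1 with h1 | h1
    · left
      have := dvd_sub hs h1
      have e1 : s - 2 * ((z : ℕ) : ℤ) - (nd i - 2 * ((z : ℕ) : ℤ)) = s - nd i := by ring
      rwa [e1] at this
    · right
      have := dvd_add hs h1
      have e1 : s - 2 * ((z : ℕ) : ℤ) + (nd i + 2 * ((z : ℕ) : ℤ)) = s + nd i := by ring
      rwa [e1] at this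
    · right
      have := dvd_add hs h1
      have e1 : s + 2 * ((z : ℕ) : ℤ) + (nd i - 2 * ((z : ℕ) : ℤ)) = s + nd i := by ring
      rwa [e1] at this
    · left
      have := dvd_sub hs h1
      have e1 : s + 2 * ((z : ℕ) : ℤ) - (nd i + 2 * ((z : ℕ) : ℤ)) = s - nd i := by ring
      rwa [e1] at this
  have hxdet := F5Lev_det_eq hdet hpsi hK l hcard hx
  have hV : VG p (-(∑ a : Fin K, (L a : ℤ))) (F5LevMat c N K l).det := by
    apply VG_det (F5LevMat c N K l) (fun a b => -(((L a : ℤ) + L b) / 2)) (fun a => (L a : ℤ))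
    · intro a b
      -- classes with at least two poles
      have hbig : ∀ (s : ℤ) (z : Fin ((p + 1) / 2)),
          (p : ℤ) ∣ s - 2 * ((z : ℕ) : ℤ) ∨ (p : ℤ) ∣ s + 2 * ((z : ℕ) : ℤ) →
          2 ≤ Pd N p s →
          5 * (Pd N p s : ℤ) - (qd p (l a + l b) s : ℤ) ≤ ((L a : ℤ) + L b) / 2 := by
        intro s z hs hP
        have hPz := F5Lev_Pd_pm (N := N) hs
        have h1 := hL a z
        have h2 := hL b z
        have hq1 := hhit a z s hs
        have hq2 := hhit b z s hs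
        have hq : qd p (l a + l b) s = qd p (l a) s + qd p (l b) s := F5Lev_qd_add _ _ _ _
        rw [hPz] at hP ⊢
        simp only [lev5] at h1 h2
        rw [if_pos hP] at h1 h2
        simp only [hcn] at hq1 hq2
        (clear * - hPz h1 h2 hq hq1 hq2; omega)
      refine VG_sub (hentry _ _ (by (clear * -; positivity)) ?_) (hentry' _ _ (by (clear * -; positivity)) ?_)
      · intro j _ hP
        obtain ⟨z, hz⟩ := Lev_half' hpodd j
        refine hbig (2 * j) z ?_ hP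
        rcases hz with hz | hz
        · left
          have := Dvd.dvd.mul_left hz 2
          have e1 : 2 * (j - ((z : ℕ) : ℤ)) = 2 * j - 2 * ((z : ℕ) : ℤ) := by ring
          rwa [e1] at this
        · right
          have := Dvd.dvd.mul_left hz 2
          have e1 : 2 * (j + ((z : ℕ) : ℤ)) = 2 * j + 2 * ((z : ℕ) : ℤ) := by ring
          rwa [e1] at this
      · intro m hm hP
        -- a pole in the class
        have hex : ∃ j : ℤ, (p : ℤ) ∣ (2 * (m : ℤ) + 1) - 2 * j := by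
          unfold Pd at hP
          obtain ⟨j, hj⟩ := card_pos.1 (Nat.lt_of_lt_of_le Nat.zero_lt_one hP)
          rw [mem_filter] at hj
          exact ⟨j, hj.2⟩
        obtain ⟨j, hj⟩ := hex
        obtain ⟨z, hz⟩ := Lev_half' hpodd j
        have hs : (p : ℤ) ∣ (2 * (m : ℤ) + 1) - 2 * ((z : ℕ) : ℤ) ∨
            (p : ℤ) ∣ (2 * (m : ℤ) + 1) + 2 * ((z : ℕ) : ℤ) := by
          rcases hz with hz | hz
          · left
            have := dvd_add hj (Dvd.dvd.mul_left hz 2)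
            have e1 : 2 * (m : ℤ) + 1 - 2 * j + 2 * (j - ((z : ℕ) : ℤ)) =
                2 * (m : ℤ) + 1 - 2 * ((z : ℕ) : ℤ) := by ring
            rwa [e1] at this
          · right
            have := dvd_add hj (Dvd.dvd.mul_left hz 2)
            have e1 : 2 * (m : ℤ) + 1 - 2 * j + 2 * (j + ((z : ℕ) : ℤ)) =
                2 * (m : ℤ) + 1 + 2 * ((z : ℕ) : ℤ) := by ring
            rwa [e1] at this
        by_cases hP2 : 2 ≤ Pd N p (2 * (m : ℤ) + 1)
        · exact Or.inr (hbig _ z hs hP2)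
        have hP1 : Pd N p (2 * (m : ℤ) + 1) = 1 := by omega
        have hPz : Pd N p (2 * ((z : ℕ) : ℤ)) = 1 := by
          rw [← F5Lev_Pd_pm (N := N) hs]; exact hP1
        have hms : m ∈ siteSet N p z := by
          rw [siteSet, mem_filter]
          exact ⟨hm, hs⟩
        obtain ⟨i, hi, hei⟩ := he2 z m hms
        -- if the site has been used as a node
        have hused : ∀ a' : ℕ, i < cn a' z → (2 * (m : ℤ) + 1) ∈ l a' := by
          intro a' ha'
          obtain ⟨k, hk, hyk, hck⟩ := F5Lev_step y z a' i ha'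
          have hck' : cn k z = i := hck
          simp only [hl]
          rw [Multiset.mem_map]
          refine ⟨k, Multiset.mem_range.2 hk, ?_⟩
          simp only [hnd]
          rw [hyk, hck', if_pos ⟨hPz, hi⟩, hei]
        by_cases h1 : i < cn a z
        · exact Or.inl (Multiset.mem_add.2 (Or.inl (hused a h1)))
        by_cases h2 : i < cn b z
        · exact Or.inl (Multiset.mem_add.2 (Or.inr (hused b h2)))
        right
        have h3 := hL a z
        have h4 := hL b z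
        have hq1 := hhit a z _ hs
        have hq2 := hhit b z _ hs
        have hq : qd p (l a + l b) (2 * (m : ℤ) + 1) =
          qd p (l a) (2 * (m : ℤ) + 1) + qd p (l b) (2 * (m : ℤ) + 1) := F5Lev_qd_add _ _ _ _
        have hn2 : ¬ 2 ≤ Pd N p (2 * ((z : ℕ) : ℤ)) := by omega
        simp only [lev5] at h3 h4
        rw [if_neg hn2, if_pos ⟨hPz, by simp only [hcn] at h1; omega⟩] at h3
        rw [if_neg hn2, if_pos ⟨hPz, by simp only [hcn] at h2; omega⟩] at h4
        rw [hP1]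
        simp only [hcn] at hq1 hq2
        (clear * - h3 h4 hq hq1 hq2; omega)
    · intro a b
      show -((L a : ℤ) + L b) ≤ 2 * (-(((L a : ℤ) + L b) / 2))
      omega
  rw [← hxdet, VG_iff hx0] at hV
  have h1 : ∑ a : Fin K, (L a : ℤ) = ∑ k ∈ range K, (L k : ℤ) :=
    (Finset.sum_range (fun k => (L k : ℤ))).symm
  have h2 : (-(padicValRat p x) : ℤ) ≤ ((∑ k ∈ range K, L k : ℕ) : ℤ) := by
    push_cast
    rw [← h1]
    omega
  have h3 : (-(padicValRat p x) : ℤ) ≤ ((K * lam + levSum N K p lam : ℕ) : ℤ) := by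
    refine h2.trans (Int.ofNat_le.2 (hsum.trans (le_of_eq ?_)))
    congr 1
    unfold levSum
    rw [Finset.sum_range]
  exact_mod_cast h3

/-- crude bound, for `p` odd and for `p = 2` -/
theorem F5Lev_crude {p : ℕ} [Fact p.Prime] (N K : ℕ) (hK : 2 * K ≤ 5 * N) (c : ℕ → ℚ)
    (hdet : F5LevHdet N K) (hpsi : F5LevHpsi c N) (T : ℤ) (v : ℕ → ℤ)
    (hentry : ∀ a b, a < K → b < K →
      VG p (-T + v a + v b)
        (psiQ5 c N (evenNodes a + evenNodes b) - exQ5 N (evenNodes a + evenNodes b)))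
    (x : ℚ) (hx : HK5 N K = (x : ℝ)) (hx0 : x ≠ 0) :
    -(padicValRat p x) ≤ K * T - 2 * ∑ k ∈ range K, v k := by
  have hxdet := F5Lev_det_eq hdet hpsi hK evenNodes F5Lev_card_evenNodes hx
  have hV : VG p (-(∑ a : Fin K, (T - 2 * v a))) (F5LevMat c N K evenNodes).det := by
    apply VG_det (F5LevMat c N K evenNodes) (fun a b => -T + v a + v b)
    · intro a b
      exact hentry a b a.2 b.2
    · intro a b
      show -((T - 2 * v a) + (T - 2 * v b)) ≤ 2 * (-T + v a + v b)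
      omega
  rw [← hxdet, VG_iff hx0] at hV
  have h1 : ∑ a : Fin K, (T - 2 * v a) = K * T - 2 * ∑ k ∈ range K, v k := by
    rw [sum_sub_distrib, ← mul_sum, Finset.sum_range (fun k => v k)]
    simp
  rw [h1] at hV
  omega

theorem det_crude5_of {p : ℕ} [Fact p.Prime] (N K e d : ℕ) (hK : 2 * K ≤ 5 * N) (c : ℕ → ℚ)
    (hdet : F5LevHdet N K) (hpsi : F5LevHpsi c N)
    (hentry : ∀ a b, a < K → b < K →
      VG p (-5 * (padicValNat p (2 * N).factorial : ℤ) + padicValNat p (2 * a - 1).factorial +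
      padicValNat p (2 * b - 1).factorial - 5 * e - d)
      (psiQ5 c N (evenNodes a + evenNodes b) - exQ5 N (evenNodes a + evenNodes b)))
    (x : ℚ) (hx : HK5 N K = (x : ℝ)) (hx0 : x ≠ 0) :
    -(padicValRat p x) ≤ K * (5 * (padicValNat p (2 * N).factorial : ℤ) + 5 * e + d) -
      2 * ∑ k ∈ range K, (padicValNat p (2 * k - 1).factorial : ℤ) := by
  apply F5Lev_crude N K hK c hdet hpsi _ (fun k => (padicValNat p (2 * k - 1).factorial : ℤ)) _
    x hx hx0
  intro a b ha hb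
  refine VG_mono (hentry a b ha hb) (le_of_eq ?_)
  ring

end Vale.Agent.P030.Five
end
end

section

section

/-! T0: basic facts on `psi`. -/

namespace Vale.Agent.P030

open Finset Polynomial

theorem Basic_eval_le (P : ℝ[X]) (n : ℕ) (h : P.natDegree ≤ n) {x : ℝ} (hx : 1 ≤ x) :
    |P.eval x| ≤ (∑ i ∈ range (n + 1), |P.coeff i|) * x ^ n := by
  rw [eval_eq_sum_range' (Nat.lt_succ_of_le h), Finset.sum_mul]
  refine (Finset.abs_sum_le_sum_abs _ _).trans (Finset.sum_le_sum fun i hi => ?_)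
  rw [abs_mul, abs_of_nonneg (by positivity : (0 : ℝ) ≤ x ^ i)]
  have hi' : i ≤ n := Nat.lt_succ_iff.1 (Finset.mem_range.1 hi)
  exact mul_le_mul_of_nonneg_left (pow_le_pow_right₀ hx hi') (abs_nonneg _)

theorem Basic_card_Icc (N : ℕ) : (Icc (-(N : ℤ)) N).card = 2 * N + 1 := by
  rw [Int.card_Icc]; omega

theorem Basic_Den_ge (N : ℕ) {t : ℝ} (ht : 2 * (N : ℝ) ≤ t) :
    (t / 2) ^ (2 * N + 1) ≤ Den N t := by
  have ht0 : 0 ≤ t := le_trans (by positivity) ht
  unfold Den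
  rw [← Basic_card_Icc N, ← Finset.prod_const]
  refine Finset.prod_le_prod (fun _ _ => by positivity) fun j hj => ?_
  have h1 : j ≤ (N : ℤ) := (Finset.mem_Icc.1 hj).2
  have h2 : (j : ℝ) ≤ (N : ℝ) := by exact_mod_cast h1
  linarith only [h2, ht]

end Vale.Agent.P030
end
end

section

section

/-! F1: basic facts on `psi5`. -/

namespace Vale.Agent.P030.Five

open Finset Polynomial Vale.Agent.P030

theorem F5Basic_wt_bound (N : ℕ) (P : ℝ[X]) (hP : P.natDegree ≤ 5 * N) (i : ℕ)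
    (hi : N + 1 ≤ i) :
    |wt5 N i * P.eval (((N : ℝ) + i + 1 / 2) ^ 2)| ≤
      ((∑ k ∈ range (5 * N + 1), |P.coeff k|) * 2 ^ (10 * N + 5)) * (1 / (i : ℝ) ^ 2) := by
  set S := ∑ k ∈ range (5 * N + 1), |P.coeff k| with hS
  have hS0 : 0 ≤ S := Finset.sum_nonneg fun _ _ => abs_nonneg _
  have hi' : (N : ℝ) + 1 ≤ i := by exact_mod_cast hi
  have hN0 : (0 : ℝ) ≤ N := by positivity
  set t : ℝ := (N : ℝ) + i + 1 / 2 with ht
  have ht1 : 1 ≤ t := by linarith only [hi', ht]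
  have ht0 : 0 < t := by linarith only [ht, hi']
  have hi1 : (1 : ℝ) ≤ i := by linarith only [hi']
  have hD := Basic_Den_ge N (t := t) (by linarith only [ht, hi'])
  have hD0 : 0 < Den N t := lt_of_lt_of_le (by (clear * - hi1; positivity)) hD
  have hE := Basic_eval_le P (5 * N) hP (x := t ^ 2) (one_le_pow₀ ht1)
  have hf : |f5 N t| ≤ t / ((t / 2) ^ (2 * N + 1)) ^ 5 := by
    unfold f5
    rw [abs_of_nonneg (by (clear * - hi1 hD0; positivity))]
    gcongr
  have hw : |wt5 N i| = |f5 N t| := by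
    unfold wt5
    rw [abs_mul, abs_pow, abs_neg, abs_one, one_pow, one_mul]
  rw [abs_mul, hw]
  calc |f5 N t| * |eval (t ^ 2) P|
      ≤ (t / ((t / 2) ^ (2 * N + 1)) ^ 5) * (S * (t ^ 2) ^ (5 * N)) := by
        gcongr
    _ = (S * 2 ^ (10 * N + 5)) * (1 / t ^ 4) := by
        have e1 : ((t / 2) ^ (2 * N + 1)) ^ 5 = t ^ (10 * N + 5) / 2 ^ (10 * N + 5) := by
          rw [← pow_mul, div_pow]
          congr 2 <;> ring
        have e2 : t ^ (10 * N + 5) = t * (t ^ 2) ^ (5 * N) * t ^ 4 := by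
          rw [← pow_mul, ← pow_succ', ← pow_add]
          congr 1
          ring
        rw [e1, e2]
        field_simp
    _ ≤ (S * 2 ^ (10 * N + 5)) * (1 / (i : ℝ) ^ 2) := by
        refine mul_le_mul_of_nonneg_left ?_ (by (clear * -; positivity))
        refine one_div_le_one_div_of_le (by (clear * - hi1; positivity)) ?_
        have h1 : (i : ℝ) ≤ t := by linarith only [ht]
        calc (i : ℝ) ^ 2 ≤ t ^ 2 := by gcongr
          _ ≤ t ^ 4 := pow_le_pow_right₀ ht1 (by norm_num)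

theorem summable_wt5 (N : ℕ) (P : ℝ[X]) (hP : P.natDegree ≤ 5 * N) :
    Summable fun i : ℕ => |wt5 N i * P.eval (((N : ℝ) + i + 1 / 2) ^ 2)| := by
  have h1 : Summable fun i : ℕ =>
      ((∑ k ∈ range (5 * N + 1), |P.coeff k|) * 2 ^ (10 * N + 5)) * (1 / (i : ℝ) ^ 2) :=
    (Real.summable_one_div_nat_pow.2 (by norm_num)).mul_left _
  refine Summable.of_norm_bounded_eventually_nat h1 ?_
  filter_upwards [Filter.eventually_ge_atTop (N + 1)] with i hi
  rw [Real.norm_eq_abs, abs_abs]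
  exact F5Basic_wt_bound N P hP i hi

theorem psi5_apply (N : ℕ) (P : ℝ[X]) (hP : P.natDegree ≤ 5 * N) :
    psi5 N P = ∑' i : ℕ, wt5 N i * P.eval (((N : ℝ) + i + 1 / 2) ^ 2) := by
  have h1 : psi5 N P = ∑ k ∈ range (P.natDegree + 1), P.coeff k * mom5 N k := by
    have : psi5 N P = P.sum fun i a => a • mom5 N i := rfl
    rw [this, Polynomial.sum_over_range]
    · simp [smul_eq_mul]
    · intro n; simp
  have h2 : ∀ k ∈ range (P.natDegree + 1), Summable fun i : ℕ =>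
      P.coeff k * (wt5 N i * (((N : ℝ) + i + 1 / 2) ^ 2) ^ k) := by
    intro k hk
    have hk' : k ≤ P.natDegree := Nat.lt_succ_iff.1 (Finset.mem_range.1 hk)
    have := summable_wt5 N (X ^ k) ((natDegree_X_pow k).le.trans (hk'.trans hP))
    simp only [eval_pow, eval_X] at this
    exact (Summable.of_abs this).mul_left _
  rw [h1]
  calc ∑ k ∈ range (P.natDegree + 1), P.coeff k * mom5 N k
      = ∑ k ∈ range (P.natDegree + 1), ∑' i : ℕ,
        P.coeff k * (wt5 N i * (((N : ℝ) + i + 1 / 2) ^ 2) ^ k) := by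
        refine Finset.sum_congr rfl fun k _ => ?_
        rw [mom5, tsum_mul_left]
    _ = ∑' i : ℕ, ∑ k ∈ range (P.natDegree + 1),
        P.coeff k * (wt5 N i * (((N : ℝ) + i + 1 / 2) ^ 2) ^ k) :=
          (Summable.tsum_finsetSum h2).symm
    _ = _ := by
        refine tsum_congr fun i => ?_
        rw [eval_eq_sum_range, Finset.mul_sum]
        exact Finset.sum_congr rfl fun k _ => by ring

/-- change of basis in the Hankel determinant. -/
theorem HK5_eq_det (N K : ℕ) (Q : ℕ → ℝ[X]) (hm : ∀ a, (Q a).Monic)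
    (hd : ∀ a, (Q a).natDegree = a) :
    HK5 N K = (Matrix.of fun a b : Fin K => psi5 N (Q a * Q b)).det := by
  set U : Matrix (Fin K) (Fin K) ℝ := Matrix.of fun a c => (Q a).coeff c with hU
  set H : Matrix (Fin K) (Fin K) ℝ :=
    Matrix.of fun a b : Fin K => psi5 N (X ^ ((a : ℕ) + (b : ℕ))) with hH
  have hQ : ∀ a : Fin K, Q a = ∑ c : Fin K, U a c • (X : ℝ[X]) ^ (c : ℕ) := by
    intro a
    have h1 : (Q a).natDegree < K := by rw [hd]; exact a.2
    conv_lhs => rw [Polynomial.as_sum_range' (Q a) K h1]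
    rw [Finset.sum_range]
    refine Finset.sum_congr rfl fun c _ => ?_
    rw [← Polynomial.smul_X_eq_monomial]
    rfl
  have hent : (Matrix.of fun a b : Fin K => psi5 N (Q a * Q b)) = U * H * U.transpose := by
    ext a b
    rw [Matrix.of_apply, hQ a, hQ b, Matrix.mul_apply]
    simp only [Matrix.mul_apply, Matrix.transpose_apply]
    rw [Finset.sum_mul_sum, map_sum]
    simp only [map_sum]
    rw [Finset.sum_comm]
    refine Finset.sum_congr rfl fun d _ => ?_
    rw [Finset.sum_mul]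
    refine Finset.sum_congr rfl fun c _ => ?_
    rw [smul_mul_smul_comm, ← pow_add, map_smul, smul_eq_mul, hH, Matrix.of_apply]
    ring
  have hdetU : U.det = 1 := by
    rw [Matrix.det_of_isLowerTriangular]
    · refine Finset.prod_eq_one fun a _ => ?_
      have h1 := (hm a).coeff_natDegree
      rw [hd] at h1
      exact h1
    · intro a c hac
      have hac' : (a : ℕ) < c := by
        simpa using hac
      exact Polynomial.coeff_eq_zero_of_natDegree_lt (by rw [hd]; exact hac')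
  rw [hent, Matrix.det_mul, Matrix.det_mul, Matrix.det_transpose, hdetU, one_mul, mul_one]
  rfl

end Vale.Agent.P030.Five
end
end

section

section

namespace Vale.Agent.P030

open Finset Polynomial Filter Topology

/-! ### (A) partial fractions -/

theorem PF_lin_coe (c : ℚ) : ((X + C c : ℚ[X]) : PowerSeries ℚ) = lin c := by
  rw [lin, Polynomial.coe_add, Polynomial.coe_X, Polynomial.coe_C]

theorem PF_lin_inv {c : ℚ} (hc : c ≠ 0) : lin c * (lin c)⁻¹ = 1 := by
  apply PowerSeries.mul_inv_cancel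
  rw [lin, map_add, PowerSeries.constantCoeff_X, PowerSeries.constantCoeff_C, zero_add]
  exact hc

/-! ### (C) alternating sums -/

/-- partial alternating sums -/
noncomputable def PF_A (i : ℕ) (j : ℤ) (M : ℕ) : ℝ :=
  ∑ m ∈ range M, (-1 : ℝ) ^ m / ((m : ℝ) + 1 / 2 - (j : ℝ)) ^ i

theorem PF_A_succ (i : ℕ) (j : ℤ) (M : ℕ) :
    PF_A i (j + 1) (M + 1) = 1 / (-(1 / 2) - (j : ℝ)) ^ i - PF_A i j M := by
  rw [PF_A, Finset.sum_range_succ', PF_A, add_comm, ← sub_neg_eq_add, ← Finset.sum_neg_distrib]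
  congr 1
  · push_cast
    rw [pow_zero]
    congr 2
    ring
  · refine Finset.sum_congr rfl fun m _ => ?_
    push_cast
    rw [pow_succ, mul_neg_one, neg_div, neg_neg]
    congr 2
    ring

theorem PF_S_succ (i : ℕ) (j : ℤ) :
    Ssum i (j + 1) = Ssum i j + (-1 : ℚ) ^ (-j - 1) / (((-j - 1 : ℤ) : ℚ) + 1 / 2) ^ i := by
  rw [Ssum, Ssum]
  have e : -(j + 1) = -j - 1 := by ring
  rw [e]
  rcases le_or_gt 0 j with h | h
  · have h1 : Ico (-j - 1) (0 : ℤ) = insert (-j - 1) (Ico (-j) 0) := by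
      ext x; simp only [mem_Ico, mem_insert]; omega
    have h2 : Ico (0 : ℤ) (-j - 1) = ∅ := by
      apply Finset.Ico_eq_empty; omega
    have h3 : Ico (0 : ℤ) (-j) = ∅ := by
      apply Finset.Ico_eq_empty; omega
    rw [h1, h2, h3, Finset.sum_insert (by simp only [mem_Ico]; omega)]
    simp only [Finset.sum_empty]
    ring
  · have h1 : Ico (0 : ℤ) (-j) = insert (-j - 1) (Ico 0 (-j - 1)) := by
      ext x; simp only [mem_Ico, mem_insert]; omega
    have h2 : Ico (-j - 1) (0 : ℤ) = ∅ := by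
      apply Finset.Ico_eq_empty; omega
    have h3 : Ico (-j) (0 : ℤ) = ∅ := by
      apply Finset.Ico_eq_empty; omega
    rw [h1, h2, h3, Finset.sum_insert (by simp only [mem_Ico]; omega)]
    simp only [Finset.sum_empty]
    ring

theorem PF_neg_one_zpow (j : ℤ) : (-1 : ℝ) ^ j = 1 ∨ (-1 : ℝ) ^ j = -1 := by
  rcases Int.even_or_odd j with h | h
  · exact Or.inl h.neg_one_zpow
  · exact Or.inr h.neg_one_zpow

theorem PF_A_tendsto {i : ℕ} {L : ℝ} (hL : Tendsto (PF_A i 0) atTop (𝓝 L)) (j : ℤ) :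
    Tendsto (PF_A i j) atTop (𝓝 ((-1 : ℝ) ^ j * (L + (Ssum i j : ℝ)))) := by
  have key : ∀ j : ℤ, 1 / (-(1 / 2) - (j : ℝ)) ^ i - (-1 : ℝ) ^ j * (L + (Ssum i j : ℝ)) =
      (-1 : ℝ) ^ (j + 1) * (L + (Ssum i (j + 1) : ℝ)) := by
    intro j
    rw [PF_S_succ]
    push_cast
    rw [zpow_add_one₀ (by norm_num : (-1 : ℝ) ≠ 0)]
    have h1 : (-1 : ℝ) ^ (-j - 1) = -(-1 : ℝ) ^ j := by
      have h2 : (-1 : ℝ) ^ (-j - 1) = ((-1 : ℝ) ^ (j + 1))⁻¹ := by
        rw [← zpow_neg]; congr 1; ring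
      rw [h2, zpow_add_one₀ (by norm_num : (-1 : ℝ) ≠ 0), mul_neg_one, inv_neg]
      rcases PF_neg_one_zpow j with h | h <;> rw [h] <;> norm_num
    rw [h1]
    have h3 : ((-1 : ℝ) ^ j) * ((-1 : ℝ) ^ j) = 1 := by
      rcases PF_neg_one_zpow j with h | h <;> rw [h] <;> norm_num
    have h4 : (-(j : ℝ) - 1 + 1 / 2) = -(1 / 2) - (j : ℝ) := by ring
    rw [h4]
    have h5 : (-1 : ℝ) ^ j * -1 * (L + ((Ssum i j : ℝ) +
        -(-1 : ℝ) ^ j / (-(1 / 2) - (j : ℝ)) ^ i)) =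
        ((-1 : ℝ) ^ j * (-1 : ℝ) ^ j) * (1 / (-(1 / 2) - (j : ℝ)) ^ i) -
          (-1 : ℝ) ^ j * (L + (Ssum i j : ℝ)) := by ring
    rw [h5, h3, one_mul]
  have up : ∀ j : ℤ, Tendsto (PF_A i j) atTop (𝓝 ((-1 : ℝ) ^ j * (L + (Ssum i j : ℝ)))) →
      Tendsto (PF_A i (j + 1)) atTop
        (𝓝 ((-1 : ℝ) ^ (j + 1) * (L + (Ssum i (j + 1) : ℝ)))) := by
    intro j hj
    rw [← tendsto_add_atTop_iff_nat 1, ← key j]
    simp only [PF_A_succ]
    exact hj.const_sub _
  have down : ∀ j : ℤ, Tendsto (PF_A i (j + 1)) atTop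
        (𝓝 ((-1 : ℝ) ^ (j + 1) * (L + (Ssum i (j + 1) : ℝ)))) →
      Tendsto (PF_A i j) atTop (𝓝 ((-1 : ℝ) ^ j * (L + (Ssum i j : ℝ)))) := by
    intro j hj
    have h1 : ∀ M, PF_A i j M = 1 / (-(1 / 2) - (j : ℝ)) ^ i - PF_A i (j + 1) (M + 1) := by
      intro M; rw [PF_A_succ]; ring
    have h2 : (-1 : ℝ) ^ j * (L + (Ssum i j : ℝ)) = 1 / (-(1 / 2) - (j : ℝ)) ^ i -
        (-1 : ℝ) ^ (j + 1) * (L + (Ssum i (j + 1) : ℝ)) := by rw [← key j]; ring
    rw [h2, funext h1]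
    exact ((tendsto_add_atTop_iff_nat 1).mpr hj).const_sub _
  have h0 : Tendsto (PF_A i 0) atTop (𝓝 ((-1 : ℝ) ^ (0 : ℤ) * (L + (Ssum i 0 : ℝ)))) := by
    have : Ssum i 0 = 0 := by simp [Ssum]
    rw [this, zpow_zero, one_mul, Rat.cast_zero, add_zero]
    exact hL
  induction j using Int.induction_on with
  | zero => exact h0
  | succ n ih => exact up _ ih
  | pred n ih =>
    apply down
    rwa [sub_add_cancel]

theorem PF_exists_L {i : ℕ} (hi : 1 ≤ i) : ∃ L, Tendsto (PF_A i 0) atTop (𝓝 L) := by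
  have hanti : Antitone fun m : ℕ => 1 / ((m : ℝ) + 1 / 2) ^ i := by
    intro a b hab
    apply one_div_le_one_div_of_le
    · positivity
    · apply pow_le_pow_left₀ (by positivity)
      have : (a : ℝ) ≤ b := by exact_mod_cast hab
      linarith only [this]
  have hz : Tendsto (fun m : ℕ => 1 / ((m : ℝ) + 1 / 2) ^ i) atTop (𝓝 0) := by
    have h1 : Tendsto (fun m : ℕ => (m : ℝ) + 1 / 2) atTop atTop :=
      tendsto_atTop_add_const_right _ _ tendsto_natCast_atTop_atTop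
    have h2 := (tendsto_pow_atTop (α := ℝ) (by omega : i ≠ 0)).comp h1
    have h3 := h2.inv_tendsto_atTop
    refine h3.congr fun m => ?_
    simp
  obtain ⟨L, hL⟩ := hanti.tendsto_alternating_series_of_tendsto_zero hz
  refine ⟨L, hL.congr fun M => ?_⟩
  rw [PF_A]
  refine Finset.sum_congr rfl fun m _ => ?_
  rw [Int.cast_zero, sub_zero, mul_one_div]

theorem PF_L_eq {i : ℕ} (hi : 2 ≤ i) : Tendsto (PF_A i 0) atTop (𝓝 ((2 : ℝ) ^ i * beta i)) := by
  have hsum : Summable fun j : ℕ => (-1 : ℝ) ^ j / (2 * (j : ℝ) + 1) ^ i := by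
    apply Summable.of_norm_bounded (g := fun j : ℕ => 1 / ((j : ℝ) + 1) ^ i)
    · have := (summable_nat_add_iff 1).mpr (Real.summable_one_div_nat_pow.mpr hi)
      simpa using this
    · intro j
      rw [norm_div, norm_pow, norm_neg, norm_one, one_pow, Real.norm_of_nonneg (by positivity)]
      apply one_div_le_one_div_of_le
      · positivity
      · apply pow_le_pow_left₀ (by positivity)
        have : (0 : ℝ) ≤ j := Nat.cast_nonneg j
        linarith only []
  have h1 := (hsum.hasSum.mul_left ((2 : ℝ) ^ i)).tendsto_sum_nat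
  have h2 : (∑' j : ℕ, (-1 : ℝ) ^ j / (2 * (j : ℝ) + 1) ^ i) = beta i := rfl
  rw [h2] at h1
  refine h1.congr fun M => ?_
  rw [PF_A]
  refine Finset.sum_congr rfl fun m _ => ?_
  rw [Int.cast_zero, sub_zero]
  have h3 : (2 * (m : ℝ) + 1) = 2 * ((m : ℝ) + 1 / 2) := by ring
  rw [h3, mul_pow]
  have h4 : ((m : ℝ) + 1 / 2) ^ i ≠ 0 := by positivity
  field_simp

/-! ### (B) the rational function -/

/-! ### (F) symmetry -/

theorem PF_rescale_lin (c : ℚ) : PowerSeries.rescale (-1 : ℚ) (lin c) = -lin (-c) := by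
  rw [lin, lin, map_add, PowerSeries.rescale_X, map_neg, map_neg, map_one]
  have : PowerSeries.rescale (-1 : ℚ) (PowerSeries.C c) = PowerSeries.C c := by
    ext n
    rw [PowerSeries.coeff_rescale, PowerSeries.coeff_C]
    split_ifs with h
    · rw [h]; simp
    · simp
  rw [this]
  ring

theorem PF_rescale_lin_inv {c : ℚ} (hc : c ≠ 0) :
    PowerSeries.rescale (-1 : ℚ) (lin c)⁻¹ = -(lin (-c))⁻¹ := by
  have h1 : PowerSeries.rescale (-1 : ℚ) (lin c) * PowerSeries.rescale (-1 : ℚ) (lin c)⁻¹ = 1 := by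
    rw [← map_mul, PF_lin_inv hc, map_one]
  rw [PF_rescale_lin] at h1
  have h2 := PF_lin_inv (neg_ne_zero.mpr hc)
  calc PowerSeries.rescale (-1 : ℚ) (lin c)⁻¹
      = (lin (-c) * (lin (-c))⁻¹) * PowerSeries.rescale (-1 : ℚ) (lin c)⁻¹ := by rw [h2, one_mul]
    _ = -((-lin (-c) * PowerSeries.rescale (-1 : ℚ) (lin c)⁻¹) * (lin (-c))⁻¹) := by ring
    _ = -(lin (-c))⁻¹ := by rw [h1, one_mul]

/-! ### (D), (E) assembly -/

theorem PF_half_ne (m : ℕ) (j : ℤ) : (m : ℝ) + 1 / 2 ≠ (j : ℝ) := by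
  intro h
  have h1 : (2 * (m : ℤ) + 1 : ℤ) = 2 * j := by
    have : (2 * (m : ℝ) + 1) = 2 * (j : ℝ) := by rw [← h]; ring
    exact_mod_cast this
  omega

end Vale.Agent.P030
end
end

section

section

/-! Rational formula for the functional of the second theorem (partial fractions). -/

namespace Vale.Agent.P030.Five

open Finset Polynomial Filter Topology Vale.Agent.P030

/-! ### (A) partial fractions -/

theorem F5PF_trunc (f : PowerSeries ℚ) : (PowerSeries.X : PowerSeries ℚ) ^ 5 ∣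
    ((PowerSeries.trunc 5 f : ℚ[X]) : PowerSeries ℚ) - f := by
  rw [PowerSeries.X_pow_dvd_iff]
  intro m hm
  rw [map_sub, Polynomial.coeff_coe, PowerSeries.coeff_trunc, if_pos hm, sub_self]

/-- local factor -/
noncomputable def F5PF_E (J : Finset ℤ) (j : ℤ) : PowerSeries ℚ :=
  ∏ i ∈ J.erase j, ((lin ((j : ℚ) - (i : ℚ)))⁻¹) ^ 5

theorem F5PF_partial (J : Finset ℤ) (F : ℚ[X]) (hJ : J.Nonempty) (hF : F.natDegree < 5 * J.card) :
    F = ∑ j ∈ J, (PowerSeries.trunc 5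
      (((F.comp (X + C (j : ℚ)) : ℚ[X]) : PowerSeries ℚ) * F5PF_E J j)).comp (X - C (j : ℚ)) *
        ∏ i ∈ J.erase j, (X - C (i : ℚ)) ^ 5 := by
  classical
  set u : ℤ → PowerSeries ℚ := fun j =>
    ((F.comp (X + C (j : ℚ)) : ℚ[X]) : PowerSeries ℚ) * F5PF_E J j with hu
  set G : ℚ[X] := ∑ j ∈ J, (PowerSeries.trunc 5 (u j)).comp (X - C (j : ℚ)) *
        ∏ i ∈ J.erase j, (X - C (i : ℚ)) ^ 5 with hG
  have hdeg : (G - F).degree < (∏ j ∈ J, (X - C (j : ℚ)) ^ 5).degree := by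
    have h1 : (∏ j ∈ J, (X - C (j : ℚ)) ^ 5).degree = ((5 * J.card : ℕ) : WithBot ℕ) := by
      rw [Polynomial.degree_prod]
      simp only [Polynomial.degree_pow, Polynomial.degree_X_sub_C]
      rw [Finset.sum_const]
      simp [mul_comm]
    rw [h1]
    refine lt_of_le_of_lt (Polynomial.degree_sub_le _ _) (max_lt ?_ ?_)
    · refine lt_of_le_of_lt (Polynomial.degree_sum_le _ _) ?_
      rw [Finset.sup_lt_iff (WithBot.bot_lt_coe _)]
      intro j hj
      rw [Polynomial.degree_mul]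
      have h2 : (∏ i ∈ J.erase j, (X - C (i : ℚ)) ^ 5).degree =
          ((5 * (J.card - 1) : ℕ) : WithBot ℕ) := by
        rw [Polynomial.degree_prod]
        simp only [Polynomial.degree_pow, Polynomial.degree_X_sub_C]
        rw [Finset.sum_const, Finset.card_erase_of_mem hj]
        simp [mul_comm]
      have h3 : ((PowerSeries.trunc 5 (u j)).comp (X - C (j : ℚ))).degree ≤ (4 : ℕ) := by
        rw [← Polynomial.natDegree_le_iff_degree_le, Polynomial.natDegree_comp,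
          Polynomial.natDegree_X_sub_C, mul_one]
        exact Nat.lt_succ_iff.mp (PowerSeries.natDegree_trunc_lt _ 4)
      have hcard : 1 ≤ J.card := Finset.card_pos.mpr hJ
      rw [h2]
      calc _ ≤ ((4 : ℕ) : WithBot ℕ) + ((5 * (J.card - 1) : ℕ) : WithBot ℕ) :=
            add_le_add_left h3 _
        _ = ((4 + 5 * (J.card - 1) : ℕ) : WithBot ℕ) := by push_cast; rfl
        _ < _ := by
          rw [Nat.cast_withBot, Nat.cast_withBot, WithBot.coe_lt_coe]
          omega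
    · refine lt_of_le_of_lt Polynomial.degree_le_natDegree ?_
      rw [Nat.cast_withBot, Nat.cast_withBot, WithBot.coe_lt_coe]
      exact hF
  have hdvd : (∏ j ∈ J, (X - C (j : ℚ)) ^ 5) ∣ G - F := by
    apply Finset.prod_dvd_of_coprime
    · intro i _ j _ hij
      apply IsCoprime.pow
      apply Polynomial.isCoprime_X_sub_C_of_isUnit_sub
      rw [isUnit_iff_ne_zero, sub_ne_zero]
      exact_mod_cast hij
    · intro j hj
      have h1 : (X - C (j : ℚ)) ^ 5 = ((X : ℚ[X]) ^ 5).comp (X - C (j : ℚ)) := by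
        rw [Polynomial.pow_comp, Polynomial.X_comp]
      rw [h1, ← Polynomial.dvd_comp_X_add_C_iff, Polynomial.X_pow_dvd_iff]
      have h2 : (PowerSeries.X : PowerSeries ℚ) ^ 5 ∣
          (((G - F).comp (X + C (j : ℚ)) : ℚ[X]) : PowerSeries ℚ) := by
        rw [Polynomial.sub_comp, Polynomial.coe_sub, hG, Polynomial.sum_comp,
          ← Polynomial.coeToPowerSeries.ringHom_apply, map_sum]
        rw [← Finset.add_sum_erase J _ hj, add_sub_right_comm]
        apply dvd_add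
        · -- main term
          rw [Polynomial.mul_comp, map_mul, Polynomial.comp_assoc, Polynomial.sub_comp,
            Polynomial.X_comp, Polynomial.C_comp, add_sub_cancel_right, Polynomial.comp_X,
            Polynomial.prod_comp, map_prod]
          have h3 : ∀ i ∈ J.erase j, Polynomial.coeToPowerSeries.ringHom
              (((X - C (i : ℚ)) ^ 5).comp (X + C (j : ℚ))) = lin ((j : ℚ) - (i : ℚ)) ^ 5 := by
            intro i _
            rw [Polynomial.pow_comp, map_pow, Polynomial.sub_comp, Polynomial.X_comp,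
              Polynomial.C_comp, Polynomial.coeToPowerSeries.ringHom_apply, ← PF_lin_coe,
              map_sub, add_sub_assoc]
          rw [Finset.prod_congr rfl h3, Polynomial.coeToPowerSeries.ringHom_apply]
          have h4 : ((F.comp (X + C (j : ℚ)) : ℚ[X]) : PowerSeries ℚ) =
              u j * ∏ i ∈ J.erase j, lin ((j : ℚ) - (i : ℚ)) ^ 5 := by
            rw [hu]
            simp only
            rw [mul_assoc, F5PF_E, ← Finset.prod_mul_distrib]
            rw [Finset.prod_eq_one, mul_one]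
            intro i hi
            rw [← mul_pow, mul_comm, PF_lin_inv, one_pow]
            rw [sub_ne_zero]
            exact_mod_cast (Finset.ne_of_mem_erase hi).symm
          rw [h4, ← sub_mul]
          exact (F5PF_trunc (u j)).mul_right _
        · apply Finset.dvd_sum
          intro i hi
          rw [Polynomial.mul_comp, map_mul, Polynomial.prod_comp, map_prod]
          apply Dvd.dvd.mul_left
          have hji : j ∈ J.erase i :=
            Finset.mem_erase.mpr ⟨(Finset.ne_of_mem_erase hi).symm, hj⟩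
          refine dvd_trans ?_ (Finset.dvd_prod_of_mem _ hji)
          rw [Polynomial.pow_comp, map_pow, Polynomial.sub_comp, Polynomial.X_comp,
              Polynomial.C_comp, Polynomial.coeToPowerSeries.ringHom_apply,
              add_sub_cancel_right, Polynomial.coe_X]
      rw [PowerSeries.X_pow_dvd_iff] at h2
      intro d hd
      have := h2 d hd
      rwa [Polynomial.coeff_coe] at this
  have h0 := Polynomial.eq_zero_of_dvd_of_degree_lt hdvd hdeg
  exact (sub_eq_zero.mp h0).symm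

/-! ### (B) the rational function -/

/-- numerator of the rational function -/
noncomputable def F5PF_F (l : Multiset ℤ) : ℚ[X] :=
  X * (l.map fun n : ℤ => (X - C ((n : ℚ) / 2)) * (X + C ((n : ℚ) / 2))).prod

theorem F5PF_uS (N : ℕ) (l : Multiset ℤ) (j : ℤ) :
    uS5 N l j = (((F5PF_F l).comp (X + C (j : ℚ)) : ℚ[X]) : PowerSeries ℚ) *
      F5PF_E (Icc (-(N : ℤ)) N) j := by
  have e : ∀ c : ℚ, Polynomial.coeToPowerSeries.ringHom ((X + C (j : ℚ)) - C c : ℚ[X]) =
      lin ((j : ℚ) - c) := by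
    intro c
    rw [Polynomial.coeToPowerSeries.ringHom_apply, ← PF_lin_coe, map_sub, add_sub_assoc]
  have e' : ∀ c : ℚ, Polynomial.coeToPowerSeries.ringHom ((X + C (j : ℚ)) + C c : ℚ[X]) =
      lin ((j : ℚ) + c) := by
    intro c
    rw [Polynomial.coeToPowerSeries.ringHom_apply, ← PF_lin_coe, map_add, add_assoc]
  rw [uS5, F5PF_E, F5PF_F]
  congr 1
  rw [← Polynomial.coeToPowerSeries.ringHom_apply, Polynomial.mul_comp,
    map_mul, Polynomial.X_comp]
  congr 1
  · rw [Polynomial.coeToPowerSeries.ringHom_apply, PF_lin_coe]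
  · induction l using Multiset.induction_on with
    | empty => simp
    | cons n l ih =>
      rw [Multiset.map_cons, Multiset.prod_cons, Multiset.map_cons, Multiset.prod_cons,
        Polynomial.mul_comp, map_mul, ih, Polynomial.mul_comp, map_mul, Polynomial.sub_comp,
        Polynomial.add_comp, Polynomial.X_comp, Polynomial.C_comp, e, e']

theorem F5PF_natDegree (N : ℕ) (l : Multiset ℤ) (hl : l.card ≤ 5 * N) :
    (F5PF_F l).natDegree < 5 * (Icc (-(N : ℤ)) N).card := by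
  have h1 : ((l.map fun n : ℤ => (X - C ((n : ℚ) / 2)) * (X + C ((n : ℚ) / 2))).prod).natDegree ≤
      2 * l.card := by
    clear hl
    induction l using Multiset.induction_on with
    | empty => simp
    | cons n l ih =>
      rw [Multiset.map_cons, Multiset.prod_cons, Multiset.card_cons]
      have h2 : ((X - C ((n : ℚ) / 2)) * (X + C ((n : ℚ) / 2)) : ℚ[X]).natDegree ≤ 2 := by
        refine Polynomial.natDegree_mul_le.trans ?_
        rw [Polynomial.natDegree_X_sub_C, Polynomial.natDegree_X_add_C]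
      refine Polynomial.natDegree_mul_le.trans ?_
      omega
  have h3 : (F5PF_F l).natDegree ≤ 1 + 2 * l.card := by
    rw [F5PF_F]
    refine Polynomial.natDegree_mul_le.trans (add_le_add ?_ h1)
    exact Polynomial.natDegree_X.le
  rw [Int.card_Icc]
  omega

theorem F5PF_aeval_F (l : Multiset ℤ) (t : ℝ) :
    aeval t (F5PF_F l) = t * (nodePoly2 l).eval (t ^ 2) := by
  rw [F5PF_F, map_mul, aeval_X, nodePoly2]
  congr 1
  induction l using Multiset.induction_on with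
  | empty => simp
  | cons n l ih =>
    rw [Multiset.map_cons, Multiset.prod_cons, Multiset.map_cons, Multiset.prod_cons,
      map_mul, ih, Polynomial.eval_mul]
    congr 1
    simp
    ring

theorem F5PF_real (N : ℕ) (l : Multiset ℤ) (hl : l.card ≤ 5 * N) (t : ℝ)
    (ht : ∀ j ∈ Icc (-(N : ℤ)) N, t ≠ (j : ℝ)) :
    f5 N t * (nodePoly2 l).eval (t ^ 2) = ∑ j ∈ Icc (-(N : ℤ)) N, ∑ r ∈ range 5,
      ((PowerSeries.coeff r (uS5 N l j) : ℚ) : ℝ) * (1 / (t - (j : ℝ)) ^ (5 - r)) := by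
  have hne : (Icc (-(N : ℤ)) N).Nonempty := ⟨0, by simp⟩
  have hpart := F5PF_partial (Icc (-(N : ℤ)) N) (F5PF_F l) hne (F5PF_natDegree N l hl)
  simp only [← F5PF_uS] at hpart
  have h1 := congrArg (aeval t) hpart
  rw [F5PF_aeval_F, map_sum] at h1
  have hD : Den N t ^ 5 = ∏ j ∈ Icc (-(N : ℤ)) N, (t - (j : ℝ)) ^ 5 := by
    rw [Den, Finset.prod_pow]
  have hne' : ∀ j ∈ Icc (-(N : ℤ)) N, (t - (j : ℝ)) ≠ 0 := fun j hj => sub_ne_zero.mpr (ht j hj)
  rw [f5, div_mul_eq_mul_div, h1, hD, Finset.sum_div]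
  refine Finset.sum_congr rfl fun j hj => ?_
  rw [map_mul, map_prod, Polynomial.aeval_comp]
  have h2 : ∏ x ∈ (Icc (-(N : ℤ)) N).erase j, aeval t ((X - C (x : ℚ)) ^ 5 : ℚ[X]) =
      ∏ x ∈ (Icc (-(N : ℤ)) N).erase j, (t - (x : ℝ)) ^ 5 := by
    refine Finset.prod_congr rfl fun x _ => ?_
    simp
  have h3 : ∏ x ∈ (Icc (-(N : ℤ)) N).erase j, (t - (x : ℝ)) ^ 5 ≠ 0 := by
    rw [Finset.prod_ne_zero_iff]
    intro x hx
    exact pow_ne_zero _ (hne' x (Finset.mem_of_mem_erase hx))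
  rw [h2, ← Finset.mul_prod_erase _ _ hj, mul_div_mul_right _ _ h3]
  have h4 : aeval t (X - C (j : ℚ) : ℚ[X]) = t - (j : ℝ) := by simp
  rw [h4, Polynomial.aeval_eq_sum_range' (PowerSeries.natDegree_trunc_lt _ 4), Finset.sum_div]
  refine Finset.sum_congr rfl fun r hr => ?_
  have hr' : r < 5 := Finset.mem_range.mp hr
  rw [PowerSeries.coeff_trunc, if_pos hr', Algebra.smul_def, eq_ratCast, mul_div_assoc]
  congr 1
  have h5 : t - (j : ℝ) ≠ 0 := hne' j hj
  rw [div_eq_div_iff (pow_ne_zero _ h5) (pow_ne_zero _ h5), one_mul, ← pow_add]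
  congr 1
  omega

/-! ### (F) symmetry -/

theorem F5PF_rescale_inv5 {c : ℚ} (hc : c ≠ 0) :
    PowerSeries.rescale (-1 : ℚ) (((lin c)⁻¹) ^ 5) = -1 * (((lin (-c))⁻¹) ^ 5) := by
  rw [map_pow, PF_rescale_lin_inv hc]
  ring

theorem F5PF_symm_E (N : ℕ) {j : ℤ} (hj : j ∈ Icc (-(N : ℤ)) N) :
    PowerSeries.rescale (-1 : ℚ) (F5PF_E (Icc (-(N : ℤ)) N) (-j)) =
      F5PF_E (Icc (-(N : ℤ)) N) j := by
  rw [F5PF_E, map_prod]
  have h5 : ∀ i ∈ (Icc (-(N : ℤ)) N).erase (-j), PowerSeries.rescale (-1 : ℚ)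
      (((lin (((-j : ℤ) : ℚ) - (i : ℚ)))⁻¹) ^ 5) =
      -1 * (((lin ((j : ℚ) - ((-i : ℤ) : ℚ)))⁻¹) ^ 5) := by
    intro i hi
    have h6 : ((-j : ℤ) : ℚ) - (i : ℚ) ≠ 0 := by
      rw [sub_ne_zero]
      exact_mod_cast (Finset.ne_of_mem_erase hi).symm
    have h7 : -(((-j : ℤ) : ℚ) - (i : ℚ)) = (j : ℚ) - ((-i : ℤ) : ℚ) := by push_cast; ring
    rw [F5PF_rescale_inv5 h6, h7]
  rw [Finset.prod_congr rfl h5, Finset.prod_mul_distrib, Finset.prod_const]
  have hcard : ((Icc (-(N : ℤ)) N).erase (-j)).card = 2 * N := by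
    have hj' : -j ∈ Icc (-(N : ℤ)) N := by simp only [mem_Icc] at hj ⊢; omega
    rw [Finset.card_erase_of_mem hj', Int.card_Icc]
    omega
  rw [hcard, pow_mul, neg_one_sq, one_pow, one_mul, F5PF_E]
  refine Finset.prod_nbij' (fun k => -k) (fun k => -k) ?_ ?_ ?_ ?_ ?_
  · intro k hk; simp only [mem_Icc, mem_erase] at hk ⊢; omega
  · intro k hk; simp only [mem_Icc, mem_erase] at hk ⊢; omega
  · intro k _; exact neg_neg k
  · intro k _; exact neg_neg k
  · intro k _; rfl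

theorem F5PF_symm (N : ℕ) (l : Multiset ℤ) {j : ℤ} (hj : j ∈ Icc (-(N : ℤ)) N) :
    PowerSeries.rescale (-1 : ℚ) (uS5 N l (-j)) = -uS5 N l j := by
  have h4 := F5PF_symm_E N hj
  rw [F5PF_E, F5PF_E] at h4
  rw [uS5, uS5, map_mul, map_mul, h4]
  have h1 : PowerSeries.rescale (-1 : ℚ) (lin ((-j : ℤ) : ℚ)) = -lin (j : ℚ) := by
    rw [PF_rescale_lin]; congr 2; push_cast; ring
  have h3 : PowerSeries.rescale (-1 : ℚ) (l.map fun n : ℤ =>
      lin (((-j : ℤ) : ℚ) - (n : ℚ) / 2) * lin (((-j : ℤ) : ℚ) + (n : ℚ) / 2)).prod =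
      (l.map fun n : ℤ => lin ((j : ℚ) - (n : ℚ) / 2) * lin ((j : ℚ) + (n : ℚ) / 2)).prod := by
    induction l using Multiset.induction_on with
    | empty => simp
    | cons n l ih =>
      rw [Multiset.map_cons, Multiset.prod_cons, Multiset.map_cons, Multiset.prod_cons,
        map_mul, ih, map_mul, PF_rescale_lin, PF_rescale_lin, neg_mul_neg, mul_comm (lin _)]
      congr 2
      · congr 1; push_cast; ring
      · congr 1; push_cast; ring
  rw [h1, h3]
  ring

theorem F5PF_coeff_neg (N : ℕ) (l : Multiset ℤ) {j : ℤ} (hj : j ∈ Icc (-(N : ℤ)) N) {r : ℕ}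
    (hr : Even r) : PowerSeries.coeff r (uS5 N l (-j)) = -PowerSeries.coeff r (uS5 N l j) := by
  have h := congrArg (PowerSeries.coeff r) (F5PF_symm N l hj)
  rw [PowerSeries.coeff_rescale, hr.neg_one_pow, one_mul, map_neg] at h
  exact h

theorem F5PF_sum_zero (N : ℕ) (l : Multiset ℤ) {r : ℕ} (hr : Even r) :
    ∑ j ∈ Icc (-(N : ℤ)) N, (-1 : ℝ) ^ j * ((PowerSeries.coeff r (uS5 N l j) : ℚ) : ℝ) = 0 := by
  have h1 : ∑ j ∈ Icc (-(N : ℤ)) N, (-1 : ℝ) ^ j * ((PowerSeries.coeff r (uS5 N l j) : ℚ) : ℝ) =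
      ∑ j ∈ Icc (-(N : ℤ)) N, -((-1 : ℝ) ^ j * ((PowerSeries.coeff r (uS5 N l j) : ℚ) : ℝ)) := by
    refine Finset.sum_nbij' (fun k => -k) (fun k => -k) ?_ ?_ ?_ ?_ ?_
    · intro k hk; simp only [mem_Icc] at hk ⊢; omega
    · intro k hk; simp only [mem_Icc] at hk ⊢; omega
    · intro k _; exact neg_neg k
    · intro k _; exact neg_neg k
    · intro k hk
      rw [F5PF_coeff_neg N l hk hr, zpow_neg]
      have : ((-1 : ℝ) ^ k)⁻¹ = (-1 : ℝ) ^ k := by
        rcases PF_neg_one_zpow k with h | h <;> rw [h] <;> norm_num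
      rw [this]
      push_cast
      ring
  rw [Finset.sum_neg_distrib] at h1
  linarith

/-! ### (D), (E) assembly -/

theorem F5PF_natDegree_nodePoly (l : Multiset ℤ) : (nodePoly2 l).natDegree ≤ l.card := by
  rw [nodePoly2]
  induction l using Multiset.induction_on with
  | empty => simp
  | cons n l ih =>
    rw [Multiset.map_cons, Multiset.prod_cons, Multiset.card_cons]
    refine Polynomial.natDegree_mul_le.trans ?_
    rw [Polynomial.natDegree_X_sub_C, add_comm]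
    exact Nat.add_le_add_right ih 1

/-- the limits -/
theorem F5PF_limits (c : ℕ → ℚ) (hc : GoodC5 c) : ∃ L : ℕ → ℝ,
    (∀ r ∈ range 5, Tendsto (PF_A (5 - r) 0) atTop (𝓝 (L r))) ∧
    ∀ r ∈ range 5, Even r ∧ c (5 - r) = 0 ∨ L r = (c (5 - r) : ℝ) := by
  obtain ⟨h1, h3, h5, h2, h4⟩ := hc
  have hex : ∀ r, ∃ L, r ∈ range 5 → Tendsto (PF_A (5 - r) 0) atTop (𝓝 L) := by
    intro r
    by_cases hr : r ∈ range 5
    · obtain ⟨L, hL⟩ := PF_exists_L (i := 5 - r) (by rw [mem_range] at hr; omega)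
      exact ⟨L, fun _ => hL⟩
    · exact ⟨0, fun h => absurd h hr⟩
  choose L hL using hex
  refine ⟨L, hL, ?_⟩
  intro r hr
  have hLr := hL r hr
  have hr' : r < 5 := mem_range.mp hr
  interval_cases r
  · left; exact ⟨by decide, h5⟩
  · right; rw [← h4]; exact tendsto_nhds_unique hLr (PF_L_eq (by norm_num))
  · left; exact ⟨by decide, h3⟩
  · right; rw [← h2]; exact tendsto_nhds_unique hLr (PF_L_eq (by norm_num))
  · left; exact ⟨by decide, h1⟩

theorem F5PF_psiQ (c : ℕ → ℚ) (N : ℕ) (l : Multiset ℤ) :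
    (psiQ5 c N l : ℝ) = ∑ r ∈ range 5, ∑ j ∈ Icc (-(N : ℤ)) N,
      (-1 : ℝ) ^ j * ((PowerSeries.coeff r (uS5 N l j) : ℚ) : ℝ) *
        ((c (5 - r) : ℝ) + (Ssum (5 - r) j : ℝ)) := by
  rw [psiQ5, Rat.cast_sum, Finset.sum_comm]
  refine Finset.sum_congr rfl fun j _ => ?_
  rw [PowerSeries.coeff_mul, Finset.Nat.sum_antidiagonal_eq_sum_range_succ
    (fun a b => PowerSeries.coeff a (uS5 N l j) * PowerSeries.coeff b (WS c j)), Rat.cast_mul,
    Rat.cast_sum, Finset.mul_sum]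
  refine Finset.sum_congr rfl fun r hr => ?_
  have hr' : r < 5 := mem_range.mp hr
  rw [WS, PowerSeries.coeff_mk]
  have : 4 - r + 1 = 5 - r := by omega
  rw [this]
  push_cast
  ring

/-- the full alternating sum over `m ≥ 0` converges to `psiQ5`. -/
theorem F5PF_full (c : ℕ → ℚ) (hc : GoodC5 c) (N : ℕ) (l : Multiset ℤ) (hl : l.card ≤ 5 * N) :
    Tendsto (fun M : ℕ => ∑ m ∈ range M, (-1 : ℝ) ^ m * (f5 N ((m : ℝ) + 1 / 2) *
      (nodePoly2 l).eval (((m : ℝ) + 1 / 2) ^ 2))) atTop (𝓝 (psiQ5 c N l : ℝ)) := by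
  obtain ⟨L, hL, hLc⟩ := F5PF_limits c hc
  have h2 : ∀ M : ℕ, ∑ m ∈ range M, (-1 : ℝ) ^ m * (f5 N ((m : ℝ) + 1 / 2) *
      (nodePoly2 l).eval (((m : ℝ) + 1 / 2) ^ 2)) =
      ∑ r ∈ range 5, ∑ j ∈ Icc (-(N : ℤ)) N,
        ((PowerSeries.coeff r (uS5 N l j) : ℚ) : ℝ) * PF_A (5 - r) j M := by
    intro M
    have h3 : ∀ m : ℕ, (-1 : ℝ) ^ m * (f5 N ((m : ℝ) + 1 / 2) *
        (nodePoly2 l).eval (((m : ℝ) + 1 / 2) ^ 2)) =
        ∑ r ∈ range 5, ∑ j ∈ Icc (-(N : ℤ)) N, ((PowerSeries.coeff r (uS5 N l j) : ℚ) : ℝ) *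
          ((-1 : ℝ) ^ m / ((m : ℝ) + 1 / 2 - (j : ℝ)) ^ (5 - r)) := by
      intro m
      rw [F5PF_real N l hl _ (fun j _ => PF_half_ne m j), Finset.sum_comm,
        Finset.mul_sum]
      refine Finset.sum_congr rfl fun r _ => ?_
      rw [Finset.mul_sum]
      refine Finset.sum_congr rfl fun j _ => ?_
      rw [← mul_assoc, mul_comm ((-1 : ℝ) ^ m), mul_assoc, mul_one_div]
    simp only [h3, PF_A]
    rw [Finset.sum_comm]
    refine Finset.sum_congr rfl fun r _ => ?_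
    rw [Finset.sum_comm]
    refine Finset.sum_congr rfl fun j _ => ?_
    rw [Finset.mul_sum]
  have h4 : Tendsto (fun M : ℕ => ∑ m ∈ range M, (-1 : ℝ) ^ m * (f5 N ((m : ℝ) + 1 / 2) *
      (nodePoly2 l).eval (((m : ℝ) + 1 / 2) ^ 2))) atTop
      (𝓝 (∑ r ∈ range 5, ∑ j ∈ Icc (-(N : ℤ)) N, ((PowerSeries.coeff r (uS5 N l j) : ℚ) : ℝ) *
        ((-1 : ℝ) ^ j * (L r + (Ssum (5 - r) j : ℝ))))) := by
    simp only [h2]
    refine tendsto_finsetSum _ fun r hr => tendsto_finsetSum _ fun j _ => ?_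
    exact (PF_A_tendsto (hL r hr) j).const_mul _
  convert h4 using 2
  rw [F5PF_psiQ]
  refine Finset.sum_congr rfl fun r hr => ?_
  rcases hLc r hr with ⟨hev, hc0⟩ | hLr
  · have h5 := F5PF_sum_zero N l hev
    have h6 : ∑ j ∈ Icc (-(N : ℤ)) N, ((PowerSeries.coeff r (uS5 N l j) : ℚ) : ℝ) *
        ((-1 : ℝ) ^ j * (L r + (Ssum (5 - r) j : ℝ))) =
        L r * ∑ j ∈ Icc (-(N : ℤ)) N, (-1 : ℝ) ^ j *
          ((PowerSeries.coeff r (uS5 N l j) : ℚ) : ℝ) +
        ∑ j ∈ Icc (-(N : ℤ)) N, (-1 : ℝ) ^ j * ((PowerSeries.coeff r (uS5 N l j) : ℚ) : ℝ) *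
          (Ssum (5 - r) j : ℝ) := by
      rw [Finset.mul_sum, ← Finset.sum_add_distrib]
      refine Finset.sum_congr rfl fun j _ => ?_
      ring
    rw [h6, h5, mul_zero, zero_add, hc0]
    refine Finset.sum_congr rfl fun j _ => ?_
    rw [Rat.cast_zero, zero_add]
  · rw [hLr]
    refine Finset.sum_congr rfl fun j _ => ?_
    ring

theorem F5PF_site (N : ℕ) (l : Multiset ℤ) (m : ℕ) :
    (site5 N l m : ℝ) = f5 N ((m : ℝ) + 1 / 2) * (nodePoly2 l).eval (((m : ℝ) + 1 / 2) ^ 2) := by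
  rw [site5, f5, Den, nodePoly2, Rat.cast_mul]
  congr 1
  · push_cast
    rfl
  · induction l using Multiset.induction_on with
    | empty => simp
    | cons n l ih =>
      rw [Multiset.map_cons, Multiset.prod_cons, Multiset.map_cons, Multiset.prod_cons,
        Polynomial.eval_mul, Rat.cast_mul, ih]
      congr 1
      simp

theorem F5PF_exQ (N : ℕ) (l : Multiset ℤ) :
    (exQ5 N l : ℝ) = ∑ m ∈ range N, (-1 : ℝ) ^ m * (f5 N ((m : ℝ) + 1 / 2) *
      (nodePoly2 l).eval (((m : ℝ) + 1 / 2) ^ 2)) := by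
  rw [exQ5, Rat.cast_sum]
  refine Finset.sum_congr rfl fun m _ => ?_
  rw [Rat.cast_mul, F5PF_site]
  push_cast
  rfl

theorem F5PF_psi5_eq (c : ℕ → ℚ) (hc : GoodC5 c) (N : ℕ) (l : Multiset ℤ)
    (hl : l.card ≤ 5 * N)
    (habs : Summable fun i : ℕ =>
      |wt5 N i * (nodePoly2 l).eval (((N : ℝ) + i + 1 / 2) ^ 2)|)
    (hpsi : psi5 N (nodePoly2 l) =
      ∑' i : ℕ, wt5 N i * (nodePoly2 l).eval (((N : ℝ) + i + 1 / 2) ^ 2)) :
    psi5 N (nodePoly2 l) = ((psiQ5 c N l - exQ5 N l : ℚ) : ℝ) := by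
  have h1 := habs.of_abs.hasSum.tendsto_sum_nat
  rw [← hpsi] at h1
  have h2 := F5PF_full c hc N l hl
  have h3 := (tendsto_add_atTop_iff_nat N).mpr h2
  have h4 := h3.sub_const (exQ5 N l : ℝ)
  rw [Rat.cast_sub]
  refine tendsto_nhds_unique h1 (h4.congr fun M => ?_)
  rw [F5PF_exQ, add_comm M N, Finset.sum_range_add, add_sub_cancel_left]
  refine Finset.sum_congr rfl fun i _ => ?_
  rw [wt5]
  push_cast
  ring

theorem psi5_eq (c : ℕ → ℚ) (hc : GoodC5 c) (N : ℕ) (l : Multiset ℤ)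
    (hl : l.card ≤ 5 * N) : psi5 N (nodePoly2 l) = ((psiQ5 c N l - exQ5 N l : ℚ) : ℝ) :=
  F5PF_psi5_eq c hc N l hl
    (summable_wt5 N _ ((F5PF_natDegree_nodePoly l).trans hl))
    (psi5_apply N _ ((F5PF_natDegree_nodePoly l).trans hl))

end Vale.Agent.P030.Five
end
end

section

section

/-! Refined `p`-adic bound of the entries of the determinant, for odd `p` with `p² > 2N`. -/

namespace Vale.Agent.P030

open Finset

variable {p : ℕ} [hp : Fact p.Prime]

/-- valuation of a nonzero integer not divisible by `p ^ (k+1)`. -/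
theorem PA_val_le {k : ℕ} {z : ℤ} (hz : z ≠ 0) (h : ¬ (p : ℤ) ^ (k + 1) ∣ z) :
    padicValRat p (z : ℚ) ≤ k := by
  by_contra hcon
  rw [not_le] at hcon
  refine h ?_
  have hzq : (z : ℚ) ≠ 0 := by exact_mod_cast hz
  have h1 : VG p ((k + 1 : ℕ) : ℤ) (z : ℚ) := by
    rw [VG_iff hzq]
    push_cast
    omega
  exact VG_intCast_iff_dvd.mp h1

/-- small nonzero integers have valuation at most one. -/
theorem PA_val_le_one {z : ℤ} {N : ℕ} (hp2 : 2 * N < p ^ 2) (hz : z ≠ 0) (h : |z| ≤ 2 * N) :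
    padicValRat p (z : ℚ) ≤ 1 := by
  have h1 : ¬ (p : ℤ) ^ (1 + 1) ∣ z := by
    intro hd
    have h2 := Int.le_of_dvd (abs_pos.mpr hz) ((dvd_abs _ _).mpr hd)
    have h3 : ((2 * N : ℕ) : ℤ) < ((p ^ 2 : ℕ) : ℤ) := by exact_mod_cast hp2
    push_cast at h3
    have h4 : (1 + 1 : ℕ) = 2 := rfl
    rw [h4] at h2
    linarith only [hp2, h, h2]
  exact_mod_cast PA_val_le (p := p) (k := 1) hz h1

/-- integers prime to `p` have valuation zero. -/
theorem PA_val_le_zero {z : ℤ} (hz : z ≠ 0) (h : ¬ (p : ℤ) ∣ z) :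
    padicValRat p (z : ℚ) ≤ 0 := by
  have h1 : ¬ (p : ℤ) ^ (0 + 1) ∣ z := by
    simpa using h
  exact_mod_cast PA_val_le (p := p) (k := 0) hz h1

/-- valuation of `z/2` for odd `p`. -/
theorem PA_val_half (hp2 : p ≠ 2) {z : ℤ} (hz : z ≠ 0) :
    padicValRat p ((z : ℚ) / 2) = padicValRat p (z : ℚ) := by
  have hzq : (z : ℚ) ≠ 0 := by exact_mod_cast hz
  rw [padicValRat.div hzq (by norm_num)]
  have h2 : (2 : ℚ) = ((2 : ℕ) : ℚ) := by norm_num
  rw [h2, padicValRat.of_nat, padicValNat_primes hp2]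
  simp

/-- the inverse power `1/(l+1/2)^i`. -/
theorem PA_VG_term {d : ℤ} (hp2 : p ≠ 2) (l : ℤ) (i : ℕ)
    (h : padicValRat p ((2 * l + 1 : ℤ) : ℚ) ≤ d) :
    VG p (-(i * d)) ((-1 : ℚ) ^ l / ((l : ℚ) + 1 / 2) ^ i) := by
  have hz : (2 * l + 1 : ℤ) ≠ 0 := by omega
  have he : (l : ℚ) + 1 / 2 = ((2 * l + 1 : ℤ) : ℚ) / 2 := by
    push_cast
    ring
  have hne : (l : ℚ) + 1 / 2 ≠ 0 := by
    rw [he]
    have : ((2 * l + 1 : ℤ) : ℚ) ≠ 0 := by exact_mod_cast hz
    positivity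
  have h1 : padicValRat p ((l : ℚ) + 1 / 2) ≤ d := by
    rw [he, PA_val_half hp2 hz]
    exact h
  have h2 := VG_pow (VG_inv hne h1) i
  rw [div_eq_mul_inv, ← inv_pow]
  refine VG_mul' (VG_neg_one_zpow l) h2 ?_
  apply le_of_eq
  ring

/-- bound of `S_i(j)`. -/
theorem PA_VG_Ssum {d : ℤ} (hp2 : p ≠ 2) (j : ℤ) (i : ℕ)
    (h1 : ∀ l ∈ Ico (-j) 0, padicValRat p ((2 * l + 1 : ℤ) : ℚ) ≤ d)
    (h2 : ∀ l ∈ Ico 0 (-j), padicValRat p ((2 * l + 1 : ℤ) : ℚ) ≤ d) :
    VG p (-(i * d)) (Ssum i j) := by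
  unfold Ssum
  refine VG_sub (VG_sum _ _ fun l hl => ?_) (VG_sum _ _ fun l hl => ?_)
  · exact PA_VG_term hp2 l i (h1 l hl)
  · exact PA_VG_term hp2 l i (h2 l hl)

/-- `WS c j` in the class `A_{-1}`. -/
theorem PA_AC_WS_one (hp2 : p ≠ 2) {N : ℕ} (hp : 2 * N < p ^ 2) (c : ℕ → ℚ)
    (hc : ∀ i, VG p 0 (c i)) {j : ℤ} (hj : j ∈ Icc (-(N : ℤ)) N) : AC p 1 (-1) (WS c j) := by
  intro m
  unfold WS
  rw [PowerSeries.coeff_mk]
  rw [mem_Icc] at hj
  have hS : VG p (-(((m + 1 : ℕ) : ℤ) * 1)) (Ssum (m + 1) j) := by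
    refine PA_VG_Ssum hp2 j (m + 1) (fun l hl => ?_) (fun l hl => ?_)
    · rw [mem_Ico] at hl
      refine PA_val_le_one hp (by omega) ?_
      rw [abs_le]
      omega
    · rw [mem_Ico] at hl
      refine PA_val_le_one hp (by omega) ?_
      rw [abs_le]
      omega
  refine VG_add (VG_mono (hc _) ?_) (VG_mono hS ?_)
  · push_cast
    omega
  · push_cast
    omega

/-- `WS c j` is `p`-integral if there is no `j' ≠ j` congruent to `j`. -/
theorem PA_AC_WS_zero (hp2 : p ≠ 2) {N : ℕ} (c : ℕ → ℚ)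
    (hc : ∀ i, VG p 0 (c i)) {j : ℤ} (hj : j ∈ Icc (-(N : ℤ)) N)
    (hno : ∀ i ∈ Icc (-(N : ℤ)) N, i ≠ j → ¬ (p : ℤ) ∣ j - i) : AC p 0 0 (WS c j) := by
  intro m
  unfold WS
  rw [PowerSeries.coeff_mk]
  rw [mem_Icc] at hj
  have hppos : (0 : ℤ) < p := by exact_mod_cast hp.out.pos
  have hS : VG p (-(((m + 1 : ℕ) : ℤ) * 0)) (Ssum (m + 1) j) := by
    refine PA_VG_Ssum hp2 j (m + 1) (fun l hl => ?_) (fun l hl => ?_)
    · rw [mem_Ico] at hl
      refine PA_val_le_zero (by omega) fun hd => ?_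
      have h1 := Int.le_of_dvd (by omega) ((dvd_neg (a := (p : ℤ))).mpr hd)
      refine hno (j - p) ?_ (by omega) ?_
      · rw [mem_Icc]
        omega
      · rw [sub_sub_cancel]
    · rw [mem_Ico] at hl
      refine PA_val_le_zero (by omega) fun hd => ?_
      have h1 := Int.le_of_dvd (by omega) hd
      refine hno (j + p) ?_ (by omega) ?_
      · rw [mem_Icc]
        omega
      · rw [sub_add_cancel_left, dvd_neg]
  refine VG_add (VG_mono (hc _) ?_) (VG_mono hS ?_)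
  · push_cast
    omega
  · push_cast
    omega

/-- linear factor with half integer constant. -/
theorem PA_AC_lin_half (hp2 : p ≠ 2) (z : ℤ) :
    AC p 1 (if (p : ℤ) ∣ z then 1 else 0) (lin ((z : ℚ) / 2)) := by
  split_ifs with h
  · refine AC_lin ?_ (by norm_num)
    have h1 := VG_half (p := p) (k := 1) (z := z) hp2 (by simpa using h)
    exact_mod_cast h1
  · refine AC_lin ?_ (by norm_num)
    have h1 := VG_half (p := p) (k := 0) (z := z) hp2 (by simp)
    exact_mod_cast h1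

end Vale.Agent.P030
end
end

section

section

/-! Refined `p`-adic bound of the two parts of the entries, for odd `p`. -/

namespace Vale.Agent.P030.Five

open Finset Polynomial Vale.Agent.P030

variable {p : ℕ} [hp : Fact p.Prime]

theorem F5PA_VG_multiset_prod {ι : Type*} (s : Multiset ι) (f : ι → ℚ) (v : ι → ℤ)
    (h : ∀ i ∈ s, VG p (v i) (f i)) : VG p ((s.map v).sum) ((s.map f).prod) := by
  classical
  induction s using Multiset.induction_on with
  | empty => simpa using VG_one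
  | cons a s ih =>
    rw [Multiset.map_cons, Multiset.map_cons, Multiset.sum_cons, Multiset.prod_cons]
    exact VG_mul (h a (Multiset.mem_cons_self a s))
      (ih fun i hi => h i (Multiset.mem_cons_of_mem hi))

theorem F5PA_odd (hp2 : p ≠ 2) (z : ℤ) (h : (p : ℤ) ∣ 2 * z) : (p : ℤ) ∣ z := by
  have hpi : Prime (p : ℤ) := Nat.prime_iff_prime_int.mp hp.out
  rcases hpi.dvd_or_dvd h with h1 | h1
  · exfalso
    have h2 : (p : ℤ) ≤ 2 := Int.le_of_dvd (by norm_num) h1
    have h3 := hp.out.two_le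
    omega
  · exact h1

theorem F5PA_dvd_iff (hp2 : p ≠ 2) (j i : ℤ) : (p : ℤ) ∣ 2 * j - 2 * i ↔ (p : ℤ) ∣ j - i := by
  rw [← mul_sub]
  exact ⟨fun h => F5PA_odd hp2 _ h, fun h => Dvd.dvd.mul_left h 2⟩

omit hp in
theorem F5PA_qd_cast (l : Multiset ℤ) (s : ℤ) : (qd p l s : ℤ) =
    (l.map fun n : ℤ => ((if (p : ℤ) ∣ s - n then 1 else 0) +
      (if (p : ℤ) ∣ s + n then 1 else 0) : ℤ)).sum := by
  unfold qd
  rw [Nat.cast_multiset_sum, Multiset.map_map]
  congr 1
  refine Multiset.map_congr rfl fun n _ => ?_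
  simp only [Function.comp_apply]
  push_cast
  rfl

theorem F5PA_half_cast (j n : ℤ) :
    ((2 * j - n : ℤ) : ℚ) / 2 = (j : ℚ) - (n : ℚ) / 2 := by
  push_cast
  ring

theorem F5PA_half_cast' (j n : ℤ) :
    ((2 * j + n : ℤ) : ℚ) / 2 = (j : ℚ) + (n : ℚ) / 2 := by
  push_cast
  ring

/-- class of `u_j`. -/
theorem F5PA_AC_uS_one (hp2 : p ≠ 2) {N : ℕ} (hp : 2 * N < p ^ 2) (l : Multiset ℤ) {j : ℤ}
    (hj : j ∈ Icc (-(N : ℤ)) N) :
    AC p 1 ((qd p l (2 * j) : ℤ) - 5 * ((Pd N p (2 * j) : ℤ) - 1)) (uS5 N l j) := by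
  have h1 : AC p 1 0 (lin (j : ℚ)) := AC_lin (VG_int j) (by norm_num)
  have h3 : AC p 1 (qd p l (2 * j) : ℤ)
      (Multiset.map (fun n : ℤ => lin ((j : ℚ) - (n : ℚ) / 2) * lin ((j : ℚ) + (n : ℚ) / 2))
        l).prod := by
    have h := AC_multiset_prod (p := p) (e := 1) l
      (fun n => lin ((j : ℚ) - (n : ℚ) / 2) * lin ((j : ℚ) + (n : ℚ) / 2))
      (fun n => (if (p : ℤ) ∣ 2 * j - n then 1 else 0) + (if (p : ℤ) ∣ 2 * j + n then 1 else 0))
      (fun n _ => by
        have h4 := AC_mul (PA_AC_lin_half (p := p) hp2 (2 * j - n))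
          (PA_AC_lin_half (p := p) hp2 (2 * j + n))
        rw [F5PA_half_cast, F5PA_half_cast'] at h4
        exact h4)
    rw [F5PA_qd_cast]
    exact h
  have h4 : AC p 1 (-(5 * ((Pd N p (2 * j) : ℤ) - 1)))
      (∏ i ∈ (Icc (-(N : ℤ)) N).erase j, ((lin ((j : ℚ) - (i : ℚ)))⁻¹) ^ 5) := by
    have h := AC_prod (p := p) (e := 1) ((Icc (-(N : ℤ)) N).erase j)
      (fun i => ((lin ((j : ℚ) - (i : ℚ)))⁻¹) ^ 5)
      (fun i => ((5 : ℕ) : ℤ) * (-(if (p : ℤ) ∣ 2 * j - 2 * i then 1 else 0))) (fun i hi => by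
        rw [mem_erase, mem_Icc] at hi
        rw [mem_Icc] at hj
        refine AC_pow ?_ 5
        have hcast : (j : ℚ) - (i : ℚ) = ((j - i : ℤ) : ℚ) := by push_cast; rfl
        have hne : j - i ≠ 0 := sub_ne_zero.mpr (Ne.symm hi.1)
        have hneq : (j : ℚ) - (i : ℚ) ≠ 0 := by
          rw [hcast]
          exact_mod_cast hne
        split_ifs with hd
        · refine AC_lin_inv hneq ?_ (by norm_num)
          rw [hcast]
          refine PA_val_le_one hp hne ?_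
          rw [abs_le]
          omega
        · refine AC_lin_inv hneq ?_ (by norm_num)
          rw [hcast]
          exact PA_val_le_zero hne fun h => hd ((F5PA_dvd_iff hp2 _ _).mpr h))
    refine AC_mono h (le_of_eq ?_)
    rw [← mul_sum, sum_neg_distrib, sum_boole]
    have hcard : (Pd N p (2 * j) : ℤ) = (((Icc (-(N : ℤ)) N).erase j).filter
        fun i => (p : ℤ) ∣ 2 * j - 2 * i).card + 1 := by
      unfold Pd
      rw [filter_erase, card_erase_of_mem (by
        rw [mem_filter]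
        exact ⟨hj, by simp⟩)]
      have hpos : 0 < ((Icc (-(N : ℤ)) N).filter fun i => (p : ℤ) ∣ 2 * j - 2 * i).card := by
        rw [card_pos]
        exact ⟨j, by rw [mem_filter]; exact ⟨hj, by simp⟩⟩
      omega
    rw [hcard]
    push_cast
    ring
  have h5 := AC_mul (AC_mul h1 h3) h4
  unfold uS5
  refine AC_mono h5 (le_of_eq ?_)
  ring

/-- class of `u_j`, integral version. -/
theorem F5PA_AC_uS_zero (hp2 : p ≠ 2) {N : ℕ} (l : Multiset ℤ) {j : ℤ}
    (hno : ∀ i ∈ Icc (-(N : ℤ)) N, i ≠ j → ¬ (p : ℤ) ∣ j - i) :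
    AC p 0 0 (uS5 N l j) := by
  have hint : ∀ z : ℤ, AC p 0 0 (lin (z : ℚ)) := fun z => AC_lin (VG_int z) (by norm_num)
  have hhalf : ∀ z : ℤ, AC p 0 0 (lin ((z : ℚ) / 2)) := fun z => by
    refine AC_lin ?_ (by norm_num)
    have h1 := VG_half (p := p) (k := 0) (z := z) hp2 (by simp)
    exact_mod_cast h1
  have h3 : AC p 0 0
      (Multiset.map (fun n : ℤ => lin ((j : ℚ) - (n : ℚ) / 2) * lin ((j : ℚ) + (n : ℚ) / 2))
        l).prod := by
    have h := AC_multiset_prod (p := p) (e := 0) l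
      (fun n => lin ((j : ℚ) - (n : ℚ) / 2) * lin ((j : ℚ) + (n : ℚ) / 2))
      (fun _ => 0)
      (fun n _ => by
        have h4 := AC_mul (hhalf (2 * j - n)) (hhalf (2 * j + n))
        rw [F5PA_half_cast, F5PA_half_cast'] at h4
        exact AC_mono h4 (by norm_num))
    refine AC_mono h (le_of_eq ?_)
    simp
  have h4 : AC p 0 0
      (∏ i ∈ (Icc (-(N : ℤ)) N).erase j, ((lin ((j : ℚ) - (i : ℚ)))⁻¹) ^ 5) := by
    have h := AC_prod (p := p) (e := 0) ((Icc (-(N : ℤ)) N).erase j)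
      (fun i => ((lin ((j : ℚ) - (i : ℚ)))⁻¹) ^ 5)
      (fun _ => 0) (fun i hi => by
        rw [mem_erase] at hi
        have hcast : (j : ℚ) - (i : ℚ) = ((j - i : ℤ) : ℚ) := by push_cast; rfl
        have hne : j - i ≠ 0 := sub_ne_zero.mpr (Ne.symm hi.1)
        have hneq : (j : ℚ) - (i : ℚ) ≠ 0 := by
          rw [hcast]
          exact_mod_cast hne
        have h6 : AC p 0 (-0) ((lin ((j : ℚ) - (i : ℚ)))⁻¹) := by
          refine AC_lin_inv hneq ?_ (by norm_num)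
          rw [hcast]
          exact PA_val_le_zero hne (hno i hi.2 hi.1)
        refine AC_mono (AC_pow h6 5) (by norm_num))
    refine AC_mono h (le_of_eq ?_)
    simp
  have h5 := AC_mul (AC_mul (hint j) h3) h4
  unfold uS5
  exact AC_mono h5 (by norm_num)

theorem psiQ5_refined {p : ℕ} [Fact p.Prime] (hp2 : p ≠ 2) (N : ℕ) (hp : 2 * N < p ^ 2)
    (c : ℕ → ℚ) (hc : ∀ i, VG p 0 (c i)) (l : Multiset ℤ) (B : ℤ) (hB : 0 ≤ B)
    (h : ∀ j ∈ Icc (-(N : ℤ)) N, 2 ≤ Pd N p (2 * j) →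
      5 * (Pd N p (2 * j) : ℤ) - (qd p l (2 * j) : ℤ) ≤ B) :
    VG p (-B) (psiQ5 c N l) := by
  unfold psiQ5
  refine VG_sum _ _ fun j hj => ?_
  by_cases hP : 2 ≤ Pd N p (2 * j)
  · have h1 := AC_mul (F5PA_AC_uS_one hp2 hp l hj) (PA_AC_WS_one hp2 hp c hc hj) 4
    refine VG_mul' (VG_neg_one_zpow j) h1 ?_
    have h2 := h j hj hP
    push_cast
    omega
  · have hno : ∀ i ∈ Icc (-(N : ℤ)) N, i ≠ j → ¬ (p : ℤ) ∣ j - i := by
      intro i hi hij hd
      refine hP ?_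
      unfold Pd
      have hsub : ({i, j} : Finset ℤ) ⊆
          (Icc (-(N : ℤ)) N).filter fun i => (p : ℤ) ∣ 2 * j - 2 * i := by
        intro x hx
        rw [mem_insert, mem_singleton] at hx
        rw [mem_filter]
        rcases hx with rfl | rfl
        · exact ⟨hi, (F5PA_dvd_iff hp2 _ _).mpr hd⟩
        · exact ⟨hj, by simp⟩
      have hc2 := card_le_card hsub
      rwa [card_pair hij] at hc2
    have h1 := AC_mul (F5PA_AC_uS_zero hp2 l hno) (PA_AC_WS_zero hp2 c hc hj hno) 4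
    refine VG_mul' (VG_neg_one_zpow j) h1 ?_
    push_cast
    omega

/-- valuation of the terms of the excluded part. -/
theorem F5PA_site (hp2 : p ≠ 2) (N : ℕ) (hp : 4 * N < p ^ 2) (l : Multiset ℤ) (m : ℕ)
    (hm : m < N) :
    VG p ((qd p l (2 * m + 1) : ℤ) - 5 * (Pd N p (2 * m + 1) : ℤ)) (site5 N l m) := by
  have hx : ∀ j : ℤ, (m : ℚ) + 1 / 2 - (j : ℚ) = ((2 * m + 1 - 2 * j : ℤ) : ℚ) / 2 := by
    intro j
    push_cast
    ring
  have h1 : VG p 0 ((m : ℚ) + 1 / 2) := by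
    have h2 := VG_half (p := p) (k := 0) (z := (2 * m + 1 : ℤ)) hp2 (by simp)
    have h3 : ((2 * m + 1 : ℤ) : ℚ) / 2 = (m : ℚ) + 1 / 2 := by
      push_cast
      ring
    rw [h3] at h2
    exact_mod_cast h2
  have h2 : VG p (-(5 * (Pd N p (2 * m + 1) : ℤ)))
      (((∏ j ∈ Icc (-(N : ℤ)) N, ((m : ℚ) + 1 / 2 - (j : ℚ))) ^ 5)⁻¹) := by
    rw [← inv_pow, ← prod_inv_distrib]
    have h3 := VG_prod (p := p) (Icc (-(N : ℤ)) N) (fun j => ((m : ℚ) + 1 / 2 - (j : ℚ))⁻¹)
      (fun j => -(if (p : ℤ) ∣ (2 * m + 1 : ℤ) - 2 * j then 1 else 0)) (fun j hj => by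
        rw [mem_Icc] at hj
        have hz : (2 * m + 1 - 2 * j : ℤ) ≠ 0 := by omega
        have hzq : ((2 * m + 1 - 2 * j : ℤ) : ℚ) ≠ 0 := by exact_mod_cast hz
        rw [hx]
        refine VG_inv (div_ne_zero hzq (by norm_num)) ?_
        rw [PA_val_half hp2 hz]
        split_ifs with hd
        · refine PA_val_le_one (N := 2 * N) (by omega) hz ?_
          rw [abs_le]
          push_cast
          (clear * - hm hj; omega)
        · exact PA_val_le_zero hz hd)
    refine VG_mono (VG_pow h3 5) (le_of_eq ?_)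
    rw [sum_neg_distrib, sum_boole]
    unfold Pd
    push_cast
    ring
  have h3 : VG p (qd p l (2 * m + 1) : ℤ)
      (l.map fun n : ℤ => ((m : ℚ) + 1 / 2) ^ 2 - ((n : ℚ) / 2) ^ 2).prod := by
    rw [F5PA_qd_cast]
    refine F5PA_VG_multiset_prod l _ _ fun n _ => ?_
    have h4 : ((m : ℚ) + 1 / 2) ^ 2 - ((n : ℚ) / 2) ^ 2 =
        (((2 * m + 1 - n : ℤ) : ℚ) / 2) * (((2 * m + 1 + n : ℤ) : ℚ) / 2) := by
      push_cast
      ring
    rw [h4]
    have h5 : ∀ z : ℤ, VG p (if (p : ℤ) ∣ z then 1 else 0) ((z : ℚ) / 2) := by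
      intro z
      split_ifs with hd
      · have h6 := VG_half (p := p) (k := 1) (z := z) hp2 (by simpa using hd)
        exact_mod_cast h6
      · have h6 := VG_half (p := p) (k := 0) (z := z) hp2 (by simp)
        exact_mod_cast h6
    exact VG_mul (h5 _) (h5 _)
  unfold site5
  rw [div_eq_mul_inv]
  refine VG_mono (VG_mul (VG_mul h1 h2) h3) (le_of_eq ?_)
  ring

theorem exQ5_refined {p : ℕ} [Fact p.Prime] (hp2 : p ≠ 2) (N : ℕ) (hp : 4 * N < p ^ 2)
    (l : Multiset ℤ) (B : ℤ) (hB : 0 ≤ B)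
    (h : ∀ m ∈ range N, 1 ≤ Pd N p (2 * m + 1) → (2 * m + 1 : ℤ) ∈ l ∨
      5 * (Pd N p (2 * m + 1) : ℤ) - (qd p l (2 * m + 1) : ℤ) ≤ B) :
    VG p (-B) (exQ5 N l) := by
  unfold exQ5
  refine VG_sum _ _ fun m hm => ?_
  have h1 := F5PA_site hp2 N hp l m (mem_range.mp hm)
  have h0 : VG p 0 ((-1 : ℚ) ^ m) := by
    have := VG_neg_one_zpow (p := p) (m : ℤ)
    rwa [zpow_natCast] at this
  by_cases hP : 1 ≤ Pd N p (2 * m + 1)
  · rcases h m hm hP with h2 | h2
    · have h3 : site5 N l m = 0 := by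
        unfold site5
        have h4 : (l.map fun n : ℤ => ((m : ℚ) + 1 / 2) ^ 2 - ((n : ℚ) / 2) ^ 2).prod = 0 := by
          rw [Multiset.prod_eq_zero_iff, Multiset.mem_map]
          refine ⟨2 * m + 1, h2, ?_⟩
          push_cast
          ring
        rw [h4, mul_zero]
      rw [h3, mul_zero]
      exact VG_zero _
    · refine VG_mul' h0 h1 ?_
      omega
  · refine VG_mul' h0 h1 ?_
    omega

end Vale.Agent.P030.Five
end
end

section

section

/-! `p`-adic bounds of the entries, crude version (all `p`). -/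

namespace Vale.Agent.P030

open Finset

/-- `#{1 ≤ r ≤ e : p^r ∣ z}` (truncated valuation). -/
def tv (p e : ℕ) (z : ℤ) : ℕ := ((range e).filter fun r => (p : ℤ) ^ (r + 1) ∣ z).card

theorem PB_tv_le (p e : ℕ) (z : ℤ) : tv p e z ≤ e := by
  unfold tv
  exact (card_filter_le _ _).trans (card_range e).le

theorem PB_tv_dvd (p e : ℕ) (z : ℤ) : (p : ℤ) ^ (tv p e z) ∣ z := by
  by_contra h
  have hsub : ((range e).filter fun r => (p : ℤ) ^ (r + 1) ∣ z) ⊆ range (tv p e z - 1) := by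
    intro r hr
    rw [mem_filter] at hr
    rw [mem_range]
    by_contra h2
    exact h (dvd_trans (pow_dvd_pow _ (by omega)) hr.2)
  have hc := card_le_card hsub
  rw [card_range] at hc
  change tv p e z ≤ tv p e z - 1 at hc
  have h0 : tv p e z = 0 := by omega
  rw [h0] at h
  exact h (by simp)

theorem PB_sum_tv {ι : Type*} (p e : ℕ) (S : Finset ι) (g : ι → ℤ) :
    ∑ i ∈ S, tv p e (g i) =
      ∑ r ∈ range e, (S.filter fun i => (p : ℤ) ^ (r + 1) ∣ g i).card := by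
  unfold tv
  simp only [card_filter]
  rw [sum_comm]

theorem PB_count_lower (q : ℕ) (hq : 0 < q) (a s : ℤ) (L : ℕ) :
    L / q ≤ ((Ico a (a + L)).filter fun m => (q : ℤ) ∣ m - s).card := by
  have hq' : (0 : ℤ) < q := by exact_mod_cast hq
  set m0 : ℤ := a + (s - a) % q with hm0
  have h1 := Int.emod_nonneg (s - a) hq'.ne'
  have h2 := Int.emod_lt_of_pos (s - a) hq'
  have h3 := Int.mul_ediv_add_emod (s - a) q
  have hLq : (q : ℤ) * ((L / q : ℕ) : ℤ) ≤ L := by
    exact_mod_cast Nat.mul_div_le L q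
  rw [← card_range (L / q)]
  refine card_le_card_of_injOn (fun k => m0 + q * (k : ℤ)) ?_ ?_
  · intro k hk
    rw [coe_range, Set.mem_Iio] at hk
    rw [coe_filter, Set.mem_ofPred_eq, mem_Ico]
    have hk' : (k : ℤ) + 1 ≤ ((L / q : ℕ) : ℤ) := by exact_mod_cast hk
    have h4 : (q : ℤ) * ((k : ℤ) + 1) ≤ q * ((L / q : ℕ) : ℤ) :=
      mul_le_mul_of_nonneg_left hk' hq'.le
    have h5 : (0 : ℤ) ≤ q * (k : ℤ) := by positivity
    refine ⟨⟨by dsimp only; omega, ?_⟩, ?_⟩
    · dsimp only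
      have h6 : (q : ℤ) * ((k : ℤ) + 1) = q * k + q := by ring
      omega
    · dsimp only
      refine ⟨k - (s - a) / q, ?_⟩
      rw [mul_sub]
      omega
  · intro k _ k' _ hkk
    dsimp only at hkk
    have h6 : (q : ℤ) * (k : ℤ) = q * k' := by omega
    have h7 := mul_left_cancel₀ hq'.ne' h6
    exact_mod_cast h7

theorem PB_count_upper (q : ℕ) (hq : 0 < q) (a s : ℤ) (L : ℕ) :
    ((Ico a (a + L + 1)).filter fun m => (q : ℤ) ∣ m - s).card ≤ L / q + 1 := by
  have hq' : (0 : ℤ) < q := by exact_mod_cast hq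
  set m0 : ℤ := a + (s - a) % q with hm0
  have h1 := Int.emod_nonneg (s - a) hq'.ne'
  have h2 := Int.emod_lt_of_pos (s - a) hq'
  have h3 := Int.mul_ediv_add_emod (s - a) q
  rw [← card_range (L / q + 1)]
  have key : ∀ m ∈ (Ico a (a + L + 1)).filter (fun m => (q : ℤ) ∣ m - s),
      ∃ t : ℕ, m - m0 = q * (t : ℤ) ∧ t ≤ L / q := by
    intro m hm
    rw [mem_filter, mem_Ico] at hm
    obtain ⟨⟨hm1, hm2⟩, w, hw⟩ := hm
    have h4 : m - m0 = q * (w + (s - a) / q) := by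
      rw [mul_add]
      omega
    have h5 : -1 < w + (s - a) / q := by
      by_contra h6
      have h7 : (q : ℤ) * (w + (s - a) / q) ≤ q * (-1) :=
        mul_le_mul_of_nonneg_left (by omega) hq'.le
      omega
    obtain ⟨t, ht⟩ := Int.eq_ofNat_of_zero_le (show 0 ≤ w + (s - a) / q by omega)
    refine ⟨t, by rw [h4, ht], ?_⟩
    rw [Nat.le_div_iff_mul_le hq]
    rw [ht] at h4
    have h8 : (t : ℤ) * q ≤ L := by
      rw [mul_comm]
      omega
    exact_mod_cast h8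
  refine card_le_card_of_injOn (fun m => ((m - m0) / q).toNat) ?_ ?_
  · intro m hm
    obtain ⟨t, ht, htL⟩ := key m (by exact_mod_cast hm)
    rw [coe_range, Set.mem_Iio]
    dsimp only
    rw [ht, Int.mul_ediv_cancel_left _ hq'.ne', Int.toNat_natCast]
    omega
  · intro m hm m' hm' hmm
    obtain ⟨t, ht, _⟩ := key m (by exact_mod_cast hm)
    obtain ⟨t', ht', _⟩ := key m' (by exact_mod_cast hm')
    dsimp only at hmm
    rw [ht, ht', Int.mul_ediv_cancel_left _ hq'.ne', Int.mul_ediv_cancel_left _ hq'.ne',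
      Int.toNat_natCast, Int.toNat_natCast] at hmm
    rw [hmm] at ht
    omega

variable {p : ℕ} [hp : Fact p.Prime]

theorem PB_factorial {e L : ℕ} (hL : L < p ^ (e + 1)) :
    padicValNat p L.factorial = ∑ r ∈ range e, L / p ^ (r + 1) := by
  have hlog : Nat.log p L < e + 1 := by
    rcases Nat.eq_zero_or_pos L with h | h
    · subst h
      simp
    · exact Nat.log_lt_of_lt_pow h.ne' hL
  rw [padicValNat_factorial hlog, sum_Ico_eq_sum_range]
  simp only [Nat.add_sub_cancel]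
  refine sum_congr rfl fun r _ => ?_
  rw [add_comm]

theorem PB_sum_lower {e : ℕ} (a : ℤ) (L : ℕ) (hL : L < p ^ (e + 1)) (g : ℤ → ℤ)
    (hg : ∀ r : ℕ, ∃ s : ℤ, ∀ m : ℤ, (p : ℤ) ^ (r + 1) ∣ g m ↔ (p : ℤ) ^ (r + 1) ∣ m - s) :
    padicValNat p L.factorial ≤ ∑ m ∈ Ico a (a + L), tv p e (g m) := by
  rw [PB_factorial hL, PB_sum_tv]
  refine sum_le_sum fun r _ => ?_
  obtain ⟨s, hs⟩ := hg r
  have h := PB_count_lower (p ^ (r + 1)) (pow_pos hp.out.pos _) a s L
  refine h.trans (le_of_eq ?_)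
  congr 1
  refine filter_congr fun m _ => ?_
  rw [hs m]
  push_cast
  rfl

/-- the node factors. -/
theorem PB_nodes {e : ℕ} (a : ℕ) (ha : 2 * a < p ^ (e + 1) + 1) (j : ℤ) :
    padicValNat p (2 * a - 1).factorial ≤
      ∑ n ∈ range a, (tv p e (j - (n : ℤ)) + tv p e (j + (n : ℤ))) := by
  rcases Nat.eq_zero_or_pos a with h | h
  · subst h
    simp
  obtain ⟨b, rfl⟩ : ∃ b, a = b + 1 := ⟨a - 1, by omega⟩
  have h1 : padicValNat p (2 * (b + 1) - 1).factorial ≤
      ∑ m ∈ Ico (j - b) (j - b + ((2 * (b + 1) - 1 : ℕ) : ℤ)), tv p e m := by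
    refine PB_sum_lower _ _ (by omega) _ fun r => ⟨0, fun m => by rw [sub_zero]⟩
  refine h1.trans ?_
  have h2 : j - b + ((2 * (b + 1) - 1 : ℕ) : ℤ) = j + b + 1 := by
    have : ((2 * (b + 1) - 1 : ℕ) : ℤ) = 2 * b + 1 := by omega
    rw [this]
    ring
  rw [h2]
  clear h1 h2 ha h
  induction b with
  | zero =>
    have h0 : Ico (j - ((0 : ℕ) : ℤ)) (j + ((0 : ℕ) : ℤ) + 1) = {j} := by
      ext m
      simp only [mem_Ico, mem_singleton]
      push_cast
      omega
    rw [h0]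
    simp
  | succ b ih =>
    rw [sum_range_succ]
    have h3 : Ico (j - ((b + 1 : ℕ) : ℤ)) (j + ((b + 1 : ℕ) : ℤ) + 1) =
        insert (j - ((b + 1 : ℕ) : ℤ)) (insert (j + ((b + 1 : ℕ) : ℤ))
          (Ico (j - (b : ℤ)) (j + b + 1))) := by
      ext m
      simp only [mem_Ico, mem_insert]
      push_cast
      omega
    rw [h3, sum_insert, sum_insert]
    · omega
    · simp only [mem_Ico]
      push_cast
      omega
    · simp only [mem_Ico, mem_insert]
      push_cast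
      omega

/-- the inverse factors. -/
theorem PB_inv {N e : ℕ} (he : 2 * N < p ^ (e + 1)) (j : ℤ) (hj : j ∈ Icc (-(N : ℤ)) N) :
    ∑ i ∈ (Icc (-(N : ℤ)) N).erase j, tv p e (j - i) ≤ padicValNat p (2 * N).factorial := by
  rw [PB_factorial he, PB_sum_tv]
  refine sum_le_sum fun r _ => ?_
  have h := PB_count_upper (p ^ (r + 1)) (pow_pos hp.out.pos _) (-(N : ℤ)) j (2 * N)
  have h1 : Ico (-(N : ℤ)) (-(N : ℤ) + ((2 * N : ℕ) : ℤ) + 1) = Icc (-(N : ℤ)) N := by
    ext m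
    simp only [mem_Ico, mem_Icc]
    push_cast
    omega
  rw [h1] at h
  have h2 : (((Icc (-(N : ℤ)) N).erase j).filter fun i => (p : ℤ) ^ (r + 1) ∣ j - i) =
      ((Icc (-(N : ℤ)) N).filter fun m => ((p ^ (r + 1) : ℕ) : ℤ) ∣ m - j).erase j := by
    ext m
    simp only [mem_filter, mem_erase]
    push_cast
    rw [← dvd_neg, neg_sub]
    tauto
  rw [h2, card_erase_of_mem]
  · exact Nat.sub_le_of_le_add h
  · rw [mem_filter]
    exact ⟨hj, by simp⟩

omit hp in
theorem PB_padicVal_le {e : ℕ} {z : ℤ} (hz : z ≠ 0) (h : |z| < (p : ℤ) ^ (e + 1)) :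
    padicValRat p (z : ℚ) ≤ tv p e z := by
  rw [padicValRat.of_int]
  have h1 : (p : ℤ) ^ (padicValInt p z) ∣ z := padicValInt_dvd z
  have h2 : padicValInt p z ≤ e := by
    by_contra h3
    have h4 : (p : ℤ) ^ (e + 1) ∣ z := dvd_trans (pow_dvd_pow _ (by omega)) h1
    have h5 : (p : ℤ) ^ (e + 1) ∣ |z| := (dvd_abs _ _).mpr h4
    have h6 := Int.le_of_dvd (abs_pos.mpr hz) h5
    omega
  have h3 : range (padicValInt p z) ⊆ (range e).filter fun r => (p : ℤ) ^ (r + 1) ∣ z := by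
    intro r hr
    rw [mem_range] at hr
    rw [mem_filter, mem_range]
    exact ⟨by omega, dvd_trans (pow_dvd_pow _ (by omega)) h1⟩
  have h4 := card_le_card h3
  rw [card_range] at h4
  exact_mod_cast h4

theorem PB_lin_int {e : ℕ} {c : ℚ} (z : ℤ) (h : c = z) : AC p e (tv p e z) (lin c) := by
  subst h
  exact AC_lin (VG_int_of_dvd (PB_tv_dvd p e z)) (by exact_mod_cast PB_tv_le p e z)

theorem natNodes_eq (a : ℕ) : natNodes a = (Multiset.range a).map fun n : ℕ => (n : ℤ) := by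
  unfold natNodes
  simp [Multiset.bind_def, Multiset.pure_def, Multiset.bind_singleton]

theorem PB_nodes_AC {e : ℕ} (a : ℕ) (ha : 2 * a < p ^ (e + 1) + 1) (j : ℤ) :
    AC p e (padicValNat p (2 * a - 1).factorial)
      (((natNodes a).map fun n : ℤ => lin ((j : ℚ) - (n : ℚ)) * lin ((j : ℚ) + (n : ℚ))).prod) := by
  have h1 := AC_multiset_prod (p := p) (e := e) (natNodes a)
    (fun n => lin ((j : ℚ) - (n : ℚ)) * lin ((j : ℚ) + (n : ℚ)))
    (fun n => (tv p e (j - n) : ℤ) + (tv p e (j + n) : ℤ)) (fun n _ => by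
      refine AC_mul (PB_lin_int _ ?_) (PB_lin_int _ ?_)
      · push_cast; ring
      · push_cast; ring)
  refine AC_mono h1 ?_
  have h2 := PB_nodes (p := p) (e := e) a ha j
  have h3 : ((natNodes a).map (fun n => (tv p e (j - n) : ℤ) + (tv p e (j + n) : ℤ))).sum =
      ∑ n ∈ range a, ((tv p e (j - (n : ℤ)) : ℤ) + (tv p e (j + (n : ℤ)) : ℤ)) := by
    rw [natNodes_eq, Multiset.map_map]
    rfl
  rw [h3]
  exact_mod_cast h2

theorem PB_Ssum (N e : ℕ) (he : 2 * N < p ^ (e + 1)) (i : ℕ) (j : ℤ)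
    (hj : j ∈ Icc (-(N : ℤ)) N) : VG p (-(((i + 1) * e : ℕ) : ℤ)) (Ssum (i + 1) j) := by
  rw [mem_Icc] at hj
  have h6 : ((2 * N : ℕ) : ℤ) < ((p ^ (e + 1) : ℕ) : ℤ) := by exact_mod_cast he
  push_cast at h6
  have key : ∀ l : ℤ, |2 * l + 1| ≤ 2 * N →
      VG p (-(((i + 1) * e : ℕ) : ℤ)) ((-1 : ℚ) ^ l / ((l : ℚ) + 1 / 2) ^ (i + 1)) := by
    intro l hl
    have h1 : (l : ℚ) + 1 / 2 = ((2 * l + 1 : ℤ) : ℚ) / 2 := by push_cast; ring
    have h2 : (2 * l + 1 : ℤ) ≠ 0 := by omega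
    have h3 : padicValRat p ((2 * l + 1 : ℤ) : ℚ) ≤ e :=
      (PB_padicVal_le (e := e) h2 (by omega)).trans (by exact_mod_cast PB_tv_le p e _)
    have h4 : VG p (-(e : ℤ)) (((l : ℚ) + 1 / 2)⁻¹) := by
      rw [h1, inv_div, div_eq_mul_inv]
      have h5 := VG_mul (VG_int (p := p) 2) (VG_inv (by exact_mod_cast h2) h3)
      simpa using h5
    rw [div_eq_mul_inv, ← inv_pow]
    have h7 := VG_mul (VG_neg_one_zpow (p := p) l) (VG_pow h4 (i + 1))
    refine VG_mono h7 (le_of_eq ?_)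
    push_cast
    ring
  unfold Ssum
  refine VG_sub (VG_sum _ _ fun l hl => key l ?_) (VG_sum _ _ fun l hl => key l ?_)
  · rw [mem_Ico] at hl
    rw [abs_le]
    omega
  · rw [mem_Ico] at hl
    rw [abs_le]
    omega

theorem PB_WS_odd (N e d : ℕ) (he : 2 * N < p ^ (e + 1))
    (c : ℕ → ℚ) (hc : ∀ i, VG p (-(d : ℤ)) (c i)) (j : ℤ) (hj : j ∈ Icc (-(N : ℤ)) N) :
    AC p e (-(e : ℤ) - d) (WS c j) := by
  intro m
  unfold WS
  rw [PowerSeries.coeff_mk]
  have h1 := PB_Ssum N e he m j hj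
  have h2 : (0 : ℤ) ≤ (e : ℤ) * m := by positivity
  refine VG_add (VG_mono (hc (m + 1)) ?_) (VG_mono h1 ?_)
  · omega
  · push_cast
    linarith only [Int.natCast_nonneg d]

end Vale.Agent.P030
end
end

section

section

/-! Crude `p`-adic bounds of the entries (all `p`). -/

namespace Vale.Agent.P030.Five

open Finset Polynomial Vale.Agent.P030

variable {p : ℕ} [hp : Fact p.Prime]

theorem F5PB_even_map {β : Type*} (a : ℕ) (f : ℤ → β) (g : ℤ → β)
    (h : ∀ n : ℕ, f (2 * n) = g n) : (evenNodes a).map f = (natNodes a).map g := by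
  unfold evenNodes
  rw [natNodes_eq, Multiset.map_map, Multiset.map_map]
  exact Multiset.map_congr rfl fun n _ => h n

theorem F5PB_nodes_AC {e : ℕ} (a : ℕ) (ha : 2 * a < p ^ (e + 1) + 1) (j : ℤ) :
    AC p e (padicValNat p (2 * a - 1).factorial)
      (((evenNodes a).map fun n : ℤ =>
        lin ((j : ℚ) - (n : ℚ) / 2) * lin ((j : ℚ) + (n : ℚ) / 2)).prod) := by
  have h := PB_nodes_AC (p := p) (e := e) a ha j
  rw [F5PB_even_map a _ (fun n : ℤ => lin ((j : ℚ) - (n : ℚ)) * lin ((j : ℚ) + (n : ℚ)))]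
  · exact h
  · intro n
    have h1 : (((2 * (n : ℤ) : ℤ) : ℚ)) / 2 = ((n : ℤ) : ℚ) := by
      push_cast
      ring
    rw [h1]

theorem F5PB_prod_inv {N e : ℕ} (he : 2 * N < p ^ (e + 1)) (j : ℤ)
    (hj : j ∈ Icc (-(N : ℤ)) N) :
    AC p e (-5 * (padicValNat p (2 * N).factorial : ℤ))
      (∏ i ∈ (Icc (-(N : ℤ)) N).erase j, ((lin ((j : ℚ) - (i : ℚ)))⁻¹) ^ 5) := by
  have h1 : AC p e (∑ i ∈ (Icc (-(N : ℤ)) N).erase j, ((5 : ℕ) : ℤ) * (-(tv p e (j - i) : ℤ)))
      (∏ i ∈ (Icc (-(N : ℤ)) N).erase j, ((lin ((j : ℚ) - (i : ℚ)))⁻¹) ^ 5) := by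
    refine AC_prod _ _ _ fun i hi => ?_
    rw [mem_erase, mem_Icc] at hi
    rw [mem_Icc] at hj
    refine AC_pow ?_ 5
    have h2 : (j : ℚ) - (i : ℚ) = ((j - i : ℤ) : ℚ) := by push_cast; ring
    have h3 : j - i ≠ 0 := fun h => hi.1 (by omega)
    have h4 : |j - i| < (p : ℤ) ^ (e + 1) := by
      have h5 : |j - i| ≤ 2 * N := by
        rw [abs_le]
        omega
      have h6 : ((2 * N : ℕ) : ℤ) < ((p ^ (e + 1) : ℕ) : ℤ) := by exact_mod_cast he
      push_cast at h6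
      omega
    rw [h2]
    refine AC_lin_inv (by exact_mod_cast h3) (PB_padicVal_le h3 h4) ?_
    exact_mod_cast PB_tv_le p e (j - i)
  refine AC_mono h1 ?_
  rw [← mul_sum, sum_neg_distrib]
  have h7 := PB_inv he j hj
  have h8 : (∑ i ∈ (Icc (-(N : ℤ)) N).erase j, (tv p e (j - i) : ℤ)) ≤
      (padicValNat p (2 * N).factorial : ℤ) := by exact_mod_cast h7
  generalize (∑ i ∈ (Icc (-(N : ℤ)) N).erase j, (tv p e (j - i) : ℤ)) = A at h8 ⊢
  generalize (padicValNat p (2 * N).factorial : ℤ) = B at h8 ⊢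
  push_cast
  omega

/-- the part `psiQ5`, all `p`. -/
theorem F5PB_core (N K e d : ℕ) (he : 2 * N < p ^ (e + 1)) (he' : 2 * K < p ^ (e + 1))
    (c : ℕ → ℚ) (a b : ℕ) (ha : a ≤ K) (hb : b ≤ K)
    (hW : ∀ j ∈ Icc (-(N : ℤ)) N, AC p e (-(e : ℤ) - d) (WS c j)) :
    VG p (-5 * (padicValNat p (2 * N).factorial : ℤ) + padicValNat p (2 * a - 1).factorial +
      padicValNat p (2 * b - 1).factorial - 5 * e - d)
      (psiQ5 c N (evenNodes a + evenNodes b)) := by
  unfold psiQ5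
  refine VG_sum _ _ fun j hj => ?_
  have h1 : AC p e 0 (lin (j : ℚ)) := AC_lin (VG_int j) (by positivity)
  have h3 := F5PB_nodes_AC (p := p) (e := e) a (by omega) j
  have h4 := F5PB_nodes_AC (p := p) (e := e) b (by omega) j
  have h5 := F5PB_prod_inv he j hj
  have h6 := AC_mul (AC_mul h1 (AC_mul h3 h4)) h5
  have h7 := AC_mul h6 (hW j hj) 4
  have h8 := VG_mul (VG_neg_one_zpow (p := p) j) h7
  unfold uS5
  rw [Multiset.map_add, Multiset.prod_add]
  refine VG_mono h8 (le_of_eq ?_)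
  push_cast
  ring

theorem F5PB_VG_multiset_prod {ι : Type*} (s : Multiset ι) (f : ι → ℚ) (v : ι → ℤ)
    (h : ∀ i ∈ s, VG p (v i) (f i)) : VG p ((s.map v).sum) ((s.map f).prod) := by
  classical
  induction s using Multiset.induction_on with
  | empty => simpa using VG_one
  | cons a s ih =>
    rw [Multiset.map_cons, Multiset.map_cons, Multiset.sum_cons, Multiset.prod_cons]
    exact VG_mul (h a (Multiset.mem_cons_self a s))
      (ih fun i hi => h i (Multiset.mem_cons_of_mem hi))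

/-- divisibility of `s - 2k` by powers of odd `p`. -/
theorem F5PB_shift (hp2 : p ≠ 2) (s : ℤ) (hs : Odd s) (r : ℕ) : ∃ t : ℤ, ∀ k : ℤ,
    (p : ℤ) ^ (r + 1) ∣ s - 2 * k ↔ (p : ℤ) ^ (r + 1) ∣ k - t := by
  obtain ⟨h, hh⟩ : ∃ h : ℤ, (p : ℤ) ^ (r + 1) = 2 * h + 1 := by
    have h4 : Odd ((p : ℤ) ^ (r + 1)) := by
      refine Odd.pow ?_
      exact_mod_cast hp.out.odd_of_ne_two hp2
    exact h4
  obtain ⟨u, hu⟩ := hs
  refine ⟨u - h, fun k => ?_⟩
  have hcop : IsCoprime ((p : ℤ) ^ (r + 1)) 2 := ⟨1, -h, by rw [hh]; ring⟩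
  have h5 : s - 2 * k = -(2 * (k - (u - h))) + (p : ℤ) ^ (r + 1) := by
    rw [hh, hu]
    ring
  rw [h5, dvd_add_self_right, dvd_neg]
  exact ⟨fun h6 => hcop.dvd_of_dvd_mul_left h6, fun h6 => dvd_mul_of_dvd_right h6 2⟩

theorem F5PB_sum_upper {e : ℕ} (hp2 : p ≠ 2) (N : ℕ) (he : 2 * N < p ^ (e + 1)) (s : ℤ)
    (hs : Odd s) : ∑ j ∈ Icc (-(N : ℤ)) N, tv p e (s - 2 * j) ≤
      padicValNat p (2 * N).factorial + e := by
  rw [PB_factorial he, PB_sum_tv]
  have h0 : ∑ r ∈ range e, ((Icc (-(N : ℤ)) N).filter fun j =>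
      (p : ℤ) ^ (r + 1) ∣ s - 2 * j).card ≤ ∑ r ∈ range e, (2 * N / p ^ (r + 1) + 1) := by
    refine sum_le_sum fun r _ => ?_
    obtain ⟨t, ht⟩ := F5PB_shift hp2 s hs r
    have h := PB_count_upper (p ^ (r + 1)) (pow_pos hp.out.pos _) (-(N : ℤ)) t (2 * N)
    have h1 : Ico (-(N : ℤ)) (-(N : ℤ) + ((2 * N : ℕ) : ℤ) + 1) = Icc (-(N : ℤ)) N := by
      ext m
      simp only [mem_Ico, mem_Icc]
      push_cast
      omega
    rw [h1] at h
    refine le_trans (le_of_eq ?_) h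
    congr 1
    refine filter_congr fun m _ => ?_
    rw [ht m]
    push_cast
    rfl
  refine h0.trans (le_of_eq ?_)
  rw [sum_add_distrib]
  simp

omit hp in
theorem F5PB_sym (G : ℤ → ℕ) (b : ℕ) : ∑ k ∈ Ico (-(b : ℤ)) (b + 1), G k ≤
    ∑ n ∈ range (b + 1), (G n + G (-(n : ℤ))) := by
  induction b with
  | zero =>
    have h0 : Ico (-((0 : ℕ) : ℤ)) (((0 : ℕ) : ℤ) + 1) = {0} := by
      ext m
      simp only [mem_Ico, mem_singleton]
      push_cast
      omega
    rw [h0]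
    simp
  | succ b ih =>
    rw [sum_range_succ]
    have h3 : Ico (-((b + 1 : ℕ) : ℤ)) (((b + 1 : ℕ) : ℤ) + 1) =
        insert (-((b + 1 : ℕ) : ℤ)) (insert ((b + 1 : ℕ) : ℤ)
          (Ico (-(b : ℤ)) (b + 1))) := by
      ext m
      simp only [mem_Ico, mem_insert]
      push_cast
      omega
    rw [h3, sum_insert, sum_insert]
    · omega
    · simp only [mem_Ico]
      push_cast
      omega
    · simp only [mem_Ico, mem_insert]
      push_cast
      omega

theorem F5PB_nodes {e : ℕ} (hp2 : p ≠ 2) (a : ℕ) (ha : 2 * a < p ^ (e + 1) + 1) (s : ℤ)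
    (hs : Odd s) : padicValNat p (2 * a - 1).factorial ≤
      ∑ n ∈ range a, (tv p e (s - 2 * (n : ℤ)) + tv p e (s + 2 * (n : ℤ))) := by
  rcases Nat.eq_zero_or_pos a with h | h
  · subst h
    simp
  obtain ⟨b, rfl⟩ : ∃ b, a = b + 1 := ⟨a - 1, by omega⟩
  have h1 : padicValNat p (2 * (b + 1) - 1).factorial ≤
      ∑ k ∈ Ico (-(b : ℤ)) (-(b : ℤ) + ((2 * (b + 1) - 1 : ℕ) : ℤ)), tv p e (s - 2 * k) := by
    refine PB_sum_lower (-(b : ℤ)) _ (by omega) (fun k => s - 2 * k) fun r => ?_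
    exact F5PB_shift hp2 s hs r
  have h2 : -(b : ℤ) + ((2 * (b + 1) - 1 : ℕ) : ℤ) = b + 1 := by
    have : ((2 * (b + 1) - 1 : ℕ) : ℤ) = 2 * b + 1 := by omega
    rw [this]
    ring
  rw [h2] at h1
  refine h1.trans ((F5PB_sym (fun k => tv p e (s - 2 * k)) b).trans (le_of_eq ?_))
  refine sum_congr rfl fun n _ => ?_
  rw [mul_neg, sub_neg_eq_add]

theorem F5PB_map_sum (a : ℕ) (f : ℤ → ℤ) :
    ((evenNodes a).map f).sum = ∑ n ∈ range a, f (2 * n) := by
  unfold evenNodes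
  rw [Multiset.map_map]
  rfl

/-- node products at a half integer, odd `p`. -/
theorem F5PB_nodes_VG {e : ℕ} (hp2 : p ≠ 2) (a : ℕ) (ha : 2 * a < p ^ (e + 1) + 1) (m : ℕ) :
    VG p (padicValNat p (2 * a - 1).factorial)
      ((evenNodes a).map fun n : ℤ => ((m : ℚ) + 1 / 2) ^ 2 - ((n : ℚ) / 2) ^ 2).prod := by
  have h1 := F5PB_VG_multiset_prod (p := p) (evenNodes a)
    (fun n : ℤ => ((m : ℚ) + 1 / 2) ^ 2 - ((n : ℚ) / 2) ^ 2)
    (fun n => (tv p e ((2 * m + 1 : ℤ) - n) : ℤ) + (tv p e ((2 * m + 1 : ℤ) + n) : ℤ))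
    (fun n _ => by
      have h4 : ((m : ℚ) + 1 / 2) ^ 2 - ((n : ℚ) / 2) ^ 2 =
          (((2 * m + 1 - n : ℤ) : ℚ) / 2) * (((2 * m + 1 + n : ℤ) : ℚ) / 2) := by
        push_cast
        ring
      rw [h4]
      exact VG_mul (VG_half hp2 (PB_tv_dvd p e _)) (VG_half hp2 (PB_tv_dvd p e _)))
  refine VG_mono h1 ?_
  rw [F5PB_map_sum]
  have h2 := F5PB_nodes (p := p) (e := e) hp2 a ha (2 * m + 1 : ℤ) ⟨m, rfl⟩
  exact_mod_cast h2

theorem F5PB_ex_odd (hp2 : p ≠ 2) (N K e : ℕ)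
    (he : 4 * N < p ^ (e + 1)) (he' : 2 * K < p ^ (e + 1))
    (a b : ℕ) (ha : a ≤ K) (hb : b ≤ K) :
    VG p (-5 * (padicValNat p (2 * N).factorial : ℤ) + padicValNat p (2 * a - 1).factorial +
      padicValNat p (2 * b - 1).factorial - 5 * e)
      (exQ5 N (evenNodes a + evenNodes b)) := by
  unfold exQ5
  refine VG_sum _ _ fun m hm => ?_
  rw [mem_range] at hm
  have h0 : VG p 0 ((-1 : ℚ) ^ m) := by
    have := VG_neg_one_zpow (p := p) (m : ℤ)
    rwa [zpow_natCast] at this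
  have h1 : VG p 0 ((m : ℚ) + 1 / 2) := by
    have h2 := VG_half (p := p) (k := 0) (z := (2 * m + 1 : ℤ)) hp2 (by simp)
    have h3 : ((2 * m + 1 : ℤ) : ℚ) / 2 = (m : ℚ) + 1 / 2 := by
      push_cast
      ring
    rw [h3] at h2
    exact_mod_cast h2
  have h2 : VG p (-(5 * ((padicValNat p (2 * N).factorial : ℤ) + e)))
      (((∏ j ∈ Icc (-(N : ℤ)) N, ((m : ℚ) + 1 / 2 - (j : ℚ))) ^ 5)⁻¹) := by
    rw [← inv_pow, ← prod_inv_distrib]
    have h3 := VG_prod (p := p) (Icc (-(N : ℤ)) N) (fun j => ((m : ℚ) + 1 / 2 - (j : ℚ))⁻¹)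
      (fun j => -(tv p e ((2 * m + 1 : ℤ) - 2 * j) : ℤ)) (fun j hj => by
        rw [mem_Icc] at hj
        have hx : (m : ℚ) + 1 / 2 - (j : ℚ) = ((2 * m + 1 - 2 * j : ℤ) : ℚ) / 2 := by
          push_cast
          ring
        have hz : (2 * m + 1 - 2 * j : ℤ) ≠ 0 := by omega
        have hzq : ((2 * m + 1 - 2 * j : ℤ) : ℚ) ≠ 0 := by exact_mod_cast hz
        rw [hx]
        refine VG_inv (div_ne_zero hzq (by norm_num)) ?_
        have h4 : padicValRat p (((2 * m + 1 - 2 * j : ℤ) : ℚ) / 2) =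
            padicValRat p ((2 * m + 1 - 2 * j : ℤ) : ℚ) := by
          rw [padicValRat.div hzq (by norm_num)]
          have h2 : (2 : ℚ) = ((2 : ℕ) : ℚ) := by norm_num
          rw [h2, padicValRat.of_nat, padicValNat_primes hp2]
          simp
        rw [h4]
        refine PB_padicVal_le hz ?_
        have h6 : ((4 * N : ℕ) : ℤ) < ((p ^ (e + 1) : ℕ) : ℤ) := by exact_mod_cast he
        push_cast at h6
        have h7 : |(2 * m + 1 - 2 * j : ℤ)| ≤ 4 * N := by
          rw [abs_le]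
          (clear * - hm hj; omega)
        omega)
    refine VG_mono (VG_pow h3 5) ?_
    rw [sum_neg_distrib]
    have h5 := F5PB_sum_upper (p := p) (e := e) hp2 N (by omega) (2 * m + 1 : ℤ) ⟨m, rfl⟩
    have h6 : (∑ j ∈ Icc (-(N : ℤ)) N, (tv p e ((2 * m + 1 : ℤ) - 2 * j) : ℤ)) ≤
        (padicValNat p (2 * N).factorial : ℤ) + e := by exact_mod_cast h5
    generalize (∑ j ∈ Icc (-(N : ℤ)) N, (tv p e ((2 * m + 1 : ℤ) - 2 * j) : ℤ)) = A at h6 ⊢
    generalize (padicValNat p (2 * N).factorial : ℤ) = B at h6 ⊢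
    push_cast
    omega
  have h3 := F5PB_nodes_VG (p := p) (e := e) hp2 a (by omega) m
  have h4 := F5PB_nodes_VG (p := p) (e := e) hp2 b (by omega) m
  unfold site5
  rw [div_eq_mul_inv, Multiset.map_add, Multiset.prod_add]
  refine VG_mono (VG_mul h0 (VG_mul (VG_mul h1 h2) (VG_mul h3 h4))) (le_of_eq ?_)
  ring

theorem entry_crude_odd5 {p : ℕ} [Fact p.Prime] (hp2 : p ≠ 2) (N K e d : ℕ)
    (he : 4 * N < p ^ (e + 1)) (he' : 2 * K < p ^ (e + 1))
    (c : ℕ → ℚ) (hc : ∀ i, VG p (-(d : ℤ)) (c i)) (a b : ℕ) (ha : a ≤ K) (hb : b ≤ K) :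
    VG p (-5 * (padicValNat p (2 * N).factorial : ℤ) + padicValNat p (2 * a - 1).factorial +
      padicValNat p (2 * b - 1).factorial - 5 * e - d)
      (psiQ5 c N (evenNodes a + evenNodes b) - exQ5 N (evenNodes a + evenNodes b)) := by
  have he2 : 2 * N < p ^ (e + 1) := by omega
  refine VG_sub (F5PB_core N K e d he2 he' c a b ha hb
    fun j hj => PB_WS_odd N e d he2 c hc j hj) ?_
  refine VG_mono (F5PB_ex_odd hp2 N K e he he' a b ha hb) ?_
  omega

/-! ### the prime two -/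

theorem F5PB_inv_two (z : ℤ) (hz : Odd z) : VG 2 1 (((z : ℚ) / 2)⁻¹) := by
  have hz0 : z ≠ 0 := by
    rintro rfl
    simp at hz
  have h1 : padicValRat 2 (z : ℚ) ≤ 0 := by
    rw [padicValRat.of_int]
    have h2 : padicValInt 2 z = 0 := by
      refine padicValInt.eq_zero_of_not_dvd ?_
      intro h3
      have h4 : (2 : ℤ) ∣ z := by exact_mod_cast h3
      rw [← even_iff_two_dvd] at h4
      exact (Int.not_even_iff_odd.mpr hz) h4
    rw [h2]
    simp
  rw [inv_div, div_eq_mul_inv]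
  have h5 : VG 2 1 (2 : ℚ) := by
    have h6 := VG_int_of_dvd (p := 2) (k := 1) (z := 2) (by norm_num)
    exact_mod_cast h6
  have h7 := VG_mul h5 (VG_inv (p := 2) (by exact_mod_cast hz0) h1)
  simpa using h7

theorem F5PB_half_two (z : ℤ) : VG 2 (-1) ((z : ℚ) / 2) := by
  have h3 : VG 2 (-1) ((2 : ℚ)⁻¹) := by
    refine VG_inv (by norm_num) ?_
    have h4 : (2 : ℚ) = ((2 : ℕ) : ℚ) := by norm_num
    rw [h4, padicValRat.self (by norm_num)]
  have h5 := VG_mul (VG_int (p := 2) z) h3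
  rw [div_eq_mul_inv]
  simpa using h5

theorem F5PB_WS_two (e d : ℕ) (c : ℕ → ℚ) (hc : ∀ i, VG 2 (-(d : ℤ)) (c i)) (j : ℤ) :
    AC 2 e (-(e : ℤ) - d) (WS c j) := by
  intro m
  unfold WS
  rw [PowerSeries.coeff_mk]
  have h2 : (0 : ℤ) ≤ (e : ℤ) * m := by positivity
  have key2 : ∀ l : ℤ, VG 2 0 ((-1 : ℚ) ^ l / ((l : ℚ) + 1 / 2) ^ (m + 1)) := by
    intro l
    have h1 : (l : ℚ) + 1 / 2 = ((2 * l + 1 : ℤ) : ℚ) / 2 := by push_cast; ring
    rw [h1, div_eq_mul_inv, ← inv_pow]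
    have h3 := F5PB_inv_two (2 * l + 1) ⟨l, rfl⟩
    have h4 := VG_mul (VG_neg_one_zpow (p := 2) l) (VG_pow h3 (m + 1))
    refine VG_mono h4 ?_
    positivity
  refine VG_add (VG_mono (hc (m + 1)) (by omega)) (VG_mono (n := 0) ?_ (by omega))
  unfold Ssum
  exact VG_sub (VG_sum _ _ fun l _ => key2 l) (VG_sum _ _ fun l _ => key2 l)

theorem F5PB_nodes_two (a m : ℕ) : VG 2 (-(2 * a : ℤ))
    ((evenNodes a).map fun n : ℤ => ((m : ℚ) + 1 / 2) ^ 2 - ((n : ℚ) / 2) ^ 2).prod := by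
  have h1 := F5PB_VG_multiset_prod (p := 2) (evenNodes a)
    (fun n : ℤ => ((m : ℚ) + 1 / 2) ^ 2 - ((n : ℚ) / 2) ^ 2) (fun _ => -2)
    (fun n _ => by
      have h4 : ((m : ℚ) + 1 / 2) ^ 2 - ((n : ℚ) / 2) ^ 2 =
          (((2 * m + 1 - n : ℤ) : ℚ) / 2) * (((2 * m + 1 + n : ℤ) : ℚ) / 2) := by
        push_cast
        ring
      rw [h4]
      exact VG_mul (F5PB_half_two _) (F5PB_half_two _))
  refine VG_mono h1 (le_of_eq ?_)
  rw [F5PB_map_sum, sum_const, card_range]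
  simp
  ring

theorem F5PB_fact_upper (n : ℕ) : padicValNat 2 n.factorial ≤ n := by
  have h := sub_one_mul_padicValNat_factorial (p := 2) n
  omega

theorem F5PB_fact_lower (n e : ℕ) (h : n < 2 ^ e) : n ≤ padicValNat 2 n.factorial + e := by
  have h1 := sub_one_mul_padicValNat_factorial (p := 2) n
  have h2 : (Nat.digits 2 n).sum ≤ e := by
    have h3 : (Nat.digits 2 n).length ≤ e := by
      rw [Nat.digits_length_le_iff (by norm_num)]
      exact h
    have h4 : (Nat.digits 2 n).sum ≤ (Nat.digits 2 n).length • 1 := by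
      refine List.sum_le_card_nsmul _ _ fun x hx => ?_
      have := Nat.digits_lt_base (b := 2) (by norm_num) hx
      omega
    simp only [smul_eq_mul, mul_one] at h4
    omega
  omega

theorem F5PB_ex_two (N K e : ℕ) (hK : 2 * K ≤ 5 * N) (he : 4 * N < 2 ^ (e + 1))
    (a b : ℕ) (ha : a < K) (hb : b < K) :
    VG 2 (-5 * (padicValNat 2 (2 * N).factorial : ℤ) + padicValNat 2 (2 * a - 1).factorial +
      padicValNat 2 (2 * b - 1).factorial - 5 * e)
      (exQ5 N (evenNodes a + evenNodes b)) := by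
  unfold exQ5
  refine VG_sum _ _ fun m _ => ?_
  have h0 : VG 2 0 ((-1 : ℚ) ^ m) := by
    have := VG_neg_one_zpow (p := 2) (m : ℤ)
    rwa [zpow_natCast] at this
  have h1 : VG 2 (-1) ((m : ℚ) + 1 / 2) := by
    have h2 := F5PB_half_two (2 * m + 1 : ℤ)
    have h3 : ((2 * m + 1 : ℤ) : ℚ) / 2 = (m : ℚ) + 1 / 2 := by
      push_cast
      ring
    rwa [h3] at h2
  have h2 : VG 2 (5 * (2 * N + 1))
      (((∏ j ∈ Icc (-(N : ℤ)) N, ((m : ℚ) + 1 / 2 - (j : ℚ))) ^ 5)⁻¹) := by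
    rw [← inv_pow, ← prod_inv_distrib]
    have h3 := VG_prod (p := 2) (Icc (-(N : ℤ)) N) (fun j => ((m : ℚ) + 1 / 2 - (j : ℚ))⁻¹)
      (fun _ => 1) (fun j _ => by
        have hx : (m : ℚ) + 1 / 2 - (j : ℚ) = ((2 * m + 1 - 2 * j : ℤ) : ℚ) / 2 := by
          push_cast
          ring
        rw [hx]
        exact F5PB_inv_two _ ⟨m - j, by ring⟩)
    refine VG_mono (VG_pow h3 5) (le_of_eq ?_)
    rw [sum_const, Int.card_Icc]
    have h4 : ((N : ℤ) + 1 - -(N : ℤ)).toNat = 2 * N + 1 := by omega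
    rw [h4]
    simp
  have h3 := F5PB_nodes_two a m
  have h4 := F5PB_nodes_two b m
  unfold site5
  rw [div_eq_mul_inv, Multiset.map_add, Multiset.prod_add]
  refine VG_mono (VG_mul h0 (VG_mul (VG_mul h1 h2) (VG_mul h3 h4))) ?_
  have h5 := F5PB_fact_upper (2 * a - 1)
  have h6 := F5PB_fact_upper (2 * b - 1)
  have h7 := F5PB_fact_lower (2 * N) e (by rw [pow_succ] at he; omega)
  (clear * - hK ha hb h5 h6 h7; omega)

theorem entry_crude_two5 (N K e d : ℕ) (hK : 2 * K ≤ 5 * N)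
    (he : 4 * N < 2 ^ (e + 1)) (he' : 2 * K < 2 ^ (e + 1))
    (c : ℕ → ℚ) (hc : ∀ i, VG 2 (-(d : ℤ)) (c i)) (a b : ℕ) (ha : a < K) (hb : b < K) :
    VG 2 (-5 * (padicValNat 2 (2 * N).factorial : ℤ) +
      padicValNat 2 (2 * a - 1).factorial +
      padicValNat 2 (2 * b - 1).factorial - 5 * e - d)
      (psiQ5 c N (evenNodes a + evenNodes b) - exQ5 N (evenNodes a + evenNodes b)) := by
  refine VG_sub (F5PB_core (p := 2) N K e d (by omega) he' c a b ha.le hb.le
    fun j _ => F5PB_WS_two e d c hc j) ?_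
  refine VG_mono (F5PB_ex_two N K e hK he a b ha hb) ?_
  omega

end Vale.Agent.P030.Five
end
end

section

section

/-! Final forms of the bounds of `Five/Lev.lean`. -/

namespace Vale.Agent.P030.Five

open Finset Polynomial Vale.Agent.P030

theorem F5Lev_hdet (N K : ℕ) : F5LevHdet N K := fun Q hm hd => HK5_eq_det N K Q hm hd

theorem F5Lev_hpsi {c : ℕ → ℚ} (hc : GoodC5 c) (N : ℕ) : F5LevHpsi c N :=
  fun l hl => psi5_eq c hc N l hl

/-- the Hankel determinant as a rational number. -/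
theorem exists_rat_HK5 (c : ℕ → ℚ) (hc : GoodC5 c) (N K : ℕ) (hK : 2 * K ≤ 5 * N) :
    ∃ x : ℚ, HK5 N K = (x : ℝ) :=
  exists_rat_HK5_of (F5Lev_hdet N K) (F5Lev_hpsi hc N) hK

theorem det_refined5 {p : ℕ} [Fact p.Prime] (hp2 : p ≠ 2) (N K : ℕ) (_hN : 1 ≤ N)
    (hK : 2 * K ≤ 5 * N) (hp : 4 * N < p ^ 2) (c : ℕ → ℚ) (hc : GoodC5 c)
    (hci : ∀ i, VG p 0 (c i))
    (x : ℚ) (hx : HK5 N K = (x : ℝ)) (hx0 : x ≠ 0) (lam : ℕ) :
    -(padicValRat p x : ℝ) ≤ K * lam + levSum N K p lam :=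
  det_refined5_of hp2 N K hK c (F5Lev_hdet N K) (F5Lev_hpsi hc N)
    (fun l B hB h => psiQ5_refined hp2 N (by omega) c hci l B hB h)
    (fun l B hB h => exQ5_refined hp2 N hp l B hB h) x hx hx0 lam

theorem det_crude_odd5 {p : ℕ} [Fact p.Prime] (hp2 : p ≠ 2) (N K e d : ℕ) (_hN : 1 ≤ N)
    (hK : 2 * K ≤ 5 * N) (he : 4 * N < p ^ (e + 1)) (he' : 2 * K < p ^ (e + 1))
    (c : ℕ → ℚ) (hc : GoodC5 c) (hci : ∀ i, VG p (-(d : ℤ)) (c i))
    (x : ℚ) (hx : HK5 N K = (x : ℝ)) (hx0 : x ≠ 0) :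
    -(padicValRat p x) ≤ K * (5 * (padicValNat p (2 * N).factorial : ℤ) + 5 * e + d) -
      2 * ∑ k ∈ range K, (padicValNat p (2 * k - 1).factorial : ℤ) :=
  det_crude5_of N K e d hK c (F5Lev_hdet N K) (F5Lev_hpsi hc N)
    (fun a b ha hb => entry_crude_odd5 hp2 N K e d he he' c hci a b ha.le hb.le) x hx hx0

theorem det_crude_two5 (N K e d : ℕ) (_hN : 1 ≤ N)
    (hK : 2 * K ≤ 5 * N) (he : 4 * N < 2 ^ (e + 1)) (he' : 2 * K < 2 ^ (e + 1))
    (c : ℕ → ℚ) (hc : GoodC5 c) (hci : ∀ i, VG 2 (-(d : ℤ)) (c i))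
    (x : ℚ) (hx : HK5 N K = (x : ℝ)) (hx0 : x ≠ 0) :
    -(padicValRat 2 x) ≤ K * (5 * (padicValNat 2 (2 * N).factorial : ℤ) + 5 * e + d) -
      2 * ∑ k ∈ range K, (padicValNat 2 (2 * k - 1).factorial : ℤ) :=
  det_crude5_of N K e d hK c (F5Lev_hdet N K) (F5Lev_hpsi hc N)
    (fun a b ha hb => entry_crude_two5 N K e d hK he he' c hci a b ha hb) x hx hx0

end Vale.Agent.P030.Five
end
end

section

section

/-! Residue class counting for `Pc` and `Zc`. -/

namespace Vale.Agent.P030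

open Finset

/-- number of members of a residue class in an interval of `n` consecutive integers. -/
theorem Cnt_window (p : ℕ) (hp : 0 < p) (a : ℤ) (n : ℕ) (r : ℤ) :
    n / p ≤ ((Ico a (a + n)).filter fun j => (p : ℤ) ∣ r - j).card ∧
      ((Ico a (a + n)).filter fun j => (p : ℤ) ∣ r - j).card ≤ (n + p - 1) / p := by
  have h1 : ((Ico a (a + n)).filter fun j => (p : ℤ) ∣ r - j) =
      ((Ico a (a + n)).filter fun j => j ≡ r [ZMOD (p : ℤ)]) := by
    apply Finset.filter_congr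
    intro j _
    rw [Int.modEq_iff_dvd]
  have hp' : (0 : ℤ) < (p : ℤ) := by exact_mod_cast hp
  have h2 := Int.Ico_filter_modEq_card a (a + n) hp' r
  rw [← h1] at h2
  have hpq : (0 : ℚ) < (p : ℚ) := by exact_mod_cast hp
  set c := ((Ico a (a + n)).filter fun j => (p : ℤ) ∣ r - j).card with hc
  have e1 : (((a + n : ℤ) : ℚ) - r) / ((p : ℤ) : ℚ) = ((a : ℚ) - r) / p + (n : ℚ) / p := by
    push_cast
    field_simp
    ring
  have e2 : (((a : ℤ) : ℚ) - r) / ((p : ℤ) : ℚ) = ((a : ℚ) - r) / p := by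
    push_cast
    rfl
  rw [e1, e2] at h2
  set x : ℚ := ((a : ℚ) - r) / p with hx
  have hfl : ((n / p : ℕ) : ℚ) ≤ (n : ℚ) / p := Nat.cast_div_le
  have hlow : ⌈x⌉ + ((n / p : ℕ) : ℤ) ≤ ⌈x + (n : ℚ) / p⌉ := by
    have : ⌈x + (((n / p : ℕ) : ℤ) : ℚ)⌉ = ⌈x⌉ + ((n / p : ℕ) : ℤ) := Int.ceil_add_intCast _ _
    rw [← this]
    apply Int.ceil_le_ceil
    rw [Int.cast_natCast]
    linarith only [hfl]
  have hup : ⌈x + (n : ℚ) / p⌉ ≤ ⌈x⌉ + (((n + p - 1) / p : ℕ) : ℤ) := by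
    have h3 : (n : ℚ) / p ≤ (((n + p - 1) / p : ℕ) : ℚ) := by
      rw [div_le_iff₀ hpq]
      have h4 : n ≤ ((n + p - 1) / p) * p := by
        have h5 := Nat.div_add_mod (n + p - 1) p
        have h6 := Nat.mod_lt (n + p - 1) hp
        have h7 : (n + p - 1) / p * p = p * ((n + p - 1) / p) := Nat.mul_comm _ _
        omega
      exact_mod_cast h4
    have : ⌈x + ((((n + p - 1) / p : ℕ) : ℤ) : ℚ)⌉ = ⌈x⌉ + (((n + p - 1) / p : ℕ) : ℤ) :=
      Int.ceil_add_intCast _ _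
    rw [← this]
    apply Int.ceil_le_ceil
    rw [Int.cast_natCast]
    linarith only [h3]
  have hmax : max (⌈x + (n : ℚ) / p⌉ - ⌈x⌉) 0 = ⌈x + (n : ℚ) / p⌉ - ⌈x⌉ := by
    apply max_eq_left
    have : (0 : ℤ) ≤ ((n / p : ℕ) : ℤ) := by (clear * -; positivity)
    linarith only [hlow]
  rw [hmax] at h2
  constructor
  · have : ((n / p : ℕ) : ℤ) ≤ (c : ℤ) := by rw [h2]; linarith only [hlow]
    exact_mod_cast this
  · have : (c : ℤ) ≤ (((n + p - 1) / p : ℕ) : ℤ) := by rw [h2]; linarith only [hup]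
    exact_mod_cast this

theorem Cnt_Icc_eq (N : ℕ) : Icc (-(N : ℤ)) N = Ico (-(N : ℤ)) (-(N : ℤ) + ((2 * N + 1 : ℕ) : ℤ)) := by
  ext j
  simp only [mem_Icc, mem_Ico]
  push_cast
  omega

theorem Cnt_Pc_bounds (N p : ℕ) (hp : 0 < p) (r : ℤ) :
    2 * N / p ≤ Pc N p r ∧ Pc N p r ≤ 2 * N / p + 1 := by
  have h := Cnt_window p hp (-(N : ℤ)) (2 * N + 1) r
  rw [← Cnt_Icc_eq] at h
  have e : (2 * N + 1 + p - 1) / p = 2 * N / p + 1 := by
    have : 2 * N + 1 + p - 1 = 2 * N + p := by omega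
    rw [this, Nat.add_div_right _ hp]
  rw [e] at h
  refine ⟨le_trans (Nat.div_le_div_right (by omega)) h.1, h.2⟩

/-- exactly one `y < p` is congruent to a given integer. -/
theorem Cnt_one (p : ℕ) (hp : 0 < p) (j : ℤ) :
    ((range p).filter fun y : ℕ => (p : ℤ) ∣ (y : ℤ) - j).card = 1 := by
  have hp' : (0 : ℤ) < (p : ℤ) := by exact_mod_cast hp
  rw [Finset.card_eq_one]
  refine ⟨(j % p).toNat, ?_⟩
  have h0 : 0 ≤ j % p := Int.emod_nonneg _ hp'.ne'
  have h1 : j % p < p := Int.emod_lt_of_pos _ hp'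
  ext y
  simp only [mem_filter, mem_range, mem_singleton]
  constructor
  · rintro ⟨hy, hd⟩
    have h2 : ((y : ℤ)) % p = j % p :=
      Int.emod_eq_emod_iff_emod_sub_eq_zero.2 (Int.emod_eq_zero_of_dvd hd)
    have h3 : ((y : ℤ)) % p = y := Int.emod_eq_of_lt (by positivity) (by exact_mod_cast hy)
    rw [h3] at h2
    omega
  · rintro rfl
    refine ⟨by omega, ?_⟩
    rw [Int.toNat_of_nonneg h0]
    have := Int.emod_add_mul_ediv j p
    exact ⟨-(j / p), by linarith only [this]⟩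

theorem Cnt_sum_card (p : ℕ) (hp : 0 < p) (s : Finset ℤ) (h : ℤ) :
    ∑ y ∈ range p, (s.filter fun j => (p : ℤ) ∣ ((y : ℤ) - h) - j).card = s.card := by
  simp_rw [Finset.card_filter]
  rw [Finset.sum_comm]
  have : ∀ j ∈ s, ∑ y ∈ range p, (if (p : ℤ) ∣ ((y : ℤ) - h) - j then 1 else 0) = 1 := by
    intro j _
    rw [← Finset.card_filter]
    have := Cnt_one p hp (h + j)
    simpa [sub_sub] using this
  rw [Finset.sum_congr rfl this]
  simp

theorem Cnt_sum_Pc (N p : ℕ) (hp : 0 < p) : ∑ y ∈ range p, Pc N p (y : ℤ) = 2 * N + 1 := by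
  have h := Cnt_sum_card p hp (Icc (-(N : ℤ)) N) 0
  simp only [sub_zero] at h
  unfold Pc
  rw [h]
  simp
  omega

theorem Cnt_Pc_symm (N p : ℕ) (r : ℤ) : Pc N p ((p : ℤ) - r) = Pc N p r := by
  unfold Pc
  refine Finset.card_bij' (fun j _ => -j) (fun j _ => -j) ?_ ?_ ?_ ?_
  · intro j hj
    simp only [mem_filter, mem_Icc] at hj ⊢
    refine ⟨by omega, ?_⟩
    have : r - -j = -((p : ℤ) - r - j) + p := by ring
    rw [this]
    exact dvd_add (hj.2.neg_right) (dvd_refl _)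
  · intro j hj
    simp only [mem_filter, mem_Icc] at hj ⊢
    refine ⟨by omega, ?_⟩
    have : (p : ℤ) - r - -j = -(r - j) + p := by ring
    rw [this]
    exact dvd_add (hj.2.neg_right) (dvd_refl _)
  · intro j _; simp
  · intro j _; simp

/-- sum over the half system of a symmetric function. -/
theorem Cnt_half {p : ℕ} (hp : Odd p) (g : ℤ → ℝ) (hg : ∀ r, g ((p : ℤ) - r) = g r) :
    ∑ y ∈ range ((p + 1) / 2), g (y : ℤ) = ((∑ y ∈ range p, g (y : ℤ)) + g 0) / 2 := by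
  obtain ⟨m, rfl⟩ := hp
  have h1 : (2 * m + 1 + 1) / 2 = m + 1 := by omega
  rw [h1]
  have h2 : ∑ y ∈ range (2 * m + 1), g (y : ℤ) =
      ∑ y ∈ range (m + 1), g (y : ℤ) + ∑ i ∈ range m, g (((m + 1 + i : ℕ)) : ℤ) := by
    have : 2 * m + 1 = (m + 1) + m := by ring
    rw [this, Finset.sum_range_add]
  have h3 : ∑ i ∈ range m, g (((m + 1 + i : ℕ)) : ℤ) = ∑ i ∈ range m, g (((i + 1 : ℕ)) : ℤ) := by
    rw [← Finset.sum_range_reflect (fun i => g (((i + 1 : ℕ)) : ℤ)) m]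
    apply Finset.sum_congr rfl
    intro i hi
    rw [mem_range] at hi
    rw [← hg]
    congr 1
    have : m - 1 - i + 1 = m - i := by omega
    rw [this]
    push_cast [Nat.cast_sub hi.le]
    ring
  have h4 : ∑ y ∈ range (m + 1), g (y : ℤ) = ∑ i ∈ range m, g (((i + 1 : ℕ)) : ℤ) + g 0 := by
    rw [Finset.sum_range_succ']
    simp
  rw [h2, h3]
  linarith only [h4]

end Vale.Agent.P030
end
end

section

section

/-! Counting for `levSum` (file F6). -/

namespace Vale.Agent.P030.Five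

open Finset Vale.Agent.P030

/-- for odd `p`, `Pd` at even arguments is `Pc`. -/
theorem F5Cnt_Pd_eq {p : ℕ} (hp : Odd p) (N : ℕ) (y : ℤ) : Pd N p (2 * y) = Pc N p y := by
  obtain ⟨m, rfl⟩ := hp
  have hcop : IsCoprime ((2 * m + 1 : ℕ) : ℤ) 2 := by
    refine ⟨1, -(m : ℤ), ?_⟩
    push_cast
    ring
  unfold Pd Pc
  congr 1
  apply Finset.filter_congr
  intro j _
  have : 2 * y - 2 * j = 2 * (y - j) := by ring
  rw [this]
  constructor
  · intro h
    exact hcop.dvd_of_dvd_mul_left h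
  · intro h
    exact h.mul_left 2

/-- sum of a decreasing arithmetic progression with truncation. -/
theorem F5Cnt_tri (m K : ℕ) : ((∑ n ∈ range K, (m - 2 * n) : ℕ) : ℝ) ≤ ((m : ℝ) + 1) ^ 2 / 4 := by
  induction m using Nat.strong_induction_on generalizing K with
  | _ m ih =>
    rcases K with _ | K
    · simp
      positivity
    · rw [Finset.sum_range_succ']
      have e : ∀ n ∈ range K, m - 2 * (n + 1) = (m - 2) - 2 * n := by
        intro n _
        omega
      rw [Finset.sum_congr rfl e]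
      rcases Nat.lt_or_ge m 2 with h | h
      · have e2 : ∀ n ∈ range K, m - 2 - 2 * n = 0 := by
          intro n _
          omega
        rw [Finset.sum_congr rfl e2]
        have : m = 0 ∨ m = 1 := by omega
        rcases this with rfl | rfl
        · norm_num
        · norm_num
      · have h1 := ih (m - 2) (by omega) K
        push_cast [Nat.cast_sub h] at h1 ⊢
        simp only [Nat.sub_zero]
        linarith only [h1]

/-- the case `p ≤ N`, with `lam = 1`. -/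
theorem count_small5 {N K p : ℕ} (hp : Odd p) (hp1 : 1 < p) (hpN : p ≤ N) :
    (levSum N K p 1 : ℝ) ≤
      25 / 8 * ((2 * (N : ℝ) + 1) ^ 2 / p + p / 4 + ((2 * (N : ℝ) + 1) / p + 1) ^ 2) := by
  have hp0 := hp.pos
  have hp' : (0 : ℝ) < (p : ℝ) := by exact_mod_cast hp0
  set F := 2 * N / p with hF
  have hF2 : 2 ≤ F := by
    rw [hF, Nat.le_div_iff_mul_le hp0]
    omega
  have hFV : (F : ℝ) ≤ (2 * (N : ℝ) + 1) / p := by
    have h1 : ((2 * N / p : ℕ) : ℝ) ≤ ((2 * N : ℕ) : ℝ) / p := Nat.cast_div_le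
    rw [hF]
    refine h1.trans ?_
    push_cast
    gcongr
    linarith only []
  set g : ℤ → ℝ := fun r => 25 / 4 * (Pc N p r : ℝ) ^ 2 with hg
  have h1 : (levSum N K p 1 : ℝ) ≤ ∑ y ∈ range ((p + 1) / 2), g (y : ℤ) := by
    unfold levSum
    rw [Nat.cast_sum]
    apply Finset.sum_le_sum
    intro y _
    have hP := Cnt_Pc_bounds N p hp0 y
    have e1 : ∀ n ∈ range K, lev5 N p y n - 1 = (5 * Pc N p y - 1) - 2 * n := by
      intro n _
      unfold lev5
      rw [F5Cnt_Pd_eq hp, if_pos (by omega)]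
      omega
    rw [Finset.sum_congr rfl e1]
    refine (F5Cnt_tri _ K).trans ?_
    have h2 : ((5 * Pc N p y - 1 : ℕ) : ℝ) = 5 * (Pc N p y : ℝ) - 1 := by
      push_cast [Nat.cast_sub (show 1 ≤ 5 * Pc N p y by omega)]
      ring
    rw [h2]
    simp only [hg]
    apply le_of_eq
    ring
  have h2 : ∑ y ∈ range ((p + 1) / 2), g (y : ℤ) = ((∑ y ∈ range p, g (y : ℤ)) + g 0) / 2 := by
    apply Cnt_half hp
    intro r
    simp only [hg, Cnt_Pc_symm]
  have h3 : ∑ y ∈ range p, g (y : ℤ) ≤ 25 / 4 * ((2 * (N : ℝ) + 1) ^ 2 / p + p / 4) := by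
    have e : ∀ y ∈ range p, g (y : ℤ) =
        25 / 4 * ((2 * (F : ℝ) + 1) * (Pc N p (y : ℤ) : ℝ) - F * (F + 1)) := by
      intro y _
      have hP := Cnt_Pc_bounds N p hp0 y
      have ha : Pc N p y = F ∨ Pc N p y = F + 1 := by omega
      simp only [hg]
      rcases ha with ha | ha <;> rw [ha] <;> push_cast <;> ring
    have hs : ∑ y ∈ range p, (Pc N p (y : ℤ) : ℝ) = 2 * N + 1 := by
      exact_mod_cast Cnt_sum_Pc N p hp.pos
    rw [Finset.sum_congr rfl e, ← Finset.mul_sum, Finset.sum_sub_distrib, ← Finset.mul_sum, hs,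
      Finset.sum_const, card_range, nsmul_eq_mul]
    have key : (2 * (F : ℝ) + 1) * (2 * N + 1) - p * (F * (F + 1)) ≤
        (2 * (N : ℝ) + 1) ^ 2 / p + p / 4 := by
      have e2 : (2 * (N : ℝ) + 1) ^ 2 / p + p / 4 -
          ((2 * (F : ℝ) + 1) * (2 * N + 1) - p * (F * (F + 1))) =
          ((2 * (N : ℝ) + 1) - (F + 1 / 2) * p) ^ 2 / p := by
        field_simp
        ring
      have e3 : 0 ≤ ((2 * (N : ℝ) + 1) - (F + 1 / 2) * p) ^ 2 / p := by (clear * - hp1; positivity)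
      linarith only [e2, e3]
    linarith only [key]
  have h4 : g 0 ≤ 25 / 4 * ((2 * (N : ℝ) + 1) / p + 1) ^ 2 := by
    have hP := (Cnt_Pc_bounds N p hp0 0).2
    have h5 : (Pc N p 0 : ℝ) ≤ (2 * (N : ℝ) + 1) / p + 1 := by
      have : (Pc N p 0 : ℝ) ≤ ((2 * N / p + 1 : ℕ) : ℝ) := by exact_mod_cast hP
      push_cast at this
      linarith only [this, hFV]
    simp only [hg]
    have h6 : (0 : ℝ) ≤ (Pc N p 0 : ℝ) := by positivity
    gcongr
  rw [h2] at h1
  linarith only [h1, h3, h4]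

/-- the members of `siteSet`. -/
theorem F5Cnt_site {N q y m : ℕ} (hN : N < 2 * q + 1) (hy : y ≤ q)
    (hm : m ∈ siteSet N (2 * q + 1) y) : m < N ∧ (m + y = q ∨ m = y + q) := by
  unfold siteSet at hm
  rw [mem_filter, mem_range] at hm
  obtain ⟨hmN, hd⟩ := hm
  refine ⟨hmN, ?_⟩
  rcases hd with ⟨k, hk⟩ | ⟨k, hk⟩
  · right
    push_cast at hk
    have h1 : -1 < k := by
      by_contra hc
      push Not at hc
      have : (2 * (q : ℤ) + 1) * k ≤ (2 * (q : ℤ) + 1) * (-1) :=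
        mul_le_mul_of_nonneg_left hc (by positivity)
      (clear * - hy hk this; omega)
    have h2 : k < 2 := by
      by_contra hc
      push Not at hc
      have : (2 * (q : ℤ) + 1) * 2 ≤ (2 * (q : ℤ) + 1) * k :=
        mul_le_mul_of_nonneg_left hc (by positivity)
      (clear * - hN hmN hk this; omega)
    have h3 : k = 0 ∨ k = 1 := by omega
    rcases h3 with rfl | rfl
    · (clear * - hk; omega)
    · (clear * - hk; omega)
  · left
    push_cast at hk
    have h1 : 0 < k := by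
      by_contra hc
      push Not at hc
      have : (2 * (q : ℤ) + 1) * k ≤ (2 * (q : ℤ) + 1) * 0 :=
        mul_le_mul_of_nonneg_left hc (by positivity)
      (clear * - hk this; omega)
    have h2 : k < 3 := by
      by_contra hc
      push Not at hc
      have : (2 * (q : ℤ) + 1) * 3 ≤ (2 * (q : ℤ) + 1) * k :=
        mul_le_mul_of_nonneg_left hc (by positivity)
      omega
    have h3 : k = 1 ∨ k = 2 := by omega
    rcases h3 with rfl | rfl
    · (clear * - hk; omega)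
    · (clear * - hk; omega)

/-- the members of the residue class. -/
theorem F5Cnt_pole {N q y : ℕ} (hN : N < 2 * q + 1) (hy : y ≤ q) {j : ℤ}
    (hj : j ∈ (Icc (-(N : ℤ)) N).filter fun j => ((2 * q + 1 : ℕ) : ℤ) ∣ (y : ℤ) - j) :
    (j = y ∧ y ≤ N) ∨ (j = (y : ℤ) - (2 * q + 1) ∧ 2 * q + 1 ≤ y + N) := by
  rw [mem_filter, mem_Icc] at hj
  obtain ⟨⟨hj1, hj2⟩, k, hk⟩ := hj
  push_cast at hk
  have h1 : -1 < k := by
    by_contra hc
    push Not at hc
    have : (2 * (q : ℤ) + 1) * k ≤ (2 * (q : ℤ) + 1) * (-1) :=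
      mul_le_mul_of_nonneg_left hc (by positivity)
    omega
  have h2 : k < 2 := by
    by_contra hc
    push Not at hc
    have : (2 * (q : ℤ) + 1) * 2 ≤ (2 * (q : ℤ) + 1) * k :=
      mul_le_mul_of_nonneg_left hc (by positivity)
    omega
  have h3 : k = 0 ∨ k = 1 := by omega
  rcases h3 with rfl | rfl
  · left
    omega
  · right
    omega

theorem F5Cnt_Pc_le_one {N q y : ℕ} (hN : N < 2 * q + 1) (hy : y ≤ q)
    (h : y + N < 2 * q + 1) : Pc N (2 * q + 1) y ≤ 1 := by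
  unfold Pc
  rw [Finset.card_le_one]
  intro a ha b hb
  have h1 := F5Cnt_pole hN hy ha
  have h2 := F5Cnt_pole hN hy hb
  omega

theorem F5Cnt_Pc_pos {N q y : ℕ} (hN : N < 2 * q + 1) (hy : y ≤ q)
    (h : 1 ≤ Pc N (2 * q + 1) y) : y ≤ N ∨ 2 * q + 1 ≤ y + N := by
  unfold Pc at h
  obtain ⟨j, hj⟩ := Finset.card_pos.1 h
  have h1 := F5Cnt_pole hN hy hj
  omega

/-- contribution of a class with one pole. -/
theorem F5Cnt_one_pole {N p y K : ℕ} (hp : Odd p) (h : Pc N p y ≤ 1) (c : ℕ)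
    (hc : (siteSet N p y).card ≤ c) :
    ∑ n ∈ range K, (lev5 N p y n - 0) ≤ ∑ n ∈ range c, (5 - 2 * n) := by
  have e1 : ∀ n ∈ range K, lev5 N p y n - 0 ≤ if n < c then 5 - 2 * n else 0 := by
    intro n _
    unfold lev5
    rw [F5Cnt_Pd_eq hp, if_neg (by omega)]
    split_ifs <;> omega
  refine (Finset.sum_le_sum e1).trans ?_
  rw [← Finset.sum_filter]
  apply Finset.sum_le_sum_of_subset
  intro n hn
  simp only [mem_filter, mem_range] at hn ⊢
  exact hn.2

theorem F5Cnt_no_pole {N p y K : ℕ} (hp : Odd p) (h : Pc N p y = 0) :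
    ∑ n ∈ range K, (lev5 N p y n - 0) = 0 := by
  apply Finset.sum_eq_zero
  intro n _
  unfold lev5
  rw [F5Cnt_Pd_eq hp, if_neg (by omega), if_neg (by omega), Nat.sub_zero]

/-- the case `N < p ≤ 2N`, with `lam = 0`. -/
theorem count_mid5 {N K p : ℕ} (hp : Odd p) (hpN : N < p) (hpN' : p ≤ 2 * N) :
    (levSum N K p 0 : ℝ) ≤ 30 * ((N : ℝ) - (p - 1) / 2) + 5 * ((p : ℝ) - N) +
      3 * min ((p : ℝ) - N) ((N : ℝ) - (p - 1) / 2) := by
  have hodd := hp
  obtain ⟨q, rfl⟩ := hp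
  have hq : (2 * q + 1 + 1) / 2 = q + 1 := by omega
  have hF : 2 * N / (2 * q + 1) = 1 := by
    apply Nat.div_eq_of_lt_le
    · omega
    · omega
  set M := min (2 * q + 1 - N) (N - q) with hM
  -- pointwise bound
  have h1 : levSum N K (2 * q + 1) 0 ≤ ∑ y ∈ range (q + 1),
      ((if 2 * q + 1 ≤ y + N then 30 else 0) + (if y < 2 * q + 1 - N then 5 else 0)
        + (if y < M then 3 else 0)) := by
    unfold levSum
    rw [hq]
    apply Finset.sum_le_sum
    intro y hy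
    rw [mem_range] at hy
    have hyq : y ≤ q := by omega
    have hP := Cnt_Pc_bounds N (2 * q + 1) (by omega) y
    rw [hF] at hP
    have hsite : siteSet N (2 * q + 1) y ⊆ {q - y, y + q} := by
      intro m hm
      have := F5Cnt_site hpN hyq hm
      simp only [mem_insert, mem_singleton]
      (clear * - hq hy this; omega)
    have hcard2 : (siteSet N (2 * q + 1) y).card ≤ 2 :=
      (Finset.card_le_card hsite).trans Finset.card_le_two
    by_cases hy1 : 2 * q + 1 ≤ y + N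
    · -- at most two poles
      rw [if_pos hy1]
      have h30 : ∑ n ∈ range K, (lev5 N (2 * q + 1) y n - 0) ≤ 30 := by
        have e1 : ∀ n ∈ range K, lev5 N (2 * q + 1) y n - 0 ≤ if n < 5 then 10 - 2 * n else 0 := by
          intro n _
          unfold lev5
          rw [F5Cnt_Pd_eq hodd]
          split_ifs <;> omega
        refine (Finset.sum_le_sum e1).trans ?_
        rw [← Finset.sum_filter]
        have : ∑ n ∈ range 5, (10 - 2 * n) = 30 := by decide
        rw [← this]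
        apply Finset.sum_le_sum_of_subset
        intro n hn
        simp only [mem_filter, mem_range] at hn ⊢
        exact hn.2
      omega
    · rw [if_neg hy1, if_pos (by omega)]
      have hP1 : Pc N (2 * q + 1) y ≤ 1 := F5Cnt_Pc_le_one hpN hyq (by omega)
      by_cases hy2 : y < M
      · rw [if_pos hy2]
        refine (F5Cnt_one_pole hodd hP1 2 hcard2).trans ?_
        decide
      · rw [if_neg hy2]
        have hc1 : (siteSet N (2 * q + 1) y).card ≤ 1 := by
          rw [Finset.card_le_one]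
          intro a ha b hb
          have h1 := F5Cnt_site hpN hyq ha
          have h2 := F5Cnt_site hpN hyq hb
          (clear * - hpN hpN' hq hy1 hy2 h1 h2; omega)
        refine (F5Cnt_one_pole hodd hP1 1 hc1).trans ?_
        decide
  have h2 : ∑ y ∈ range (q + 1),
      ((if 2 * q + 1 ≤ y + N then 30 else 0) + (if y < 2 * q + 1 - N then 5 else 0)
        + (if y < M then 3 else 0)) ≤ 30 * (N - q) + 5 * (2 * q + 1 - N) + 3 * M := by
    rw [Finset.sum_add_distrib, Finset.sum_add_distrib, ← Finset.sum_filter, ← Finset.sum_filter,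
      ← Finset.sum_filter, Finset.sum_const, Finset.sum_const, Finset.sum_const, smul_eq_mul,
      smul_eq_mul, smul_eq_mul]
    have c1 : ((range (q + 1)).filter fun y => 2 * q + 1 ≤ y + N).card ≤ N - q := by
      have : ((range (q + 1)).filter fun y => 2 * q + 1 ≤ y + N) ⊆ Ico (2 * q + 1 - N) (q + 1) := by
        intro y hy
        simp only [mem_filter, mem_range, mem_Ico] at hy ⊢
        omega
      refine (Finset.card_le_card this).trans ?_
      rw [Nat.card_Ico]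
      (clear * - hpN hpN' hq; omega)
    have c2 : ((range (q + 1)).filter fun y => y < 2 * q + 1 - N).card ≤ 2 * q + 1 - N := by
      have : ((range (q + 1)).filter fun y => y < 2 * q + 1 - N) ⊆ range (2 * q + 1 - N) := by
        intro y hy
        simp only [mem_filter, mem_range] at hy ⊢
        omega
      refine (Finset.card_le_card this).trans ?_
      rw [card_range]
    have c3 : ((range (q + 1)).filter fun y => y < M).card ≤ M := by
      have : ((range (q + 1)).filter fun y => y < M) ⊆ range M := by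
        intro y hy
        simp only [mem_filter, mem_range] at hy ⊢
        omega
      refine (Finset.card_le_card this).trans ?_
      rw [card_range]
    (clear * - c1 c2 c3; omega)
  have h3 : (levSum N K (2 * q + 1) 0 : ℝ) ≤
      ((30 * (N - q) + 5 * (2 * q + 1 - N) + 3 * M : ℕ) : ℝ) := by
    exact_mod_cast h1.trans h2
  refine h3.trans ?_
  have hqN : q ≤ N := by omega
  have hM1 : (M : ℝ) = min (((2 * q + 1 : ℕ) : ℝ) - N) ((N : ℝ) - (((2 * q + 1 : ℕ) : ℝ) - 1) / 2) := by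
    rw [hM, Nat.cast_min, Nat.cast_sub hpN.le, Nat.cast_sub hqN]
    congr 1
    push_cast
    ring
  rw [← hM1]
  push_cast [Nat.cast_sub hpN.le, Nat.cast_sub hqN]
  apply le_of_eq
  ring

/-- upper bound for `p > 2N`. -/
theorem F5Cnt_big {N K q y : ℕ} (hpN : 2 * N < 2 * q + 1) (hy : y ≤ q) :
    ∑ n ∈ range K, (lev5 N (2 * q + 1) y n - 0) ≤ if q < y + N ∧ y ≤ N then 5 else 0 := by
  have hodd : Odd (2 * q + 1) := ⟨q, rfl⟩
  have hN : N < 2 * q + 1 := by omega
  have hP1 : Pc N (2 * q + 1) y ≤ 1 := F5Cnt_Pc_le_one hN hy (by omega)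
  have hc1 : (siteSet N (2 * q + 1) y).card ≤ 1 := by
    rw [Finset.card_le_one]
    intro a ha b hb
    have h1 := F5Cnt_site hN hy ha
    have h2 := F5Cnt_site hN hy hb
    omega
  split_ifs with h
  · refine (F5Cnt_one_pole hodd hP1 1 hc1).trans ?_
    decide
  · rw [Nat.le_zero]
    by_cases h0 : Pc N (2 * q + 1) y = 0
    · exact F5Cnt_no_pole hodd h0
    · have h2 := F5Cnt_Pc_pos hN hy (by omega)
      have h3 : siteSet N (2 * q + 1) y = ∅ := by
        rw [Finset.eq_empty_iff_forall_notMem]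
        intro m hm
        have h1 := F5Cnt_site hN hy hm
        omega
      have h4 := F5Cnt_one_pole (K := K) hodd hP1 0 (by rw [h3]; simp)
      simpa using h4

/-- the case `2N < p ≤ 4N`. -/
theorem count_large5 {N K p : ℕ} (hp : Odd p) (hpN : 2 * N < p) (hpN' : p ≤ 4 * N) :
    (levSum N K p 0 : ℝ) ≤ 5 * (2 * (N : ℝ) - (p - 1) / 2) := by
  obtain ⟨q, rfl⟩ := hp
  have hq : (2 * q + 1 + 1) / 2 = q + 1 := by omega
  have h1 : levSum N K (2 * q + 1) 0 ≤ 5 * (2 * N - q) := by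
    unfold levSum
    rw [hq]
    refine (Finset.sum_le_sum (fun y hy => F5Cnt_big hpN (by rw [mem_range] at hy; omega))).trans ?_
    rw [← Finset.sum_filter, Finset.sum_const, smul_eq_mul, mul_comm]
    have : ((range (q + 1)).filter fun y => q < y + N ∧ y ≤ N) ⊆ Ioc (q - N) N := by
      intro y hy
      simp only [mem_filter, mem_range, mem_Ioc] at hy ⊢
      omega
    have h2 := Finset.card_le_card this
    rw [Nat.card_Ioc] at h2
    omega
  have h2 : (levSum N K (2 * q + 1) 0 : ℝ) ≤ ((5 * (2 * N - q) : ℕ) : ℝ) := by exact_mod_cast h1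
  refine h2.trans ?_
  push_cast [Nat.cast_sub (show q ≤ 2 * N by omega)]
  apply le_of_eq
  ring

/-- the case `p > 4N`. -/
theorem count_huge5 {N K p : ℕ} (hp : Odd p) (hpN : 4 * N < p) : levSum N K p 0 = 0 := by
  obtain ⟨q, rfl⟩ := hp
  have hq : (2 * q + 1 + 1) / 2 = q + 1 := by omega
  unfold levSum
  rw [hq]
  apply Finset.sum_eq_zero
  intro y hy
  rw [mem_range] at hy
  have h := F5Cnt_big (K := K) (show 2 * N < 2 * q + 1 by omega) (show y ≤ q by omega)
  rw [if_neg (by omega)] at h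
  omega

end Vale.Agent.P030.Five
end
end

section

section

namespace Vale.Agent.P030

end Vale.Agent.P030
end
end

section

section

/-! Sums over primes: general tools (Abel summation against the prime number theorem) and
the main pieces. -/

namespace Vale.Agent.P030

open Finset Filter Asymptotics
open scoped Topology

/-- `log n` on primes. -/
noncomputable def PS_lam (n : ℕ) : ℝ := if n.Prime then Real.log n else 0

lemma PS_lam_nonneg (n : ℕ) : 0 ≤ PS_lam n := by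
  unfold PS_lam
  split_ifs
  · exact Real.log_natCast_nonneg n
  · exact le_rfl

lemma PS_sum_lam (m : ℕ) : ∑ n ∈ Ioc 0 m, PS_lam n = Chebyshev.theta m := by
  unfold PS_lam Chebyshev.theta
  rw [Finset.sum_filter, Nat.floor_natCast]

lemma PS_sum_Ioc {f : ℕ → ℝ} {a b c : ℕ} (hab : a ≤ b) (hbc : b ≤ c) :
    ∑ n ∈ Ioc a c, f n = ∑ n ∈ Ioc a b, f n + ∑ n ∈ Ioc b c, f n := by
  rw [← Finset.sum_union]
  · rw [Finset.Ioc_union_Ioc_eq_Ioc hab hbc]
  · rw [Finset.disjoint_left]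
    intro x hx hx'
    rw [Finset.mem_Ioc] at hx hx'
    omega

/-- Uniform form of the prime number theorem on `[0, 20M]`. -/
lemma PS_pnt {ε : ℝ} (hε : 0 < ε) : ∀ᶠ M : ℕ in atTop, ∀ m ≤ 20 * M,
    |Chebyshev.theta m - m| ≤ ε * M := by
  have h1 := Vale.Agent.PNT.theta_div_tendsto
  rw [Metric.tendsto_atTop] at h1
  obtain ⟨X, hX⟩ := h1 (ε / 20) (by positivity)
  have h2 : Tendsto (fun M : ℕ => ε * (M : ℝ)) atTop atTop :=
    tendsto_natCast_atTop_atTop.const_mul_atTop hε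
  filter_upwards [h2.eventually_ge_atTop ((Real.log 4 + 1) * max X 1)] with M hM m hm
  have hl4 : 0 < Real.log 4 := Real.log_pos (by norm_num)
  rcases le_or_gt (max X 1) (m : ℝ) with h3 | h3
  · have h4 := hX m ((le_max_left _ _).trans h3)
    have hm0 : (0 : ℝ) < m := lt_of_lt_of_le one_pos ((le_max_right _ _).trans h3)
    rw [Real.dist_eq] at h4
    have h5 : Chebyshev.theta m - m = (Chebyshev.theta m / m - 1) * m := by
      field_simp
    rw [h5, abs_mul, abs_of_pos hm0]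
    have hm' : (m : ℝ) ≤ 20 * M := by exact_mod_cast hm
    calc |Chebyshev.theta m / m - 1| * m ≤ ε / 20 * (20 * M) :=
          mul_le_mul h4.le hm' hm0.le (by positivity)
      _ = ε * M := by ring
  · have h5 := Chebyshev.theta_le_log4_mul_x (x := (m : ℝ)) (by positivity)
    have h6 := Chebyshev.theta_nonneg (m : ℝ)
    have hm0 : (0 : ℝ) ≤ m := by positivity
    rw [abs_le]
    constructor
    · linarith [mul_nonneg (sub_nonneg.2 h5) (le_of_lt (sub_pos.2 hl4)), mul_pos (sub_pos.2 h3) (sub_pos.2 hl4), h6, h3, hM]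
    · linarith only [mul_pos (sub_pos.2 h3) (sub_pos.2 hl4), h5, h3, hM]

/-- Abel's inequality. -/
lemma PS_abel {f c : ℕ → ℝ} {A B : ℕ} {δ : ℝ} (hAB : A < B)
    (hf : ∀ n, A < n → n < B → f (n + 1) ≤ f n) (h0 : 0 ≤ f B)
    (hc : ∀ m, A < m → m ≤ B → |∑ n ∈ Ioc A m, c n| ≤ δ) :
    |∑ n ∈ Ioc A B, f n * c n| ≤ δ * f (A + 1) := by
  have key : ∀ m, A < m → m ≤ B →
      |∑ n ∈ Ioc A m, f n * c n - f m * ∑ n ∈ Ioc A m, c n| ≤ δ * (f (A + 1) - f m) := by
    intro m hm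
    induction m, (show A + 1 ≤ m from hm) using Nat.le_induction with
    | base =>
      intro _
      have : Ioc A (A + 1) = {A + 1} := by
        ext x; rw [Finset.mem_Ioc, Finset.mem_singleton]; omega
      rw [this]
      simp
    | succ m hm1 ih =>
      intro hm2
      have ih' := ih hm1 (by omega)
      have e1 : ∀ g : ℕ → ℝ, ∑ n ∈ Ioc A (m + 1), g n = ∑ n ∈ Ioc A m, g n + g (m + 1) := by
        intro g
        rw [Finset.sum_Ioc_succ_top (by omega)]
      rw [e1, e1]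
      have h1 := hc m (by omega) (by omega)
      have h2 := hf m (by omega) (by omega)
      have h3 : ∑ n ∈ Ioc A m, f n * c n + f (m + 1) * c (m + 1) -
          f (m + 1) * (∑ n ∈ Ioc A m, c n + c (m + 1)) =
          (∑ n ∈ Ioc A m, f n * c n - f m * ∑ n ∈ Ioc A m, c n) +
            (f m - f (m + 1)) * ∑ n ∈ Ioc A m, c n := by ring
      rw [h3]
      refine (abs_add_le _ _).trans ?_
      rw [abs_mul, abs_of_nonneg (by linarith only [h2] : 0 ≤ f m - f (m + 1))]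
      have h4 : (f m - f (m + 1)) * |∑ n ∈ Ioc A m, c n| ≤ (f m - f (m + 1)) * δ :=
        mul_le_mul_of_nonneg_left h1 (by linarith only [h2])
      linarith only [ih', h4]
  have h1 := key B hAB le_rfl
  have h2 := hc B hAB le_rfl
  have h3 : ∑ n ∈ Ioc A B, f n * c n =
      (∑ n ∈ Ioc A B, f n * c n - f B * ∑ n ∈ Ioc A B, c n) + f B * ∑ n ∈ Ioc A B, c n := by ring
  rw [h3]
  refine (abs_add_le _ _).trans ?_
  rw [abs_mul, abs_of_nonneg h0]
  have h4 : f B * |∑ n ∈ Ioc A B, c n| ≤ f B * δ := mul_le_mul_of_nonneg_left h2 h0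
  linarith only [h1, h4]

/-- The weight `f M` can be summed over integers instead of primes, up to `o(M²)`. -/
def PS_Neg (A B : ℕ → ℕ) (f : ℕ → ℕ → ℝ) : Prop :=
  ∀ ε > 0, ∀ᶠ M : ℕ in atTop,
    |∑ n ∈ Ioc (A M) (B M), f M n * (PS_lam n - 1)| ≤ ε * (M : ℝ) ^ 2

lemma PS_Neg.add {A B : ℕ → ℕ} {f g : ℕ → ℕ → ℝ} (hf : PS_Neg A B f) (hg : PS_Neg A B g) :
    PS_Neg A B (fun M n => f M n + g M n) := by
  intro ε hε
  filter_upwards [hf (ε / 2) (by positivity), hg (ε / 2) (by positivity)] with M h1 h2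
  have : ∑ n ∈ Ioc (A M) (B M), (f M n + g M n) * (PS_lam n - 1) =
      ∑ n ∈ Ioc (A M) (B M), f M n * (PS_lam n - 1) +
        ∑ n ∈ Ioc (A M) (B M), g M n * (PS_lam n - 1) := by
    rw [← Finset.sum_add_distrib]
    exact Finset.sum_congr rfl fun n _ => by ring
  rw [this]
  refine (abs_add_le _ _).trans ?_
  linarith only [h2, h1]

lemma PS_Neg.neg {A B : ℕ → ℕ} {f : ℕ → ℕ → ℝ} (hf : PS_Neg A B f) :
    PS_Neg A B (fun M n => -f M n) := by
  intro ε hε
  filter_upwards [hf ε hε] with M h1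
  have : ∑ n ∈ Ioc (A M) (B M), (-f M n) * (PS_lam n - 1) =
      -∑ n ∈ Ioc (A M) (B M), f M n * (PS_lam n - 1) := by
    rw [← Finset.sum_neg_distrib]
    exact Finset.sum_congr rfl fun n _ => by ring
  rw [this, abs_neg]
  exact h1

lemma PS_Neg.sub {A B : ℕ → ℕ} {f g : ℕ → ℕ → ℝ} (hf : PS_Neg A B f) (hg : PS_Neg A B g) :
    PS_Neg A B (fun M n => f M n - g M n) := by
  have := hf.add hg.neg
  intro ε hε
  filter_upwards [this ε hε] with M h1
  simpa [sub_eq_add_neg] using h1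

lemma PS_Neg.congr {A B : ℕ → ℕ} {f g : ℕ → ℕ → ℝ} (hf : PS_Neg A B f)
    (h : ∀ᶠ M : ℕ in atTop, ∀ n ∈ Ioc (A M) (B M), f M n = g M n) : PS_Neg A B g := by
  intro ε hε
  filter_upwards [hf ε hε, h] with M h1 h2
  have h3 : ∑ n ∈ Ioc (A M) (B M), g M n * (PS_lam n - 1) =
      ∑ n ∈ Ioc (A M) (B M), f M n * (PS_lam n - 1) :=
    Finset.sum_congr rfl fun n hn => by rw [h2 n hn]
  rw [h3]
  exact h1

/-- Antitone nonnegative weights of size `O(M)`. -/
lemma PS_neg_of_antitone {A B : ℕ → ℕ} {f : ℕ → ℕ → ℝ} {C : ℝ}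
    (hB : ∀ᶠ M : ℕ in atTop, A M < B M ∧ B M ≤ 20 * M)
    (hf : ∀ᶠ M : ℕ in atTop, (∀ n, A M < n → n < B M → f M (n + 1) ≤ f M n) ∧
      0 ≤ f M (B M) ∧ f M (A M + 1) ≤ C * M) : PS_Neg A B f := by
  intro ε hε
  have hC : 0 < |C| + 1 := by positivity
  filter_upwards [hB, hf, PS_pnt (ε := ε / (2 * (|C| + 1))) (by positivity)] with M hAB h hM
  obtain ⟨h1, h2, h3⟩ := h
  have h4 : ∀ m, A M < m → m ≤ B M →
      |∑ n ∈ Ioc (A M) m, (PS_lam n - 1)| ≤ 2 * (ε / (2 * (|C| + 1)) * M) := by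
    intro m hm1 hm2
    have e1 : ∑ n ∈ Ioc (A M) m, (PS_lam n - 1) =
        (Chebyshev.theta m - m) - (Chebyshev.theta (A M) - (A M : ℝ)) := by
      rw [← PS_sum_lam, ← PS_sum_lam, PS_sum_Ioc (f := PS_lam) (Nat.zero_le (A M)) hm1.le,
        Finset.sum_sub_distrib, Finset.sum_const, Nat.card_Ioc, nsmul_eq_mul, mul_one,
        Nat.cast_sub hm1.le]
      ring
    rw [e1]
    have h5 := hM m (by omega)
    have h6 := hM (A M) (by omega)
    refine (abs_sub _ _).trans ?_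
    linarith only [h5, h6]
  have h7 := PS_abel hAB.1 h1 h2 h4
  have h8 : 0 ≤ f M (A M + 1) := by
    have : ∀ m, A M + 1 ≤ m → m ≤ B M → f M m ≤ f M (A M + 1) := by
      intro m hm
      induction m, hm using Nat.le_induction with
      | base => intro _; exact le_rfl
      | succ m hm ih =>
        intro hm2
        exact (h1 m (by omega) (by omega)).trans (ih (by omega))
    exact h2.trans (this (B M) hAB.1 le_rfl)
  refine h7.trans ?_
  have hM0 : (0 : ℝ) ≤ M := by positivity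
  have h9 : f M (A M + 1) ≤ (|C| + 1) * M := by
    refine h3.trans ?_
    exact mul_le_mul_of_nonneg_right ((le_abs_self C).trans (by linarith only [])) hM0
  calc 2 * (ε / (2 * (|C| + 1)) * M) * f M (A M + 1)
      ≤ 2 * (ε / (2 * (|C| + 1)) * M) * ((|C| + 1) * M) := by
        refine mul_le_mul_of_nonneg_left h9 (by (clear * - hε; positivity))
    _ = ε * (M : ℝ) ^ 2 := by
        field_simp

/-! ### Deterministic sums -/

lemma PS_sum_id {a b : ℕ} (hab : a ≤ b) :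
    ∑ n ∈ Ioc a b, (n : ℝ) = ((b : ℝ) * (b + 1) - a * (a + 1)) / 2 := by
  induction b, hab using Nat.le_induction with
  | base => simp
  | succ b hb ih =>
    rw [Finset.sum_Ioc_succ_top (by omega), ih]
    push_cast
    ring

lemma PS_sum_const {a b : ℕ} (hab : a ≤ b) (c : ℝ) :
    ∑ _n ∈ Ioc a b, c = ((b : ℝ) - a) * c := by
  rw [Finset.sum_const, Nat.card_Ioc, nsmul_eq_mul, Nat.cast_sub hab]

lemma PS_sum_inv {a b : ℕ} (ha : 0 < a) (hab : a ≤ b) :
    ∑ n ∈ Ioc a b, (1 : ℝ) / n ≤ Real.log b - Real.log a := by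
  induction b, hab using Nat.le_induction with
  | base => simp
  | succ b hb ih =>
    rw [Finset.sum_Ioc_succ_top (by omega)]
    have hb0 : (0 : ℝ) < b := by exact_mod_cast (lt_of_lt_of_le ha hb)
    have h1 := Real.one_sub_inv_le_log_of_pos (x := ((b : ℝ) + 1) / b) (by positivity)
    rw [Real.log_div (by positivity) (by positivity)] at h1
    have h2 : 1 - (((b : ℝ) + 1) / b)⁻¹ = 1 / ((b + 1 : ℕ) : ℝ) := by
      push_cast
      field_simp
      ring
    rw [h2] at h1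
    push_cast at h1 ⊢
    linarith only [h1, ih]

lemma PS_sum_inv_sq {a b : ℕ} (ha : 0 < a) (hab : a ≤ b) :
    ∑ n ∈ Ioc a b, (1 : ℝ) / (n : ℝ) ^ 2 ≤ 1 / a - 1 / b := by
  induction b, hab using Nat.le_induction with
  | base => simp
  | succ b hb ih =>
    rw [Finset.sum_Ioc_succ_top (by omega)]
    have hb0 : (0 : ℝ) < b := by exact_mod_cast (lt_of_lt_of_le ha hb)
    have h2 : 1 / ((b + 1 : ℕ) : ℝ) ^ 2 ≤ 1 / (b : ℝ) - 1 / ((b + 1 : ℕ) : ℝ) := by
      push_cast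
      rw [div_sub_div _ _ hb0.ne' (by positivity), div_le_div_iff₀ (by positivity) (by positivity)]
      linarith only [hb0]
    linarith only [ih, h2]

lemma PS_small {ε : ℝ} (hε : 0 < ε) (C : ℝ) : ∀ᶠ M : ℕ in atTop, C * M ≤ ε * (M : ℝ) ^ 2 := by
  have h2 : Tendsto (fun M : ℕ => ε * (M : ℝ)) atTop atTop :=
    tendsto_natCast_atTop_atTop.const_mul_atTop hε
  filter_upwards [h2.eventually_ge_atTop C] with M hM
  have : (0 : ℝ) ≤ M := by positivity
  nlinarith only [hM]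

/-- from a deterministic bound to the sum over primes. -/
lemma PS_combine {A B : ℕ → ℕ} {f : ℕ → ℕ → ℝ} {L C : ℝ} (hf : PS_Neg A B f)
    (hd : ∀ᶠ M : ℕ in atTop, ∑ n ∈ Ioc (A M) (B M), f M n ≤ L * (M : ℝ) ^ 2 + C * M) :
    ∀ ε > 0, ∀ᶠ M : ℕ in atTop,
      ∑ n ∈ Ioc (A M) (B M), f M n * PS_lam n ≤ (L + ε) * (M : ℝ) ^ 2 := by
  intro ε hε
  filter_upwards [hf (ε / 2) (by positivity), hd, PS_small (ε := ε / 2) (by positivity) C] with
    M h1 h2 h3
  have h4 : ∑ n ∈ Ioc (A M) (B M), f M n * PS_lam n =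
      ∑ n ∈ Ioc (A M) (B M), f M n * (PS_lam n - 1) + ∑ n ∈ Ioc (A M) (B M), f M n := by
    rw [← Finset.sum_add_distrib]
    exact Finset.sum_congr rfl fun n _ => by ring
  rw [h4]
  have h5 := (le_abs_self _).trans h1
  linarith only [h5, h3, h2]

/-! ### The pieces -/

end Vale.Agent.P030
end
end
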