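import Mathlib
import Vale.Agent.P030.Bdl.B1

set_option linter.all false

section

section

/-! Sums over primes: the estimate `prime_sum_le5`. -/

namespace Vale.Agent.P030.Five

open Finset Filter Asymptotics Vale.Agent.P030
open scoped Topology

lemma F5PS_sqrt_ge (R : ℝ) : ∀ᶠ M : ℕ in atTop, R ≤ (Nat.sqrt (10 * M) : ℝ) := by
  obtain ⟨k, hk⟩ := exists_nat_ge R
  filter_upwards [eventually_ge_atTop (k * k)] with M hM
  refine hk.trans ?_
  exact_mod_cast Nat.le_sqrt.2 (by omega)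

lemma F5PS_sqrt_le : ∀ᶠ M : ℕ in atTop, Nat.sqrt (10 * M) < M / 32 := by
  filter_upwards [eventually_ge_atTop 20000] with M hM
  rw [Nat.sqrt_lt]
  have h : M < 32 * (M / 32) + 32 := by omega
  nlinarith only [hM, h]

/-- piece `(√(2K), N]`, the regular part. -/
lemma F5PS_pieceA : ∀ ε > 0, ∀ᶠ M : ℕ in atTop,
    ∑ n ∈ Ioc (Nat.sqrt (10 * M)) (2 * M),
      (29 / 32 * (n : ℝ) + 16 * ((2 * M : ℕ) : ℝ) / n +
        50 * ((2 * M : ℕ) : ℝ) ^ 2 / (n : ℝ) ^ 2) * PS_lam n ≤
      (1.8125 + ε) * (M : ℝ) ^ 2 := by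
  have hAB : ∀ᶠ M : ℕ in atTop, Nat.sqrt (10 * M) < 2 * M ∧ 2 * M ≤ 20 * M := by
    filter_upwards [eventually_gt_atTop 10, F5PS_sqrt_le] with M hM h
    exact ⟨by omega, by omega⟩
  have hlin : PS_Neg (fun M => Nat.sqrt (10 * M)) (fun M => 2 * M)
      (fun M n => 29 / 32 * (((2 * M : ℕ) : ℝ) - n)) := by
    refine PS_neg_of_antitone (C := 20) hAB ?_
    filter_upwards [eventually_gt_atTop 10] with M hM
    have hM' : (10 : ℝ) < M := by exact_mod_cast hM
    refine ⟨fun n _ _ => ?_, ?_, ?_⟩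
    · push_cast; linarith only []
    · push_cast
      linarith only []
    · have : (0 : ℝ) ≤ ((Nat.sqrt (10 * M) + 1 : ℕ) : ℝ) := by positivity
      push_cast at this ⊢
      linarith only [hM']
  have hc : PS_Neg (fun M => Nat.sqrt (10 * M)) (fun M => 2 * M)
      (fun M _ => 29 / 32 * (((2 * M : ℕ) : ℝ))) := by
    refine PS_neg_of_antitone (C := 20) hAB ?_
    filter_upwards [eventually_gt_atTop 10] with M hM
    have hM' : (10 : ℝ) < M := by exact_mod_cast hM
    refine ⟨fun n _ _ => le_rfl, by positivity, ?_⟩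
    push_cast
    linarith only [hM']
  have hinv : PS_Neg (fun M => Nat.sqrt (10 * M)) (fun M => 2 * M)
      (fun M n => 16 * ((2 * M : ℕ) : ℝ) / n) := by
    refine PS_neg_of_antitone (C := 140) hAB ?_
    filter_upwards [eventually_gt_atTop 10] with M hM
    have hM' : (10 : ℝ) < M := by exact_mod_cast hM
    refine ⟨fun n hn _ => ?_, by positivity, ?_⟩
    · have hn0 : (0 : ℝ) < n := by exact_mod_cast (show 0 < n by omega)
      refine div_le_div_of_nonneg_left (by positivity) hn0 ?_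
      push_cast; linarith only []
    · rw [div_le_iff₀ (by positivity)]
      push_cast
      have : (0 : ℝ) ≤ (Nat.sqrt (10 * M) : ℝ) := by positivity
      nlinarith only [hM']
  have hinv2 : PS_Neg (fun M => Nat.sqrt (10 * M)) (fun M => 2 * M)
      (fun M n => 50 * ((2 * M : ℕ) : ℝ) ^ 2 / (n : ℝ) ^ 2) := by
    refine PS_neg_of_antitone (C := 20) hAB ?_
    filter_upwards [eventually_gt_atTop 10] with M hM
    have hM' : (10 : ℝ) < M := by exact_mod_cast hM
    refine ⟨fun n hn _ => ?_, by positivity, ?_⟩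
    · have hn0 : (0 : ℝ) < n := by exact_mod_cast (show 0 < n by omega)
      refine div_le_div_of_nonneg_left (by positivity) (by positivity) ?_
      push_cast
      linarith only [hn0]
    · rw [div_le_iff₀ (by positivity)]
      have h1 : 10 * M < (Nat.sqrt (10 * M) + 1) * (Nat.sqrt (10 * M) + 1) :=
        Nat.lt_succ_sqrt _
      have h2 : 10 * (M : ℝ) < (((Nat.sqrt (10 * M) + 1 : ℕ) : ℝ)) ^ 2 := by
        rw [pow_two]
        exact_mod_cast h1
      push_cast at h2 ⊢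
      nlinarith only [h2]
  have hall : PS_Neg (fun M => Nat.sqrt (10 * M)) (fun M => 2 * M)
      (fun M n => 29 / 32 * (n : ℝ) + 16 * ((2 * M : ℕ) : ℝ) / n +
        50 * ((2 * M : ℕ) : ℝ) ^ 2 / (n : ℝ) ^ 2) := by
    refine (((hc.sub hlin).add hinv).add hinv2).congr (Eventually.of_forall fun M n _ => ?_)
    ring
  -- deterministic part, for a large parameter `R`
  intro ε hε
  have hd : ∀ᶠ M : ℕ in atTop, ∑ n ∈ Ioc (Nat.sqrt (10 * M)) (2 * M),
      (29 / 32 * (n : ℝ) + 16 * ((2 * M : ℕ) : ℝ) / n +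
        50 * ((2 * M : ℕ) : ℝ) ^ 2 / (n : ℝ) ^ 2) ≤
      (1.8125 + ε / 2) * (M : ℝ) ^ 2 + 1000 * M := by
    filter_upwards [eventually_gt_atTop 10, F5PS_sqrt_ge (4000 / ε), F5PS_sqrt_ge 1,
      F5PS_sqrt_le] with M hM hR hR1 hsT
    have hM' : (10 : ℝ) < M := by exact_mod_cast hM
    set s := Nat.sqrt (10 * M) with hs
    have hs0 : 0 < s := by exact_mod_cast (lt_of_lt_of_le one_pos hR1)
    have hs0' : (0 : ℝ) < s := by exact_mod_cast hs0
    have e1 : ∀ n : ℕ, 29 / 32 * (n : ℝ) + 16 * ((2 * M : ℕ) : ℝ) / n +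
        50 * ((2 * M : ℕ) : ℝ) ^ 2 / (n : ℝ) ^ 2 =
        29 / 32 * (n : ℝ) + 16 * ((2 * M : ℕ) : ℝ) * (1 / n) +
          50 * ((2 * M : ℕ) : ℝ) ^ 2 * (1 / (n : ℝ) ^ 2) := fun n => by ring
    rw [Finset.sum_congr rfl fun n _ => e1 n, Finset.sum_add_distrib, Finset.sum_add_distrib,
      ← Finset.mul_sum, ← Finset.mul_sum,
      ← Finset.mul_sum, PS_sum_id (by omega)]
    have h1 : ∑ n ∈ Ioc s (2 * M), (1 : ℝ) / n ≤ (2 * M) / s := by
      have h2 : ∑ n ∈ Ioc s (2 * M), (1 : ℝ) / n ≤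
          ∑ n ∈ Ioc s (2 * M), (1 : ℝ) / s := by
        refine Finset.sum_le_sum fun n hn => ?_
        rw [Finset.mem_Ioc] at hn
        refine div_le_div_of_nonneg_left one_pos.le hs0' ?_
        exact_mod_cast hn.1.le
      rw [PS_sum_const (by omega)] at h2
      refine h2.trans ?_
      rw [mul_one_div]
      refine div_le_div_of_nonneg_right ?_ hs0'.le
      push_cast
      linarith only [hR1]
    have h2 := PS_sum_inv_sq (a := s) (b := 2 * M) hs0 (by omega)
    have h3 : (1 : ℝ) / s ≤ ε / 4000 := by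
      rw [div_le_div_iff₀ hs0' (by norm_num)]
      rw [div_le_iff₀ hε] at hR
      linarith only [hR]
    have h4 : (0 : ℝ) ≤ 1 / ((2 * M : ℕ) : ℝ) := by positivity
    have h5 : 16 * ((2 * M : ℕ) : ℝ) * ∑ n ∈ Ioc s (2 * M), (1 : ℝ) / n ≤
        16 * ((2 * M : ℕ) : ℝ) * ((2 * M) * (ε / 4000)) := by
      refine mul_le_mul_of_nonneg_left (h1.trans ?_) (by positivity)
      rw [div_eq_mul_one_div]
      exact mul_le_mul_of_nonneg_left h3 (by positivity)
    have h6 : 50 * ((2 * M : ℕ) : ℝ) ^ 2 * ∑ n ∈ Ioc s (2 * M), (1 : ℝ) / (n : ℝ) ^ 2 ≤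
        50 * ((2 * M : ℕ) : ℝ) ^ 2 * (ε / 4000) := by
      refine mul_le_mul_of_nonneg_left ?_ (by positivity)
      linarith only [h4, h3, h2]
    have h7 : 16 * ((2 * M : ℕ) : ℝ) * ((2 * M) * (ε / 4000)) ≤ (ε / 4) * (M : ℝ) ^ 2 := by
      push_cast
      linarith only [mul_pos hε (by positivity : (0 : ℝ) < (M : ℝ) ^ 2)]
    have h8 : 50 * ((2 * M : ℕ) : ℝ) ^ 2 * (ε / 4000) ≤ (ε / 4) * (M : ℝ) ^ 2 := by
      push_cast
      linarith only [mul_pos hε (by positivity : (0 : ℝ) < (M : ℝ) ^ 2)]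
    push_cast at h5 h6 h7 h8 ⊢
    nlinarith only [hM', hR1, h5, h6, h7]
  filter_upwards [PS_combine hall hd (ε / 2) (by positivity)] with M hM
  linarith only [hM]

/-- piece `(√(2K), M/32]`, the sawtooth part. -/
lemma F5PS_pieceB : ∀ ε > 0, ∀ᶠ M : ℕ in atTop,
    ∑ n ∈ Ioc (Nat.sqrt (10 * M)) (M / 32),
      (5 * ((5 * M : ℕ) : ℝ) * (2 * ((2 * M : ℕ) : ℝ) / n -
        ((2 * (2 * M) / n : ℕ) : ℝ))) * PS_lam n ≤
      (0.78125 + ε) * (M : ℝ) ^ 2 := by
  intro ε hε
  filter_upwards [eventually_gt_atTop 10, F5PS_sqrt_le, PS_pnt (ε := ε / 25) (by positivity)] with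
    M hM hsT hpnt
  have h1 : ∑ n ∈ Ioc (Nat.sqrt (10 * M)) (M / 32),
      (5 * ((5 * M : ℕ) : ℝ) * (2 * ((2 * M : ℕ) : ℝ) / n -
        ((2 * (2 * M) / n : ℕ) : ℝ))) * PS_lam n ≤
      ∑ n ∈ Ioc (Nat.sqrt (10 * M)) (M / 32), 5 * ((5 * M : ℕ) : ℝ) * PS_lam n := by
    refine Finset.sum_le_sum fun n hn => ?_
    rw [Finset.mem_Ioc] at hn
    refine mul_le_mul_of_nonneg_right ?_ (PS_lam_nonneg n)
    have hn0 : (0 : ℝ) < n := by exact_mod_cast (show 0 < n by omega)
    have h2 : 2 * ((2 * M : ℕ) : ℝ) / n ≤ ((2 * (2 * M) / n : ℕ) : ℝ) + 1 := by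
      rw [div_le_iff₀ hn0]
      have := Nat.lt_div_mul_add (a := 2 * (2 * M)) (b := n) (by omega)
      have h11 : ((2 * (2 * M) : ℕ) : ℝ) < ((2 * (2 * M) / n * n + n : ℕ) : ℝ) := by
        exact_mod_cast this
      push_cast at h11 ⊢
      linarith only [h11]
    have h3 : (0 : ℝ) ≤ 5 * ((5 * M : ℕ) : ℝ) := by positivity
    nlinarith only [h2]
  refine h1.trans ?_
  rw [← Finset.mul_sum]
  have h2 : ∑ n ∈ Ioc (Nat.sqrt (10 * M)) (M / 32), PS_lam n ≤
      Chebyshev.theta ((M / 32 : ℕ) : ℝ) := by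
    rw [← PS_sum_lam]
    refine Finset.sum_le_sum_of_subset_of_nonneg ?_ fun n _ _ => PS_lam_nonneg n
    exact Finset.Ioc_subset_Ioc_left (Nat.zero_le _)
  have h3 := (abs_le.1 (hpnt (M / 32) (by omega))).2
  have hTle : ((M / 32 : ℕ) : ℝ) ≤ M / 32 := by
    have := Nat.cast_div_le (α := ℝ) (m := M) (n := 32)
    exact_mod_cast this
  have h4 : ∑ n ∈ Ioc (Nat.sqrt (10 * M)) (M / 32), PS_lam n ≤ M / 32 + ε / 25 * M := by linarith only [h2, h3, hTle]
  calc 5 * ((5 * M : ℕ) : ℝ) * ∑ n ∈ Ioc (Nat.sqrt (10 * M)) (M / 32), PS_lam n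
      ≤ 5 * ((5 * M : ℕ) : ℝ) * (M / 32 + ε / 25 * M) :=
        mul_le_mul_of_nonneg_left h4 (by positivity)
    _ = (0.78125 + ε) * (M : ℝ) ^ 2 := by
        push_cast
        ring

/-- number of pairs. -/
lemma F5PS_floor_sum {N T : ℕ} (hTN : ∀ r ∈ Icc 3 127, T ≤ 2 * N / r) (hTN' : T ≤ N) :
    2 * ((N : ℝ) - T) + ∑ r ∈ Icc (3 : ℕ) 127, (2 * (N : ℝ) / (r : ℝ) - 1 - T) ≤
      ∑ n ∈ Ioc T N, ((2 * N / n : ℕ) : ℝ) := by
  have h1 : ∀ n ∈ Ioc T N, (((Icc 1 127).filter fun r => r * n ≤ 2 * N).card : ℝ) ≤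
      ((2 * N / n : ℕ) : ℝ) := by
    intro n hn
    rw [Finset.mem_Ioc] at hn
    have h2 : ((Icc 1 127).filter fun r => r * n ≤ 2 * N) ⊆ Icc 1 (2 * N / n) := by
      intro r hr
      rw [Finset.mem_filter, Finset.mem_Icc] at hr
      rw [Finset.mem_Icc]
      exact ⟨hr.1.1, (Nat.le_div_iff_mul_le (by omega)).2 hr.2⟩
    have h3 := Finset.card_le_card h2
    rw [Nat.card_Icc, Nat.add_sub_cancel] at h3
    exact_mod_cast h3
  refine le_trans ?_ (Finset.sum_le_sum h1)
  have h4 : ∑ n ∈ Ioc T N, (((Icc 1 127).filter fun r => r * n ≤ 2 * N).card : ℝ) =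
      ∑ r ∈ Icc 1 127, (((Ioc T N).filter fun n => r * n ≤ 2 * N).card : ℝ) := by
    simp only [Finset.card_filter]
    push_cast
    rw [Finset.sum_comm]
  rw [h4]
  have h5 : Icc 1 127 = insert 1 (insert 2 (Icc 3 127)) := by
    ext r
    simp only [Finset.mem_insert, Finset.mem_Icc]
    omega
  rw [h5, Finset.sum_insert (by simp), Finset.sum_insert (by simp)]
  have h6 : ∀ r, r ≤ 2 → (((Ioc T N).filter fun n => r * n ≤ 2 * N).card : ℝ) = (N : ℝ) - T := by
    intro r hr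
    rw [Finset.filter_true_of_mem, Nat.card_Ioc, Nat.cast_sub hTN']
    intro n hn
    rw [Finset.mem_Ioc] at hn
    nlinarith only [hr, hn]
  rw [h6 1 (by norm_num), h6 2 (by norm_num)]
  have h7 : ∀ r ∈ Icc 3 127, 2 * (N : ℝ) / r - 1 - T ≤
      (((Ioc T N).filter fun n => r * n ≤ 2 * N).card : ℝ) := by
    intro r hr
    have h8 := hTN r hr
    rw [Finset.mem_Icc] at hr
    have h9 : ((Ioc T N).filter fun n => r * n ≤ 2 * N) = Ioc T (2 * N / r) := by
      ext n
      rw [Finset.mem_filter, Finset.mem_Ioc, Finset.mem_Ioc, Nat.le_div_iff_mul_le (by omega)]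
      constructor
      · rintro ⟨⟨h, -⟩, h'⟩
        exact ⟨h, by rw [mul_comm]; exact h'⟩
      · rintro ⟨h, h'⟩
        refine ⟨⟨h, ?_⟩, by rw [mul_comm]; exact h'⟩
        nlinarith only [hr, h', h]
    rw [h9, Nat.card_Ioc, Nat.cast_sub h8]
    have h10 : 2 * (N : ℝ) / r < ((2 * N / r : ℕ) : ℝ) + 1 := by
      have hr0 : (0 : ℝ) < r := by exact_mod_cast (show 0 < r by omega)
      rw [div_lt_iff₀ hr0]
      have := Nat.lt_div_mul_add (a := 2 * N) (b := r) (by omega)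
      have h11 : ((2 * N : ℕ) : ℝ) < ((2 * N / r * r + r : ℕ) : ℝ) := by exact_mod_cast this
      push_cast at h11
      linarith only [h11]
    linarith only [h10]
  have h11 := Finset.sum_le_sum h7
  linarith only [h11]

/-- piece `(M/32, N]`, the sawtooth part. -/
lemma F5PS_pieceC : ∀ ε > 0, ∀ᶠ M : ℕ in atTop,
    ∑ n ∈ Ioc (M / 32) (2 * M),
      (5 * ((5 * M : ℕ) : ℝ) * (2 * ((2 * M : ℕ) : ℝ) / n -
        ((2 * (2 * M) / n : ℕ) : ℝ))) * PS_lam n ≤
      (100 * (6 * Real.log 2 - 1 - ∑ r ∈ Icc (3 : ℕ) 127, 1 / (r : ℝ)) + 25 * (127 / 32) + ε) *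
        (M : ℝ) ^ 2 := by
  have hAB : ∀ᶠ M : ℕ in atTop, M / 32 < 2 * M ∧ 2 * M ≤ 20 * M := by
    filter_upwards [eventually_gt_atTop 10] with M hM
    exact ⟨by omega, by omega⟩
  have hTreal : ∀ M : ℕ, (M : ℝ) ≤ 32 * ((M / 32 + 1 : ℕ) : ℝ) := by
    intro M
    have : M ≤ 32 * (M / 32 + 1) := by omega
    exact_mod_cast this
  have hinv : PS_Neg (fun M => M / 32) (fun M => 2 * M)
      (fun M n => 5 * ((5 * M : ℕ) : ℝ) * (2 * ((2 * M : ℕ) : ℝ) / n)) := by
    refine PS_neg_of_antitone (C := 3200) hAB ?_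
    filter_upwards [eventually_gt_atTop 10] with M hM
    have hM' : (10 : ℝ) < M := by exact_mod_cast hM
    refine ⟨fun n hn _ => ?_, by positivity, ?_⟩
    · have hn0 : (0 : ℝ) < n := by exact_mod_cast (show 0 < n by omega)
      refine mul_le_mul_of_nonneg_left ?_ (by positivity)
      refine div_le_div_of_nonneg_left (by positivity) hn0 ?_
      push_cast; linarith only []
    · have h1 : 2 * ((2 * M : ℕ) : ℝ) / ((M / 32 + 1 : ℕ) : ℝ) ≤ 128 := by
        rw [div_le_iff₀ (by positivity)]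
        have := hTreal M
        push_cast at this ⊢
        linarith only [this]
      calc 5 * ((5 * M : ℕ) : ℝ) * (2 * ((2 * M : ℕ) : ℝ) / ((M / 32 + 1 : ℕ) : ℝ))
          ≤ 5 * ((5 * M : ℕ) : ℝ) * 128 := mul_le_mul_of_nonneg_left h1 (by positivity)
        _ = 3200 * M := by push_cast; ring
  have hfl : PS_Neg (fun M => M / 32) (fun M => 2 * M)
      (fun M n => 5 * ((5 * M : ℕ) : ℝ) * ((2 * (2 * M) / n : ℕ) : ℝ)) := by
    refine PS_neg_of_antitone (C := 3200) hAB ?_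
    filter_upwards [eventually_gt_atTop 10] with M hM
    have hM' : (10 : ℝ) < M := by exact_mod_cast hM
    refine ⟨fun n hn _ => ?_, by positivity, ?_⟩
    · refine mul_le_mul_of_nonneg_left ?_ (by positivity)
      exact_mod_cast Nat.div_le_div_left (by omega) (by omega)
    · have h1 : ((2 * (2 * M) / (M / 32 + 1) : ℕ) : ℝ) ≤ 128 := by
        have : 2 * (2 * M) / (M / 32 + 1) ≤ 128 := by
          refine Nat.div_le_of_le_mul ?_
          have := (show M ≤ 32 * (M / 32 + 1) by omega)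
          omega
        exact_mod_cast this
      calc 5 * ((5 * M : ℕ) : ℝ) * ((2 * (2 * M) / (M / 32 + 1) : ℕ) : ℝ)
          ≤ 5 * ((5 * M : ℕ) : ℝ) * 128 := mul_le_mul_of_nonneg_left h1 (by positivity)
        _ = 3200 * M := by push_cast; ring
  have hall : PS_Neg (fun M => M / 32) (fun M => 2 * M)
      (fun M n => 5 * ((5 * M : ℕ) : ℝ) * (2 * ((2 * M : ℕ) : ℝ) / n -
        ((2 * (2 * M) / n : ℕ) : ℝ))) := by
    refine (hinv.sub hfl).congr (Eventually.of_forall fun M n _ => ?_)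
    ring
  refine PS_combine (C := 10000) hall ?_
  filter_upwards [eventually_gt_atTop 100] with M hM
  have hM' : (100 : ℝ) < M := by exact_mod_cast hM
  have e1 : ∀ n : ℕ, 5 * ((5 * M : ℕ) : ℝ) * (2 * ((2 * M : ℕ) : ℝ) / n -
        ((2 * (2 * M) / n : ℕ) : ℝ)) =
      10 * ((5 * M : ℕ) : ℝ) * ((2 * M : ℕ) : ℝ) * (1 / n) -
        5 * ((5 * M : ℕ) : ℝ) * ((2 * (2 * M) / n : ℕ) : ℝ) := fun n => by ring
  rw [Finset.sum_congr rfl fun n _ => e1 n, Finset.sum_sub_distrib, ← Finset.mul_sum,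
    ← Finset.mul_sum]
  have hT1 : 0 < M / 32 := by omega
  have h2 := PS_sum_inv (a := M / 32) (b := 2 * M) hT1 (by omega)
  have hTle : ((M / 32 : ℕ) : ℝ) ≤ M / 32 := by
    have := Nat.cast_div_le (α := ℝ) (m := M) (n := 32)
    exact_mod_cast this
  have hTge : ((M : ℝ) - 31) / 32 ≤ ((M / 32 : ℕ) : ℝ) := by
    have : M ≤ 32 * (M / 32) + 31 := by omega
    have h' : (M : ℝ) ≤ 32 * ((M / 32 : ℕ) : ℝ) + 31 := by exact_mod_cast this
    linarith only [h']
  have hT0 : (0 : ℝ) < ((M / 32 : ℕ) : ℝ) := by exact_mod_cast hT1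
  have h3 : Real.log ((2 * M : ℕ) : ℝ) - Real.log ((M / 32 : ℕ) : ℝ) ≤
      6 * Real.log 2 + 62 / M := by
    rw [← Real.log_div (by positivity) (by positivity)]
    have h5 : ((2 * M : ℕ) : ℝ) / ((M / 32 : ℕ) : ℝ) ≤ 64 * (1 + 62 / M) := by
      rw [div_le_iff₀ hT0]
      have h6 : 64 * (1 + 62 / (M : ℝ)) * (((M : ℝ) - 31) / 32) ≤
          64 * (1 + 62 / (M : ℝ)) * ((M / 32 : ℕ) : ℝ) :=
        mul_le_mul_of_nonneg_left hTge (by positivity)
      refine le_trans ?_ h6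
      have h7 : 64 * (1 + 62 / (M : ℝ)) * (((M : ℝ) - 31) / 32) =
          2 * M + 62 - 3844 / M := by
        field_simp
        ring
      rw [h7]
      have h8 : 3844 / (M : ℝ) ≤ 38.44 := by
        rw [div_le_iff₀ (by positivity)]
        linarith only [hM']
      push_cast
      linarith only [h8]
    refine (Real.log_le_log (by positivity) h5).trans ?_
    rw [Real.log_mul (by norm_num) (by positivity)]
    have h9 : Real.log 64 = 6 * Real.log 2 := by
      rw [show (64 : ℝ) = 2 ^ 6 by norm_num, Real.log_pow]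
      norm_num
    have h10 : Real.log (1 + 62 / (M : ℝ)) ≤ 62 / M := by
      have := Real.log_le_sub_one_of_pos (x := 1 + 62 / (M : ℝ)) (by positivity)
      linarith only [this]
    rw [h9]
    linarith only [h10]
  have h4 := F5PS_floor_sum (N := 2 * M) (T := M / 32) (by
    intro r hr
    rw [Finset.mem_Icc] at hr
    rw [Nat.le_div_iff_mul_le (by omega)]
    have : M / 32 * r ≤ M / 32 * 127 := Nat.mul_le_mul_left _ hr.2
    (clear * - hM this; omega)) (by omega)
  have h5 : ∑ r ∈ Icc (3 : ℕ) 127, (2 * ((2 * M : ℕ) : ℝ) / (r : ℝ) - 1 -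
      ((M / 32 : ℕ) : ℝ)) =
      2 * ((2 * M : ℕ) : ℝ) * (∑ r ∈ Icc (3 : ℕ) 127, 1 / (r : ℝ)) -
        125 * (1 + ((M / 32 : ℕ) : ℝ)) := by
    rw [Finset.mul_sum]
    have h6 : ∀ r : ℕ, 2 * ((2 * M : ℕ) : ℝ) / (r : ℝ) - 1 - ((M / 32 : ℕ) : ℝ) =
        2 * ((2 * M : ℕ) : ℝ) * (1 / (r : ℝ)) - (1 + ((M / 32 : ℕ) : ℝ)) := fun r => by ring
    rw [Finset.sum_congr rfl fun r _ => h6 r, Finset.sum_sub_distrib, Finset.sum_const,
      Nat.card_Icc]
    norm_num
    ring
  rw [h5] at h4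
  set H : ℝ := ∑ r ∈ Icc (3 : ℕ) 127, 1 / (r : ℝ) with hH
  have hH0 : 0 ≤ H := by
    rw [hH]; (clear * -; positivity)
  have h6 : 10 * ((5 * M : ℕ) : ℝ) * ((2 * M : ℕ) : ℝ) *
      ∑ n ∈ Ioc (M / 32) (2 * M), (1 : ℝ) / n ≤
      10 * ((5 * M : ℕ) : ℝ) * ((2 * M : ℕ) : ℝ) * (6 * Real.log 2 + 62 / M) :=
    mul_le_mul_of_nonneg_left (h2.trans h3) (by positivity)
  have h7 : 10 * ((5 * M : ℕ) : ℝ) * ((2 * M : ℕ) : ℝ) * (6 * Real.log 2 + 62 / M) =
      100 * (M : ℝ) ^ 2 * (6 * Real.log 2) + 6200 * M := by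
    push_cast
    field_simp
    ring
  have h8 := mul_le_mul_of_nonneg_left h4 (by positivity : (0 : ℝ) ≤ 5 * ((5 * M : ℕ) : ℝ))
  have h9 : 5 * ((5 * M : ℕ) : ℝ) * (2 * (((2 * M : ℕ) : ℝ) - ((M / 32 : ℕ) : ℝ)) +
      (2 * ((2 * M : ℕ) : ℝ) * H - 125 * (1 + ((M / 32 : ℕ) : ℝ)))) =
      100 * (M : ℝ) ^ 2 * (1 + H) - 25 * 127 * M * ((M / 32 : ℕ) : ℝ) - 3125 * M := by
    push_cast
    ring
  have h10 : 25 * 127 * (M : ℝ) * ((M / 32 : ℕ) : ℝ) ≤ 25 * 127 * M * (M / 32) :=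
    mul_le_mul_of_nonneg_left hTle (by positivity)
  rw [h9] at h8
  rw [h7] at h6
  linarith only [h10, h8, h6, hM']

lemma F5PS_harm : (3.9253 : ℝ) ≤ ∑ r ∈ Icc (3 : ℕ) 127, 1 / (r : ℝ) := by
  rw [show Icc (3 : ℕ) 127 = Ico 3 128 from rfl]
  simp only [Finset.sum_Ico_succ_top, Nat.reduceLeDiff, Finset.Ico_self, Finset.sum_empty]
  norm_num

lemma F5PS_min_eq (a b : ℝ) : min a b = a - max 0 (a - b) := by
  rcases le_total a b with h | h
  · rw [min_eq_left h, max_eq_left (by linarith)]; ring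
  · rw [min_eq_right h, max_eq_right (by linarith)]; ring

/-- piece `(N, 2N]`. -/
lemma F5PS_pieceD : ∀ ε > 0, ∀ᶠ M : ℕ in atTop,
    ∑ n ∈ Ioc (2 * M) (2 * (2 * M)),
      (30 * (((2 * M : ℕ) : ℝ) - ((n : ℝ) - 1) / 2) + 5 * ((n : ℝ) - ((2 * M : ℕ) : ℝ)) +
      3 * min ((n : ℝ) - ((2 * M : ℕ) : ℝ)) (((2 * M : ℕ) : ℝ) - ((n : ℝ) - 1) / 2) -
        6 * ((5 * M : ℕ) : ℝ) + 2 * ((5 * M : ℕ) : ℝ) ^ 2 / (n : ℝ) + (n : ℝ) / 8) * PS_lam n ≤
      (-17.25 + 50 * Real.log 2 + ε) * (M : ℝ) ^ 2 := by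
  have hAB : ∀ᶠ M : ℕ in atTop, 2 * M < 2 * (2 * M) ∧ 2 * (2 * M) ≤ 20 * M := by
    filter_upwards [eventually_gt_atTop 10] with M hM
    exact ⟨by omega, by omega⟩
  have hlin : PS_Neg (fun M => 2 * M) (fun M => 2 * (2 * M))
      (fun M n => 22 * ((2 * M : ℕ) : ℝ) + 15 - 6.875 * (n : ℝ)) := by
    refine PS_neg_of_antitone (C := 100) hAB ?_
    filter_upwards [eventually_gt_atTop 10] with M hM
    have hM' : (10 : ℝ) < M := by exact_mod_cast hM
    refine ⟨fun n _ _ => ?_, ?_, ?_⟩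
    · push_cast; linarith only []
    · push_cast
      linarith only [hM']
    · push_cast
      linarith only [hM']
  have hg : PS_Neg (fun M => 2 * M) (fun M => 2 * (2 * M))
      (fun M n => 3 * (((2 * M : ℕ) : ℝ) - max 0 (((n : ℝ) - ((2 * M : ℕ) : ℝ)) -
        (((2 * M : ℕ) : ℝ) - ((n : ℝ) - 1) / 2)))) := by
    refine PS_neg_of_antitone (C := 100) hAB ?_
    filter_upwards [eventually_gt_atTop 10] with M hM
    have hM' : (10 : ℝ) < M := by exact_mod_cast hM
    refine ⟨fun n _ _ => ?_, ?_, ?_⟩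
    · have h1 : max 0 (((n : ℝ) - ((2 * M : ℕ) : ℝ)) -
        (((2 * M : ℕ) : ℝ) - ((n : ℝ) - 1) / 2)) ≤
        max 0 ((((n + 1 : ℕ) : ℝ) - ((2 * M : ℕ) : ℝ)) -
        (((2 * M : ℕ) : ℝ) - (((n + 1 : ℕ) : ℝ) - 1) / 2)) := by
        refine max_le_max le_rfl ?_
        push_cast
        linarith only []
      linarith only [h1]
    · have h1 : max 0 ((((2 * (2 * M) : ℕ) : ℝ) - ((2 * M : ℕ) : ℝ)) -
        (((2 * M : ℕ) : ℝ) - (((2 * (2 * M) : ℕ) : ℝ) - 1) / 2)) ≤ ((2 * M : ℕ) : ℝ) := by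
        refine max_le (by positivity) ?_
        push_cast
        linarith only []
      linarith only [h1]
    · have h1 : 0 ≤ max 0 ((((2 * M + 1 : ℕ) : ℝ) - ((2 * M : ℕ) : ℝ)) -
        (((2 * M : ℕ) : ℝ) - (((2 * M + 1 : ℕ) : ℝ) - 1) / 2)) := le_max_left _ _
      have h2 : ((2 * M : ℕ) : ℝ) = 2 * M := by push_cast; ring
      rw [h2] at h1 ⊢
      linarith only [h1, hM']
  have hc : PS_Neg (fun M => 2 * M) (fun M => 2 * (2 * M))
      (fun M _ => 6 * ((5 * M : ℕ) : ℝ) + 3 * ((2 * M : ℕ) : ℝ)) := by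
    refine PS_neg_of_antitone (C := 70) hAB ?_
    filter_upwards [eventually_gt_atTop 10] with M hM
    refine ⟨fun n _ _ => le_rfl, by positivity, ?_⟩
    push_cast
    linarith only []
  have hinv : PS_Neg (fun M => 2 * M) (fun M => 2 * (2 * M))
      (fun M n => 2 * ((5 * M : ℕ) : ℝ) ^ 2 / n) := by
    refine PS_neg_of_antitone (C := 50) hAB ?_
    filter_upwards [eventually_gt_atTop 10] with M hM
    have hM' : (10 : ℝ) < M := by exact_mod_cast hM
    refine ⟨fun n hn _ => ?_, by positivity, ?_⟩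
    · have hn0 : (0 : ℝ) < n := by exact_mod_cast (show 0 < n by omega)
      refine div_le_div_of_nonneg_left (by positivity) hn0 ?_
      push_cast; linarith only []
    · rw [div_le_iff₀ (by positivity)]
      push_cast
      nlinarith only [hM']
  have hall : PS_Neg (fun M => 2 * M) (fun M => 2 * (2 * M))
      (fun M n => 30 * (((2 * M : ℕ) : ℝ) - ((n : ℝ) - 1) / 2) +
        5 * ((n : ℝ) - ((2 * M : ℕ) : ℝ)) +
      3 * min ((n : ℝ) - ((2 * M : ℕ) : ℝ)) (((2 * M : ℕ) : ℝ) - ((n : ℝ) - 1) / 2) -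
        6 * ((5 * M : ℕ) : ℝ) + 2 * ((5 * M : ℕ) : ℝ) ^ 2 / (n : ℝ) + (n : ℝ) / 8) := by
    refine (((hlin.add hinv).add hg).sub hc).congr (Eventually.of_forall fun M n _ => ?_)
    rw [F5PS_min_eq ((n : ℝ) - ((2 * M : ℕ) : ℝ))]
    ring
  refine PS_combine (C := 1000) hall ?_
  filter_upwards [eventually_gt_atTop 10] with M hM
  have hM' : (10 : ℝ) < M := by exact_mod_cast hM
  -- the minimum
  have hmin : ∑ n ∈ Ioc (2 * M) (2 * (2 * M)),
      min ((n : ℝ) - ((2 * M : ℕ) : ℝ)) (((2 * M : ℕ) : ℝ) - ((n : ℝ) - 1) / 2) ≤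
      2 / 3 * (M : ℝ) ^ 2 + 10 * M := by
    set c := 8 * M / 3 with hc
    have hc1 : 2 * M ≤ c := by omega
    have hc2 : c ≤ 2 * (2 * M) := by omega
    have hc3 : (c : ℝ) ≤ 8 * M / 3 := by
      rw [le_div_iff₀ (by norm_num)]
      have : c * 3 ≤ 8 * M := by omega
      exact_mod_cast this
    have hc4 : 8 * (M : ℝ) / 3 - 1 ≤ c := by
      have : 8 * M ≤ c * 3 + 3 := by omega
      have h' : 8 * (M : ℝ) ≤ c * 3 + 3 := by exact_mod_cast this
      linarith only [h']
    rw [PS_sum_Ioc hc1 hc2]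
    have h1 : ∑ n ∈ Ioc (2 * M) c,
        min ((n : ℝ) - ((2 * M : ℕ) : ℝ)) (((2 * M : ℕ) : ℝ) - ((n : ℝ) - 1) / 2) ≤
        ∑ n ∈ Ioc (2 * M) c, ((n : ℝ) - ((2 * M : ℕ) : ℝ)) :=
      Finset.sum_le_sum fun n _ => min_le_left _ _
    have h2 : ∑ n ∈ Ioc c (2 * (2 * M)),
        min ((n : ℝ) - ((2 * M : ℕ) : ℝ)) (((2 * M : ℕ) : ℝ) - ((n : ℝ) - 1) / 2) ≤
        ∑ n ∈ Ioc c (2 * (2 * M)), ((((2 * M : ℕ) : ℝ) + 1 / 2) - 1 / 2 * (n : ℝ)) :=
      Finset.sum_le_sum fun n _ => (min_le_right _ _).trans (le_of_eq (by ring))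
    rw [Finset.sum_sub_distrib, PS_sum_const hc1, PS_sum_id hc1] at h1
    rw [Finset.sum_sub_distrib, PS_sum_const hc2, ← Finset.mul_sum, PS_sum_id hc2] at h2
    push_cast at h1 h2 ⊢
    have h3 : ((c : ℝ) * (c + 1) - 2 * M * (2 * M + 1)) / 2 - (c - 2 * M) * (2 * M) ≤
        2 / 9 * (M : ℝ) ^ 2 + M := by
      have : ((c : ℝ) * (c + 1) - 2 * M * (2 * M + 1)) / 2 - (c - 2 * M) * (2 * M) =
        (c - 2 * M) * (c - 2 * M + 1) / 2 := by ring
      rw [this]
      have hx : (0 : ℝ) ≤ c - 2 * M := by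
        have : ((2 * M : ℕ) : ℝ) ≤ c := by exact_mod_cast hc1
        push_cast at this
        linarith only [hM', hc4]
      have hy : (c : ℝ) - 2 * M ≤ 2 * M / 3 := by linarith only [hc3]
      nlinarith only [hc3, hc4]
    have h4 : (2 * (2 * (M : ℝ)) - c) * (2 * M + 1 / 2) -
        1 / 2 * ((2 * (2 * (M : ℝ)) * (2 * (2 * M) + 1) - c * (c + 1)) / 2) ≤
        4 / 9 * (M : ℝ) ^ 2 + 3 * M := by
      have : (2 * (2 * (M : ℝ)) - c) * (2 * M + 1 / 2) -
        1 / 2 * ((2 * (2 * (M : ℝ)) * (2 * (2 * M) + 1) - c * (c + 1)) / 2) =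
        (4 * M - c) * (4 * M - c + 1) / 4 := by ring
      rw [this]
      have hx : (0 : ℝ) ≤ 4 * M - c := by
        have : (c : ℝ) ≤ ((2 * (2 * M) : ℕ) : ℝ) := by exact_mod_cast hc2
        push_cast at this
        linarith only [hc3, hM']
      have hy : 4 * M - (c : ℝ) ≤ 4 * M / 3 + 1 := by linarith only [hc4]
      nlinarith only [h3, hc4]
    linarith only [h4, h3, h2, h1, hM']
  have e1 : ∀ n : ℕ, 30 * (((2 * M : ℕ) : ℝ) - ((n : ℝ) - 1) / 2) +
        5 * ((n : ℝ) - ((2 * M : ℕ) : ℝ)) +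
      3 * min ((n : ℝ) - ((2 * M : ℕ) : ℝ)) (((2 * M : ℕ) : ℝ) - ((n : ℝ) - 1) / 2) -
        6 * ((5 * M : ℕ) : ℝ) + 2 * ((5 * M : ℕ) : ℝ) ^ 2 / (n : ℝ) + (n : ℝ) / 8 =
      (25 * ((2 * M : ℕ) : ℝ) + 15 - 6 * ((5 * M : ℕ) : ℝ)) +
        3 * min ((n : ℝ) - ((2 * M : ℕ) : ℝ)) (((2 * M : ℕ) : ℝ) - ((n : ℝ) - 1) / 2) +
        2 * ((5 * M : ℕ) : ℝ) ^ 2 * (1 / n) - (10 - 1 / 8) * (n : ℝ) := fun n => by ring
  rw [Finset.sum_congr rfl fun n _ => e1 n, Finset.sum_sub_distrib, Finset.sum_add_distrib,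
    Finset.sum_add_distrib,
    PS_sum_const (by (clear * - hM; omega)), ← Finset.mul_sum, ← Finset.mul_sum, ← Finset.mul_sum,
    PS_sum_id (by omega)]
  have h2 := PS_sum_inv (a := 2 * M) (b := 2 * (2 * M)) (by omega) (by omega)
  have h3 : Real.log ((2 * (2 * M) : ℕ) : ℝ) - Real.log ((2 * M : ℕ) : ℝ) =
      Real.log 2 := by
    rw [← Real.log_div (by positivity) (by positivity)]
    congr 1
    push_cast
    field_simp
  rw [h3] at h2
  have h4 : 2 * ((5 * M : ℕ) : ℝ) ^ 2 * ∑ n ∈ Ioc (2 * M) (2 * (2 * M)), (1 : ℝ) / n ≤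
      2 * ((5 * M : ℕ) : ℝ) ^ 2 * Real.log 2 :=
    mul_le_mul_of_nonneg_left h2 (by positivity)
  have h5 : 2 * ((5 * M : ℕ) : ℝ) ^ 2 * Real.log 2 = 50 * (M : ℝ) ^ 2 * Real.log 2 := by
    push_cast
    ring
  rw [h5] at h4
  push_cast at h4 hmin ⊢
  linarith only [hmin, h4, hM']

/-- piece `(2N, K]`. -/
lemma F5PS_pieceE : ∀ ε > 0, ∀ᶠ M : ℕ in atTop,
    ∑ n ∈ Ioc (2 * (2 * M)) (5 * M), (4 * ((5 * M : ℕ) : ℝ) - 3 * n +
      5 * (2 * ((2 * M : ℕ) : ℝ) - ((n : ℝ) - 1) / 2)) * PS_lam n ≤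
      (15.25 + ε) * (M : ℝ) ^ 2 := by
  have h1 : PS_Neg (fun M => 2 * (2 * M)) (fun M => 5 * M)
      (fun M n => 4 * ((5 * M : ℕ) : ℝ) - 3 * n +
      5 * (2 * ((2 * M : ℕ) : ℝ) - ((n : ℝ) - 1) / 2)) := by
    refine PS_neg_of_antitone (C := 40) ?_ ?_
    · filter_upwards [eventually_gt_atTop 10] with M hM
      exact ⟨by omega, by omega⟩
    · filter_upwards [eventually_gt_atTop 10] with M hM
      refine ⟨fun n _ _ => ?_, ?_, ?_⟩
      · push_cast; linarith only []
      · push_cast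
        have : (0 : ℝ) ≤ M := by positivity
        linarith only []
      · push_cast
        have : (0 : ℝ) ≤ M := by positivity
        linarith only []
  refine PS_combine (C := 10) h1 ?_
  filter_upwards [eventually_gt_atTop 10] with M hM
  have e1 : ∀ n : ℕ, 4 * ((5 * M : ℕ) : ℝ) - 3 * n +
      5 * (2 * ((2 * M : ℕ) : ℝ) - ((n : ℝ) - 1) / 2) =
      (4 * ((5 * M : ℕ) : ℝ) + 10 * ((2 * M : ℕ) : ℝ) + 5 / 2) - 5.5 * (n : ℝ) := fun n => by ring
  rw [Finset.sum_congr rfl fun n _ => e1 n, Finset.sum_sub_distrib, PS_sum_const (by omega),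
    ← Finset.mul_sum, PS_sum_id (by omega)]
  push_cast
  have : (10 : ℝ) < M := by exact_mod_cast hM
  linarith only [this]

/-- piece `(K, 4N]`. -/
lemma F5PS_pieceF : ∀ ε > 0, ∀ᶠ M : ℕ in atTop,
    ∑ n ∈ Ioc (5 * M) (8 * M), (2 * ((5 * M : ℕ) : ℝ) - n +
      5 * (2 * ((2 * M : ℕ) : ℝ) - ((n : ℝ) - 1) / 2)) * PS_lam n ≤
      (21.75 + ε) * (M : ℝ) ^ 2 := by
  have h1 : PS_Neg (fun M => 5 * M) (fun M => 8 * M)
      (fun M n => 2 * ((5 * M : ℕ) : ℝ) - n +
      5 * (2 * ((2 * M : ℕ) : ℝ) - ((n : ℝ) - 1) / 2)) := by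
    refine PS_neg_of_antitone (C := 40) ?_ ?_
    · filter_upwards [eventually_gt_atTop 10] with M hM
      exact ⟨by omega, by omega⟩
    · filter_upwards [eventually_gt_atTop 10] with M hM
      refine ⟨fun n _ _ => ?_, ?_, ?_⟩
      · push_cast; linarith only []
      · push_cast
        have : (0 : ℝ) ≤ M := by positivity
        linarith only []
      · push_cast
        have : (0 : ℝ) ≤ M := by positivity
        linarith only []
  refine PS_combine (C := 10) h1 ?_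
  filter_upwards [eventually_gt_atTop 10] with M hM
  have e1 : ∀ n : ℕ, 2 * ((5 * M : ℕ) : ℝ) - n +
      5 * (2 * ((2 * M : ℕ) : ℝ) - ((n : ℝ) - 1) / 2) =
      (2 * ((5 * M : ℕ) : ℝ) + 10 * ((2 * M : ℕ) : ℝ) + 5 / 2) - 3.5 * (n : ℝ) := fun n => by ring
  rw [Finset.sum_congr rfl fun n _ => e1 n, Finset.sum_sub_distrib, PS_sum_const (by omega),
    ← Finset.mul_sum, PS_sum_id (by omega)]
  push_cast
  have : (10 : ℝ) < M := by exact_mod_cast hM
  linarith only [this]

/-- piece `(4N, 2K]`. -/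
lemma F5PS_pieceG : ∀ ε > 0, ∀ᶠ M : ℕ in atTop,
    ∑ n ∈ Ioc (8 * M) (10 * M), (2 * ((5 * M : ℕ) : ℝ) - n) * PS_lam n ≤
      (2 + ε) * (M : ℝ) ^ 2 := by
  have h1 : PS_Neg (fun M => 8 * M) (fun M => 10 * M)
      (fun M n => 2 * ((5 * M : ℕ) : ℝ) - n) := by
    refine PS_neg_of_antitone (C := 20) ?_ ?_
    · filter_upwards [eventually_gt_atTop 10] with M hM
      exact ⟨by omega, by omega⟩
    · filter_upwards [eventually_gt_atTop 10] with M hM
      refine ⟨fun n _ _ => ?_, ?_, ?_⟩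
      · push_cast; linarith only []
      · push_cast
        have : (0 : ℝ) ≤ M := by positivity
        linarith only []
      · push_cast
        have : (0 : ℝ) ≤ M := by positivity
        linarith only []
  refine PS_combine (C := 0) h1 ?_
  filter_upwards [eventually_gt_atTop 10] with M hM
  rw [Finset.sum_sub_distrib, PS_sum_const (by omega), PS_sum_id (by omega)]
  push_cast
  have : (10 : ℝ) < M := by exact_mod_cast hM
  linarith only [this]

/-- small primes. -/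
lemma F5PS_piece0 (d : ℕ) : ∀ ε > 0, ∀ᶠ M : ℕ in atTop,
    ∑ n ∈ Ioc 0 (Nat.sqrt (10 * M)), Ebd5 d (2 * M) (5 * M) n * PS_lam n ≤
      ε * (M : ℝ) ^ 2 := by
  intro ε hε
  have h1 : (fun x : ℝ => Real.log x) =o[atTop] fun x : ℝ => x ^ (1 / 2 : ℝ) :=
    isLittleO_log_rpow_atTop (by norm_num)
  have hη : 0 < ε / (50 * (5 + (d : ℝ))) := by positivity
  have h2 := h1.def hη
  have h3 : Tendsto (fun M : ℕ => 10 * (M : ℝ)) atTop atTop :=
    tendsto_natCast_atTop_atTop.const_mul_atTop (by norm_num)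
  filter_upwards [eventually_gt_atTop 10, h3.eventually h2] with M hM hlog
  have hM' : (10 : ℝ) < M := by exact_mod_cast hM
  have hlog0 : 0 < Real.log (10 * M) := Real.log_pos (by linarith only [hM'])
  rw [Real.norm_of_nonneg hlog0.le, Real.norm_of_nonneg (by positivity),
    ← Real.sqrt_eq_rpow] at hlog
  have h4 : ∀ n ∈ Ioc 0 (Nat.sqrt (10 * M)), Ebd5 d (2 * M) (5 * M) n * PS_lam n ≤
      5 * M * (5 + d) * Real.log (10 * M) := by
    intro n hn
    rw [Finset.mem_Ioc] at hn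
    unfold PS_lam
    split_ifs with hp
    · have hn2 : n ^ 2 ≤ 2 * (5 * M) := by
        have := Nat.le_sqrt'.1 hn.2
        omega
      unfold Ebd5
      rw [if_pos hn2]
      have hn1 : 1 < n := hp.one_lt
      have hn1' : (1 : ℝ) < n := by exact_mod_cast hn1
      have hlogn : 0 < Real.log n := Real.log_pos hn1'
      have hlogn2 : Real.log n ≤ Real.log (10 * M) := by
        refine Real.log_le_log (by linarith only [hn1']) ?_
        have : n ≤ 10 * M := by nlinarith only [hn2, hn]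
        exact_mod_cast this
      have h5 : (Nat.log n (2 * (5 * M)) : ℝ) * Real.log n ≤ Real.log (10 * M) := by
        rw [← Real.log_pow]
        refine Real.log_le_log (by positivity) ?_
        have := Nat.pow_log_le_self n (x := 2 * (5 * M)) (by omega)
        calc ((n : ℝ)) ^ (Nat.log n (2 * (5 * M))) =
              ((n ^ (Nat.log n (2 * (5 * M))) : ℕ) : ℝ) := by push_cast; ring
          _ ≤ ((2 * (5 * M) : ℕ) : ℝ) := by exact_mod_cast this
          _ = 10 * M := by push_cast; ring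
      have h6 : (d : ℝ) * Real.log n ≤ d * Real.log (10 * M) :=
        mul_le_mul_of_nonneg_left hlogn2 (by positivity)
      have h7 : ((5 * M : ℕ) : ℝ) * (5 * (Nat.log n (2 * (5 * M)) : ℝ) + d) * Real.log n =
          5 * M * (5 * ((Nat.log n (2 * (5 * M)) : ℝ) * Real.log n) + d * Real.log n) := by
        push_cast; ring
      rw [h7]
      have h8 : 5 * (M : ℝ) * (5 + d) * Real.log (10 * M) =
          5 * M * (5 * Real.log (10 * M) + d * Real.log (10 * M)) := by ring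
      rw [h8]
      refine mul_le_mul_of_nonneg_left ?_ (by positivity)
      linarith only [h5, h6]
    · rw [mul_zero]
      (clear * - hM hlog0; positivity)
  refine (Finset.sum_le_sum h4).trans ?_
  rw [PS_sum_const (Nat.zero_le _)]
  have h5 : (Nat.sqrt (10 * M) : ℝ) ≤ Real.sqrt (10 * M) := by
    have := Real.nat_sqrt_le_real_sqrt (a := 10 * M)
    push_cast at this
    exact this
  have h6 : Real.sqrt (10 * M) * Real.sqrt (10 * M) = 10 * M := Real.mul_self_sqrt (by positivity)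
  have h7 : ((Nat.sqrt (10 * M) : ℝ) - ((0 : ℕ) : ℝ)) * (5 * M * (5 + d) * Real.log (10 * M)) ≤
      Real.sqrt (10 * M) * (5 * M * (5 + d) *
        (ε / (50 * (5 + (d : ℝ))) * Real.sqrt (10 * M))) := by
    refine mul_le_mul ?_ ?_ (by positivity) (by positivity)
    · push_cast; linarith only [h5]
    · exact mul_le_mul_of_nonneg_left hlog (by positivity)
  refine h7.trans (le_of_eq ?_)
  have h8 : Real.sqrt (10 * M) * (5 * M * (5 + (d : ℝ)) *
        (ε / (50 * (5 + (d : ℝ))) * Real.sqrt (10 * M))) =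
      (Real.sqrt (10 * M) * Real.sqrt (10 * M)) * (5 * M * (5 + (d : ℝ)) *
        (ε / (50 * (5 + (d : ℝ))))) := by ring
  rw [h8, h6]
  field_simp
  ring

theorem prime_sum_le5 (d : ℕ) : ∃ M₀ : ℕ, ∀ M ≥ M₀,
    ∑ p ∈ (range (10 * M + 1)).filter (fun p => p.Prime ∧ p ≠ 2),
      Ebd5 d (2 * M) (5 * M) p * Real.log p ≤ 81.8 * (M : ℝ) ^ 2 := by
  rw [← Filter.eventually_atTop]
  filter_upwards [eventually_gt_atTop 10, F5PS_sqrt_le, F5PS_sqrt_ge 3,
    F5PS_piece0 d 0.01 (by norm_num), F5PS_pieceA 0.01 (by norm_num),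
    F5PS_pieceB 0.01 (by norm_num), F5PS_pieceC 0.01 (by norm_num),
    F5PS_pieceD 0.01 (by norm_num), F5PS_pieceE 0.01 (by norm_num),
    F5PS_pieceF 0.01 (by norm_num), F5PS_pieceG 0.01 (by norm_num)] with
    M hM hsT hs3 h0 hA hB hC hD hE hF hG
  have hs3' : 3 ≤ Nat.sqrt (10 * M) := by exact_mod_cast hs3
  set s := Nat.sqrt (10 * M) with hs
  have hsq : ∀ n, s < n → ¬ n ^ 2 ≤ 2 * (5 * M) := by
    intro n hn h
    have := Nat.le_sqrt'.2 h
    rw [show 2 * (5 * M) = 10 * M by ring, ← hs] at this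
    omega
  have e0 : ∑ p ∈ (range (10 * M + 1)).filter (fun p => p.Prime ∧ p ≠ 2),
      Ebd5 d (2 * M) (5 * M) p * Real.log p ≤
      ∑ n ∈ Ioc 0 (10 * M), Ebd5 d (2 * M) (5 * M) n * PS_lam n := by
    have hsub : (range (10 * M + 1)).filter (fun p => p.Prime ∧ p ≠ 2) ⊆ Ioc 0 (10 * M) := by
      intro p hp
      rw [Finset.mem_filter, Finset.mem_range] at hp
      rw [Finset.mem_Ioc]
      exact ⟨hp.2.1.pos, by omega⟩
    have h1 : ∑ p ∈ (range (10 * M + 1)).filter (fun p => p.Prime ∧ p ≠ 2),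
        Ebd5 d (2 * M) (5 * M) p * Real.log p =
        ∑ p ∈ (range (10 * M + 1)).filter (fun p => p.Prime ∧ p ≠ 2),
          Ebd5 d (2 * M) (5 * M) p * PS_lam p := by
      refine Finset.sum_congr rfl fun p hp => ?_
      rw [Finset.mem_filter] at hp
      unfold PS_lam
      rw [if_pos hp.2.1]
    rw [h1]
    refine Finset.sum_le_sum_of_subset_of_nonneg hsub fun n hn hn' => ?_
    rw [Finset.mem_Ioc] at hn
    by_cases hp : n.Prime
    · have hn2 : n = 2 := by
        by_contra h2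
        exact hn' (by
          rw [Finset.mem_filter, Finset.mem_range]
          exact ⟨by omega, hp, h2⟩)
      subst hn2
      unfold Ebd5
      rw [if_pos (by omega)]
      exact mul_nonneg (by (clear * - hM; positivity)) (PS_lam_nonneg 2)
    · unfold PS_lam
      rw [if_neg hp, mul_zero]
  refine e0.trans ?_
  rw [PS_sum_Ioc (a := 0) (b := s) (c := 10 * M) (by omega) (by omega),
    PS_sum_Ioc (a := s) (b := 2 * M) (c := 10 * M) (by omega) (by omega),
    PS_sum_Ioc (a := 2 * M) (b := 2 * (2 * M)) (c := 10 * M) (by omega) (by omega),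
    PS_sum_Ioc (a := 2 * (2 * M)) (b := 5 * M) (c := 10 * M) (by omega) (by omega),
    PS_sum_Ioc (a := 5 * M) (b := 8 * M) (c := 10 * M) (by omega) (by omega)]
  have eA : ∑ n ∈ Ioc s (2 * M), Ebd5 d (2 * M) (5 * M) n * PS_lam n =
      ∑ n ∈ Ioc s (2 * M),
        (29 / 32 * (n : ℝ) + 16 * ((2 * M : ℕ) : ℝ) / n +
          50 * ((2 * M : ℕ) : ℝ) ^ 2 / (n : ℝ) ^ 2) * PS_lam n +
      (∑ n ∈ Ioc s (M / 32),
        (5 * ((5 * M : ℕ) : ℝ) * (2 * ((2 * M : ℕ) : ℝ) / n -
          ((2 * (2 * M) / n : ℕ) : ℝ))) * PS_lam n +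
      ∑ n ∈ Ioc (M / 32) (2 * M),
        (5 * ((5 * M : ℕ) : ℝ) * (2 * ((2 * M : ℕ) : ℝ) / n -
          ((2 * (2 * M) / n : ℕ) : ℝ))) * PS_lam n) := by
    rw [← PS_sum_Ioc (by omega) (by omega), ← Finset.sum_add_distrib]
    refine Finset.sum_congr rfl fun n hn => ?_
    rw [Finset.mem_Ioc] at hn
    unfold Ebd5
    rw [if_neg (hsq n hn.1), if_pos hn.2]
    ring
  have eD : ∑ n ∈ Ioc (2 * M) (2 * (2 * M)), Ebd5 d (2 * M) (5 * M) n * PS_lam n =
      ∑ n ∈ Ioc (2 * M) (2 * (2 * M)),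
      (30 * (((2 * M : ℕ) : ℝ) - ((n : ℝ) - 1) / 2) + 5 * ((n : ℝ) - ((2 * M : ℕ) : ℝ)) +
      3 * min ((n : ℝ) - ((2 * M : ℕ) : ℝ)) (((2 * M : ℕ) : ℝ) - ((n : ℝ) - 1) / 2) -
        6 * ((5 * M : ℕ) : ℝ) + 2 * ((5 * M : ℕ) : ℝ) ^ 2 / (n : ℝ) + (n : ℝ) / 8) *
        PS_lam n := by
    refine Finset.sum_congr rfl fun n hn => ?_
    rw [Finset.mem_Ioc] at hn
    unfold Ebd5
    rw [if_neg (hsq n (by (clear * - hM hsT hn; omega))), if_neg (by omega), if_pos hn.2]
  have eE : ∑ n ∈ Ioc (2 * (2 * M)) (5 * M), Ebd5 d (2 * M) (5 * M) n * PS_lam n =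
      ∑ n ∈ Ioc (2 * (2 * M)) (5 * M), (4 * ((5 * M : ℕ) : ℝ) - 3 * n +
      5 * (2 * ((2 * M : ℕ) : ℝ) - ((n : ℝ) - 1) / 2)) * PS_lam n := by
    refine Finset.sum_congr rfl fun n hn => ?_
    rw [Finset.mem_Ioc] at hn
    unfold Ebd5
    rw [if_neg (hsq n (by (clear * - hM hsT hn; omega))), if_neg (by omega), if_neg (by omega), if_pos hn.2]
  have eF : ∑ n ∈ Ioc (5 * M) (8 * M), Ebd5 d (2 * M) (5 * M) n * PS_lam n =
      ∑ n ∈ Ioc (5 * M) (8 * M), (2 * ((5 * M : ℕ) : ℝ) - n +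
      5 * (2 * ((2 * M : ℕ) : ℝ) - ((n : ℝ) - 1) / 2)) * PS_lam n := by
    refine Finset.sum_congr rfl fun n hn => ?_
    rw [Finset.mem_Ioc] at hn
    unfold Ebd5
    rw [if_neg (hsq n (by omega)), if_neg (by omega), if_neg (by omega), if_neg (by omega),
      if_pos (by omega)]
  have eG : ∑ n ∈ Ioc (8 * M) (10 * M), Ebd5 d (2 * M) (5 * M) n * PS_lam n =
      ∑ n ∈ Ioc (8 * M) (10 * M), (2 * ((5 * M : ℕ) : ℝ) - n) * PS_lam n := by
    refine Finset.sum_congr rfl fun n hn => ?_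
    rw [Finset.mem_Ioc] at hn
    unfold Ebd5
    rw [if_neg (hsq n (by omega)), if_neg (by omega), if_neg (by omega), if_neg (by omega),
      if_neg (by omega)]
  rw [eA, eD, eE, eF, eG]
  have hH := F5PS_harm
  have hl := Real.log_two_lt_d9
  have hM2 : (0 : ℝ) ≤ (M : ℝ) ^ 2 := by positivity
  have hfin : 0.01 + (1.8125 + 0.01) + (0.78125 + 0.01) +
      (100 * (6 * Real.log 2 - 1 - ∑ r ∈ Icc (3 : ℕ) 127, 1 / (r : ℝ)) + 25 * (127 / 32) + 0.01) +
      (-17.25 + 50 * Real.log 2 + 0.01) + (15.25 + 0.01) + (21.75 + 0.01) + (2 + 0.01) ≤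
      (81.8 : ℝ) := by
    linarith only [hH, hl]
  have := mul_le_mul_of_nonneg_right hfin hM2
  linarith only [hC, hD, hE, hF, hG, h0, hA, hB, this]

end Vale.Agent.P030.Five
end
end

section

section

/-! Definitions for the archimedean side. `N = 2M`, `K = 5M`; sites `m + 1/2` with
`2M ≤ m < 5M`, and the vertical line `Re t = c = 5M`. -/

namespace Vale.Agent.P030.Five

open Finset Polynomial MeasureTheory Vale.Agent.P030

/-- complex version of `f5`. -/
noncomputable def fC (N : ℕ) (t : ℂ) : ℂ := t / (∏ j ∈ Icc (-(N : ℤ)) N, (t - (j : ℂ))) ^ 5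

/-- the point `c + i y`. -/
noncomputable def ltp (c : ℕ) (y : ℝ) : ℂ := (c : ℂ) + (y : ℂ) * Complex.I

/-- the positive weight on the line `Re t = c`. -/
noncomputable def lw (N c : ℕ) (y : ℝ) : ℝ :=
  ‖fC N (ltp c y)‖ * (2 * Real.cosh (Real.pi * y))⁻¹

/-- squared norm of a polynomial: sites `N ≤ m < c` and line `Re t = c`. -/
noncomputable def nrm (N c : ℕ) (A : ℝ[X]) : ℝ :=
  (∑ i ∈ range (c - N), |f5 N ((N : ℝ) + i + 1 / 2)| *
    (A.eval (((N : ℝ) + i + 1 / 2) ^ 2)) ^ 2) +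
  ∫ y : ℝ, lw N c y * ‖aeval (ltp c y ^ 2) A‖ ^ 2

/-- the nodes `T_i = (2M + i + 1/2)²`. -/
noncomputable def Tn (M i : ℕ) : ℝ := (((2 * M : ℕ) : ℝ) + i + 1 / 2) ^ 2

/-- `ω = ∏_{i<3M} (X - T_i)`. -/
noncomputable def om (M : ℕ) : ℝ[X] := ∏ i ∈ range (3 * M), (X - C (Tn M i))

/-- the Lagrange polynomials. -/
noncomputable def lag (M a : ℕ) : ℝ[X] :=
  ∏ l ∈ (range (3 * M)).erase a, (C ((Tn M a - Tn M l)⁻¹) * (X - C (Tn M l)))

/-- `∏_{l<a} (T_a - T_l)`. -/
noncomputable def Vn (M a : ℕ) : ℝ := ∏ l ∈ range a, (Tn M a - Tn M l)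

/-- `|ω'(T_a)|`. -/
noncomputable def omp (M a : ℕ) : ℝ := ∏ l ∈ (range (3 * M)).erase a, |Tn M a - Tn M l|

/-- the weight of the site `a`. -/
noncomputable def ws (M a : ℕ) : ℝ := f5 (2 * M) (((2 * M : ℕ) : ℝ) + a + 1 / 2)

/-- `½ f5(c) ω(c²)²`, `c = 5M`. -/
noncomputable def F0 (M : ℕ) : ℝ :=
  f5 (2 * M) (5 * (M : ℝ)) * ((om M).eval ((5 * (M : ℝ)) ^ 2)) ^ 2 / 2

end Vale.Agent.P030.Five
end
end

section

section

/-! The total of the archimedean side. -/

namespace Vale.Agent.P030.Five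

open Finset Polynomial MeasureTheory Vale.Agent.P030

/-! ### elementary logarithm estimates -/

theorem F5AT_L1 (n : ℕ) : (n : ℝ) * (Real.log (n + 1) - Real.log n) ≤ 1 := by
  rcases Nat.eq_zero_or_pos n with h | h
  · subst h; simp
  · have hn : (0 : ℝ) < n := by exact_mod_cast h
    have h1 : Real.log (n + 1) - Real.log n ≤ 1 / n := by
      rw [← Real.log_div (by positivity) (by positivity)]
      refine (Real.log_le_sub_one_of_pos (by positivity)).trans_eq ?_
      field_simp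
      ring
    calc (n : ℝ) * (Real.log (n + 1) - Real.log n) ≤ n * (1 / n) :=
          mul_le_mul_of_nonneg_left h1 hn.le
      _ = 1 := by field_simp

theorem F5AT_L3 (x : ℝ) (hx : 0 < x) : 1 / (x + 1) ≤ Real.log (x + 1) - Real.log x := by
  have h1 : Real.log x - Real.log (x + 1) ≤ -(1 / (x + 1)) := by
    rw [← Real.log_div (by positivity) (by positivity)]
    refine (Real.log_le_sub_one_of_pos (by positivity)).trans_eq ?_
    field_simp
    ring
  linarith

theorem F5AT_L2 (n : ℕ) : 1 - 1 / ((n : ℝ) + 1) ≤ (n : ℝ) * (Real.log (n + 1) - Real.log n) := by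
  rcases Nat.eq_zero_or_pos n with h | h
  · subst h; simp
  · have hn : (0 : ℝ) < n := by exact_mod_cast h
    have h1 := F5AT_L3 n hn
    calc (1 : ℝ) - 1 / ((n : ℝ) + 1) = n * (1 / (n + 1)) := by field_simp; ring
      _ ≤ _ := mul_le_mul_of_nonneg_left h1 hn.le

theorem F5AT_logfac (n : ℕ) : (n : ℝ) * Real.log n - n ≤ Real.log n.factorial ∧
    Real.log n.factorial ≤ (n : ℝ) * Real.log n - n + 2 * Real.log (n + 1) + 1 := by
  induction n with
  | zero => simp
  | succ n ih =>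
    have h1 : Real.log ((n + 1).factorial : ℝ) = Real.log (n + 1) + Real.log n.factorial := by
      rw [Nat.factorial_succ]
      push_cast
      rw [Real.log_mul (by positivity) (by positivity)]
    have hL1 := F5AT_L1 n
    have hL2 := F5AT_L2 n
    have hL3 := F5AT_L3 ((n : ℝ) + 1) (by positivity)
    obtain ⟨ih1, ih2⟩ := ih
    have hn : (0 : ℝ) ≤ n := by positivity
    have h4 : 1 / ((n : ℝ) + 1) ≤ 2 * (1 / ((n : ℝ) + 1 + 1)) := by
      rw [mul_one_div, div_le_div_iff₀ (by positivity) (by positivity)]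
      linarith only []
    rw [h1]
    push_cast
    constructor
    · linarith only [hL1, ih1]
    · linarith only [h4, ih2, hL3, hL2]

/-- `G(n) = ∑_{i<n} log i!`. -/
noncomputable def F5AT_G (n : ℕ) : ℝ := ∑ i ∈ range n, Real.log i.factorial

theorem F5AT_G_succ (n : ℕ) : F5AT_G (n + 1) = F5AT_G n + Real.log n.factorial := by
  unfold F5AT_G
  rw [sum_range_succ]

theorem F5AT_G_bound (n : ℕ) :
    |F5AT_G n - ((n : ℝ) ^ 2 / 2 * Real.log n - 3 / 4 * (n : ℝ) ^ 2)| ≤
      ∑ i ∈ range n, (2 * Real.log ((i : ℝ) + 1) + 3) := by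
  induction n with
  | zero => simp [F5AT_G]
  | succ n ih =>
    have hL1 := F5AT_L1 n
    have hL2 := F5AT_L2 n
    obtain ⟨hf1, hf2⟩ := F5AT_logfac n
    have hn : (0 : ℝ) ≤ n := by positivity
    have hlog : 0 ≤ Real.log ((n : ℝ) + 1) := Real.log_nonneg (by linarith only [])
    rw [sum_range_succ, F5AT_G_succ]
    rw [abs_le] at ih ⊢
    obtain ⟨ih1, ih2⟩ := ih
    -- n² δ / 2
    have h1 : (n : ℝ) ^ 2 * (Real.log (n + 1) - Real.log n) ≤ n := by
      have := mul_le_mul_of_nonneg_left hL1 hn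
      linarith only [this]
    have h2 : (n : ℝ) - 1 ≤ (n : ℝ) ^ 2 * (Real.log (n + 1) - Real.log n) := by
      have h3 := mul_le_mul_of_nonneg_left hL2 hn
      have h4 : (n : ℝ) - 1 ≤ n * (1 - 1 / ((n : ℝ) + 1)) := by
        have : (n : ℝ) * (1 - 1 / ((n : ℝ) + 1)) = n - 1 + 1 / ((n : ℝ) + 1) := by
          field_simp; ring
        rw [this]
        have : (0 : ℝ) ≤ 1 / ((n : ℝ) + 1) := by positivity
        linarith only [hL1, hL2]
      linarith only [h3, h4]
    have h5 : 1 / ((n : ℝ) + 1) ≤ 1 := by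
      rw [div_le_one (by positivity)]
      linarith only []
    push_cast
    constructor
    · linarith only [hL1, hf1, hlog, ih1, h1]
    · linarith only [hL2, hf2, hlog, ih2, h2, h5]

/-- `G(n) = ∑_{i<n} log i! = n²/2 log n - 3/4 n² + O(n log n)`. -/
theorem G_bounds : ∃ κ : ℝ, ∀ n : ℕ, 1 ≤ n →
    |∑ i ∈ range n, Real.log i.factorial -
      ((n : ℝ) ^ 2 / 2 * Real.log n - 3 / 4 * (n : ℝ) ^ 2)| ≤ κ * n * (Real.log n + 1) := by
  refine ⟨3, fun n hn => ?_⟩
  refine (F5AT_G_bound n).trans ?_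
  have hn' : (1 : ℝ) ≤ n := by exact_mod_cast hn
  have hlog : 0 ≤ Real.log (n : ℝ) := Real.log_nonneg hn'
  have h1 : ∑ i ∈ range n, (2 * Real.log ((i : ℝ) + 1) + 3) ≤
      ∑ i ∈ range n, (2 * Real.log (n : ℝ) + 3) := by
    refine sum_le_sum fun i hi => ?_
    rw [mem_range] at hi
    have h2 : (i : ℝ) + 1 ≤ n := by exact_mod_cast hi
    have h3 : Real.log ((i : ℝ) + 1) ≤ Real.log n := Real.log_le_log (by positivity) h2
    linarith only [h3]
  refine h1.trans ?_
  rw [sum_const, card_range, nsmul_eq_mul]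
  nlinarith only [hlog]

/-! ### asymptotic expansions in `M` -/

theorem F5AT_GQ (q : ℕ) (hq : 1 ≤ q) : ∃ κ : ℝ, ∀ M : ℕ, 1 ≤ M →
    |F5AT_G (q * M) - ((q : ℝ) ^ 2 / 2 * (Real.log q + Real.log M) - 3 / 4 * (q : ℝ) ^ 2) *
      (M : ℝ) ^ 2| ≤ κ * ((M : ℝ) * (Real.log M + 1)) := by
  obtain ⟨κ, hκ⟩ := G_bounds
  have hq' : (1 : ℝ) ≤ q := by exact_mod_cast hq
  have hlq : 0 ≤ Real.log (q : ℝ) := Real.log_nonneg hq'
  refine ⟨|κ| * q * (Real.log q + 1), fun M hM => ?_⟩
  have hM' : (1 : ℝ) ≤ M := by exact_mod_cast hM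
  have hlM : 0 ≤ Real.log (M : ℝ) := Real.log_nonneg hM'
  have h1 := hκ (q * M) (Nat.mul_pos hq hM)
  have h2 : Real.log ((q * M : ℕ) : ℝ) = Real.log q + Real.log M := by
    push_cast
    rw [Real.log_mul (by positivity) (by positivity)]
  have h3 : F5AT_G (q * M) - ((q : ℝ) ^ 2 / 2 * (Real.log q + Real.log M) -
      3 / 4 * (q : ℝ) ^ 2) * (M : ℝ) ^ 2 = ∑ i ∈ range (q * M), Real.log i.factorial -
      (((q * M : ℕ) : ℝ) ^ 2 / 2 * Real.log ((q * M : ℕ) : ℝ) -
        3 / 4 * ((q * M : ℕ) : ℝ) ^ 2) := by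
    rw [h2]
    unfold F5AT_G
    push_cast
    ring
  rw [h3]
  refine h1.trans ?_
  rw [h2]
  push_cast
  have h4 : κ * ((q : ℝ) * M) * (Real.log q + Real.log M + 1) ≤
      |κ| * ((q : ℝ) * M) * (Real.log q + Real.log M + 1) := by
    refine mul_le_mul_of_nonneg_right ?_ (by positivity)
    exact mul_le_mul_of_nonneg_right (le_abs_self κ) (by positivity)
  refine h4.trans ?_
  have h5 : Real.log q + Real.log M + 1 ≤ (Real.log q + 1) * (Real.log M + 1) := by
    linarith only [mul_nonneg hlq hlM]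
  calc |κ| * ((q : ℝ) * M) * (Real.log q + Real.log M + 1)
      ≤ |κ| * ((q : ℝ) * M) * ((Real.log q + 1) * (Real.log M + 1)) :=
        mul_le_mul_of_nonneg_left h5 (by positivity)
    _ = _ := by ring

theorem F5AT_log_succ (q M : ℕ) (hq : 1 ≤ q) (hM : 1 ≤ M) :
    Real.log (((q * M : ℕ) : ℝ) + 1) ≤ (Real.log q + 1) * (Real.log M + 1) := by
  have hq' : (1 : ℝ) ≤ q := by exact_mod_cast hq
  have hlq : 0 ≤ Real.log (q : ℝ) := Real.log_nonneg hq'
  have hM' : (1 : ℝ) ≤ M := by exact_mod_cast hM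
  have hlM : 0 ≤ Real.log (M : ℝ) := Real.log_nonneg hM'
  have h0 : (1 : ℝ) ≤ q * M := by nlinarith only [hq', hM']
  have h1 : Real.log (((q * M : ℕ) : ℝ) + 1) ≤ Real.log (2 * (q * M)) := by
    refine Real.log_le_log (by positivity) ?_
    push_cast
    linarith only [h0]
  have h2 : Real.log (2 * ((q : ℝ) * M)) = Real.log 2 + Real.log q + Real.log M := by
    rw [Real.log_mul (by norm_num) (by positivity), Real.log_mul (by positivity) (by positivity)]
    ring
  have h3 : Real.log 2 ≤ 1 := by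
    have := Real.log_two_lt_d9
    linarith only [this]
  linarith only [h3, h2, h1, mul_nonneg hlq hlM]

theorem F5AT_LQ (q : ℕ) (hq : 1 ≤ q) : ∃ κ : ℝ, ∀ M : ℕ, 1 ≤ M →
    |(M : ℝ) * Real.log (q * M).factorial - ((q : ℝ) * (Real.log q + Real.log M) - q) *
      (M : ℝ) ^ 2| ≤ κ * ((M : ℝ) * (Real.log M + 1)) := by
  have hq' : (1 : ℝ) ≤ q := by exact_mod_cast hq
  have hlq : 0 ≤ Real.log (q : ℝ) := Real.log_nonneg hq'
  refine ⟨2 * (Real.log q + 1) + 1, fun M hM => ?_⟩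
  have hM' : (1 : ℝ) ≤ M := by exact_mod_cast hM
  have hlM : 0 ≤ Real.log (M : ℝ) := Real.log_nonneg hM'
  obtain ⟨h1, h2⟩ := F5AT_logfac (q * M)
  have h3 := F5AT_log_succ q M hq hM
  have h4 : Real.log ((q * M : ℕ) : ℝ) = Real.log q + Real.log M := by
    push_cast
    rw [Real.log_mul (by positivity) (by positivity)]
  rw [h4] at h1 h2
  push_cast at h1 h2 h3
  have h5 : (M : ℝ) * Real.log (q * M).factorial - ((q : ℝ) * (Real.log q + Real.log M) - q) *
      (M : ℝ) ^ 2 = M * (Real.log (q * M).factorial -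
        ((q : ℝ) * M * (Real.log q + Real.log M) - q * M)) := by ring
  have h6 : (2 * (Real.log q + 1) + 1) * ((M : ℝ) * (Real.log M + 1)) =
      M * ((2 * (Real.log q + 1) + 1) * (Real.log M + 1)) := by ring
  rw [h5, h6, abs_mul, abs_of_nonneg (by positivity : (0 : ℝ) ≤ M)]
  refine mul_le_mul_of_nonneg_left ?_ (by positivity)
  have h7 : 0 ≤ (Real.log q + 1) * (Real.log M + 1) := by positivity
  rw [abs_le]
  constructor
  · linarith only [hlM, h1, h7]
  · linarith only [hlM, h2, h3]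

theorem F5AT_UQ (q : ℕ) (hq : 1 ≤ q) : ∃ κ : ℝ, ∀ M : ℕ, 1 ≤ M →
    Real.log (q * M).factorial ≤ κ * ((M : ℝ) * (Real.log M + 1)) := by
  have hq' : (1 : ℝ) ≤ q := by exact_mod_cast hq
  have hlq : 0 ≤ Real.log (q : ℝ) := Real.log_nonneg hq'
  refine ⟨q * (Real.log q + 1) + (2 * (Real.log q + 1) + 1), fun M hM => ?_⟩
  have hM' : (1 : ℝ) ≤ M := by exact_mod_cast hM
  have hlM : 0 ≤ Real.log (M : ℝ) := Real.log_nonneg hM'
  obtain ⟨h1, h2⟩ := F5AT_logfac (q * M)
  have h3 := F5AT_log_succ q M hq hM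
  have h4 : Real.log ((q * M : ℕ) : ℝ) = Real.log q + Real.log M := by
    push_cast
    rw [Real.log_mul (by positivity) (by positivity)]
  rw [h4] at h1 h2
  push_cast at h1 h2 h3
  have h5 : Real.log q + Real.log M ≤ (Real.log q + 1) * (Real.log M + 1) := by
    linarith only [mul_nonneg hlq hlM]
  have h6 : (q : ℝ) * M * (Real.log q + Real.log M) ≤
      (q : ℝ) * M * ((Real.log q + 1) * (Real.log M + 1)) :=
    mul_le_mul_of_nonneg_left h5 (by positivity)
  have h7 : (0 : ℝ) ≤ (q : ℝ) * M := by positivity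
  have h8 : (Real.log q + 1) * (Real.log M + 1) ≤
      M * ((Real.log q + 1) * (Real.log M + 1)) :=
    le_mul_of_one_le_left (by positivity) hM'
  have h9 : Real.log M + 1 ≤ M * (Real.log M + 1) :=
    le_mul_of_one_le_left (by positivity) hM'
  linarith only [h9, h8, h7, h6, h3, h2, hlM]

/-! ### identities for sums of `log i!` -/

theorem F5AT_sum_shift (s n : ℕ) :
    ∑ a ∈ range n, Real.log (s + a).factorial = F5AT_G (s + n) - F5AT_G s := by
  unfold F5AT_G
  rw [sum_range_add]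
  ring

theorem F5AT_sum_two (s n : ℕ) :
    ∑ a ∈ range n, 2 * Real.log (s + 2 * a).factorial ≤ F5AT_G (s + 2 * n) - F5AT_G s := by
  induction n with
  | zero => simp
  | succ n ih =>
    rw [sum_range_succ]
    have h1 : s + 2 * (n + 1) = (s + 2 * n) + 1 + 1 := by ring
    rw [h1, F5AT_G_succ, F5AT_G_succ]
    have h2 : Real.log ((s + 2 * n).factorial : ℝ) ≤ Real.log ((s + 2 * n + 1).factorial : ℝ) := by
      refine Real.log_le_log (by positivity) ?_
      exact_mod_cast Nat.factorial_le (Nat.le_succ _)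
    linarith only [h2, ih]

theorem F5AT_sum_odd (n : ℕ) :
    ∑ k ∈ range n, 2 * Real.log (2 * k - 1).factorial + ∑ k ∈ range n, Real.log ((2 * k : ℕ) : ℝ)
      + Real.log (2 * n - 1).factorial = F5AT_G (2 * n) := by
  induction n with
  | zero => simp [F5AT_G]
  | succ n ih =>
    rw [sum_range_succ, sum_range_succ]
    have h1 : 2 * (n + 1) = 2 * n + 1 + 1 := by ring
    have h2 : 2 * (n + 1) - 1 = 2 * n + 1 := by omega
    rw [h2, h1, F5AT_G_succ, F5AT_G_succ, ← ih]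
    have h3 : Real.log ((2 * n).factorial : ℝ) =
        Real.log ((2 * n : ℕ) : ℝ) + Real.log ((2 * n - 1).factorial : ℝ) := by
      rcases Nat.eq_zero_or_pos n with h | h
      · subst h; simp
      · have h4 : (2 * n).factorial = 2 * n * (2 * n - 1).factorial :=
          (Nat.mul_factorial_pred (by omega)).symm
        rw [h4, Nat.cast_mul, Real.log_mul]
        · exact_mod_cast (by omega : 2 * n ≠ 0)
        · exact_mod_cast (Nat.factorial_pos _).ne'
    linarith only [h3]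

theorem F5AT_sum_odd_ge (n : ℕ) :
    F5AT_G (2 * n) - Real.log (2 * n).factorial - n * Real.log ((2 * n : ℕ) : ℝ) ≤
      ∑ k ∈ range n, 2 * Real.log (2 * k - 1).factorial := by
  have h1 := F5AT_sum_odd n
  have h2 : Real.log ((2 * n - 1).factorial : ℝ) ≤ Real.log ((2 * n).factorial : ℝ) := by
    refine Real.log_le_log (by positivity) ?_
    exact_mod_cast Nat.factorial_le (Nat.sub_le _ _)
  have h3 : ∑ k ∈ range n, Real.log ((2 * k : ℕ) : ℝ) ≤ n * Real.log ((2 * n : ℕ) : ℝ) := by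
    calc ∑ k ∈ range n, Real.log ((2 * k : ℕ) : ℝ)
        ≤ ∑ k ∈ range n, Real.log ((2 * n : ℕ) : ℝ) := by
          refine sum_le_sum fun k hk => ?_
          rw [mem_range] at hk
          rcases Nat.eq_zero_or_pos k with h | h
          · subst h
            simp only [Nat.mul_zero, Nat.cast_zero, Real.log_zero]
            exact Real.log_natCast_nonneg _
          · refine Real.log_le_log (by exact_mod_cast (by omega : 0 < 2 * k)) ?_
            exact_mod_cast (by omega : 2 * k ≤ 2 * n)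
      _ = _ := by rw [sum_const, card_range, nsmul_eq_mul]
  linarith

/-! ### the main terms -/

theorem F5AT_log_mul (a b : ℕ) (ha : 0 < a) (hb : 0 < b) (c : ℕ) (h : c = a * b) :
    Real.log (c : ℝ) = Real.log a + Real.log b := by
  have ha' : (0 : ℝ) < a := by exact_mod_cast ha
  have hb' : (0 : ℝ) < b := by exact_mod_cast hb
  rw [h, Nat.cast_mul, Real.log_mul ha'.ne' hb'.ne']

theorem F5AT_E : ∃ κ : ℝ, ∀ M : ℕ, 1 ≤ M →
    Real.log (5 * M).factorial + 8 * F5AT_G (2 * M) - 7 * F5AT_G (6 * M) + 6 * F5AT_G (4 * M) -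
      2 * F5AT_G (10 * M) - 2 * F5AT_G (1 * M) + 2 * F5AT_G (9 * M) + F5AT_G (14 * M) -
      F5AT_G (12 * M) + 7 * ((M : ℝ) * Real.log (2 * M).factorial) -
      7 * ((M : ℝ) * Real.log (6 * M).factorial) + 2 * ((M : ℝ) * Real.log (1 * M).factorial) +
      2 * ((M : ℝ) * Real.log (9 * M).factorial) + 14 * ((M : ℝ) * Real.log (3 * M).factorial) -
      14 * ((M : ℝ) * Real.log (7 * M).factorial) + 4 * ((M : ℝ) * Real.log (10 * M).factorial) -
      2 * ((M : ℝ) * Real.log (14 * M).factorial) + 25 * ((M : ℝ) * Real.log (4 * M).factorial) +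
      (M : ℝ) * (2 * M - 1) * (4 * Real.log M + Real.log 2500) + Real.log (14 * M).factorial +
      Real.log (10 * M).factorial + 5 * ((M : ℝ) * (Real.log 10 + Real.log M)) ≤
    (36 + 28 * Real.log 2 - 52 * Real.log 5 - 28 * Real.log 7) * (M : ℝ) ^ 2 +
      κ * ((M : ℝ) * (Real.log M + 1)) := by
  obtain ⟨g1, hg1⟩ := F5AT_GQ 1 (by norm_num)
  obtain ⟨g2, hg2⟩ := F5AT_GQ 2 (by norm_num)
  obtain ⟨g4, hg4⟩ := F5AT_GQ 4 (by norm_num)
  obtain ⟨g6, hg6⟩ := F5AT_GQ 6 (by norm_num)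
  obtain ⟨g9, hg9⟩ := F5AT_GQ 9 (by norm_num)
  obtain ⟨g10, hg10⟩ := F5AT_GQ 10 (by norm_num)
  obtain ⟨g12, hg12⟩ := F5AT_GQ 12 (by norm_num)
  obtain ⟨g14, hg14⟩ := F5AT_GQ 14 (by norm_num)
  obtain ⟨l1, hl1⟩ := F5AT_LQ 1 (by norm_num)
  obtain ⟨l2, hl2⟩ := F5AT_LQ 2 (by norm_num)
  obtain ⟨l3, hl3⟩ := F5AT_LQ 3 (by norm_num)
  obtain ⟨l4, hl4⟩ := F5AT_LQ 4 (by norm_num)
  obtain ⟨l6, hl6⟩ := F5AT_LQ 6 (by norm_num)
  obtain ⟨l7, hl7⟩ := F5AT_LQ 7 (by norm_num)
  obtain ⟨l9, hl9⟩ := F5AT_LQ 9 (by norm_num)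
  obtain ⟨l10, hl10⟩ := F5AT_LQ 10 (by norm_num)
  obtain ⟨l14, hl14⟩ := F5AT_LQ 14 (by norm_num)
  obtain ⟨u5, hu5⟩ := F5AT_UQ 5 (by norm_num)
  obtain ⟨u10, hu10⟩ := F5AT_UQ 10 (by norm_num)
  obtain ⟨u14, hu14⟩ := F5AT_UQ 14 (by norm_num)
  have k4 : Real.log ((4 : ℕ) : ℝ) = 2 * Real.log 2 := by
    rw [F5AT_log_mul 2 2 (by norm_num) (by norm_num) 4 (by norm_num)]
    push_cast; ring
  have k6 : Real.log ((6 : ℕ) : ℝ) = Real.log 2 + Real.log 3 := by
    rw [F5AT_log_mul 2 3 (by norm_num) (by norm_num) 6 (by norm_num)]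
    push_cast; ring
  have k9 : Real.log ((9 : ℕ) : ℝ) = 2 * Real.log 3 := by
    rw [F5AT_log_mul 3 3 (by norm_num) (by norm_num) 9 (by norm_num)]
    push_cast; ring
  have k10 : Real.log ((10 : ℕ) : ℝ) = Real.log 2 + Real.log 5 := by
    rw [F5AT_log_mul 2 5 (by norm_num) (by norm_num) 10 (by norm_num)]
    push_cast; ring
  have k12 : Real.log ((12 : ℕ) : ℝ) = 2 * Real.log 2 + Real.log 3 := by
    rw [F5AT_log_mul 2 6 (by norm_num) (by norm_num) 12 (by norm_num), k6]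
    push_cast; ring
  have k14 : Real.log ((14 : ℕ) : ℝ) = Real.log 2 + Real.log 7 := by
    rw [F5AT_log_mul 2 7 (by norm_num) (by norm_num) 14 (by norm_num)]
    push_cast; ring
  have k2500 : Real.log (2500 : ℝ) = 2 * Real.log 2 + 4 * Real.log 5 := by
    have h := F5AT_log_mul 50 50 (by norm_num) (by norm_num) 2500 (by norm_num)
    have h2 := F5AT_log_mul 5 10 (by norm_num) (by norm_num) 50 (by norm_num)
    rw [k10] at h2
    push_cast at h h2
    linarith only [h, h2]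
  have k10' : Real.log (10 : ℝ) = Real.log 2 + Real.log 5 := by
    have := k10
    push_cast at this
    exact this
  have hlog5 : 0 ≤ Real.log 5 := Real.log_nonneg (by norm_num)
  have hlog2 : 0 ≤ Real.log 2 := Real.log_nonneg (by norm_num)
  refine ⟨2 * g1 + 8 * g2 + 6 * g4 + 7 * g6 + 2 * g9 + 2 * g10 + g12 + g14 + 2 * l1 + 7 * l2 +
    14 * l3 + 25 * l4 + 7 * l6 + 14 * l7 + 2 * l9 + 4 * l10 + 2 * l14 + u5 + u10 + u14 +
    5 * (Real.log 2 + Real.log 5 + 1), fun M hM => ?_⟩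
  have hM' : (1 : ℝ) ≤ M := by exact_mod_cast hM
  have hlM : 0 ≤ Real.log (M : ℝ) := Real.log_nonneg hM'
  have a1 := hg1 M hM
  have a2 := hg2 M hM
  have a4 := hg4 M hM
  have a6 := hg6 M hM
  have a9 := hg9 M hM
  have a10 := hg10 M hM
  have a12 := hg12 M hM
  have a14 := hg14 M hM
  have b1 := hl1 M hM
  have b2 := hl2 M hM
  have b3 := hl3 M hM
  have b4 := hl4 M hM
  have b6 := hl6 M hM
  have b7 := hl7 M hM
  have b9 := hl9 M hM
  have b10 := hl10 M hM
  have b14 := hl14 M hM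
  have c5 := hu5 M hM
  have c10 := hu10 M hM
  have c14 := hu14 M hM
  clear hg1 hg2 hg4 hg6 hg9 hg10 hg12 hg14 hl1 hl2 hl3 hl4 hl6 hl7 hl9 hl10 hl14 hu5 hu10 hu14
  rw [k4] at a4 b4
  rw [k6] at a6 b6
  rw [k9] at a9 b9
  rw [k10] at a10 b10
  rw [k12] at a12
  rw [k14] at a14 b14
  rw [k2500, k10']
  simp only [Nat.cast_one, Real.log_one] at a1 b1
  push_cast at a1 a2 a4 a6 a9 a10 a12 a14 b1 b2 b3 b4 b6 b7 b9 b10 b14
  have a1' := (abs_le.1 a1).1
  have a2' := (abs_le.1 a2).2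
  have a4' := (abs_le.1 a4).2
  have a6' := (abs_le.1 a6).1
  have a9' := (abs_le.1 a9).2
  have a10' := (abs_le.1 a10).1
  have a12' := (abs_le.1 a12).1
  have a14' := (abs_le.1 a14).2
  have b1' := (abs_le.1 b1).2
  have b2' := (abs_le.1 b2).2
  have b3' := (abs_le.1 b3).2
  have b4' := (abs_le.1 b4).2
  have b6' := (abs_le.1 b6).1
  have b7' := (abs_le.1 b7).1
  have b9' := (abs_le.1 b9).2
  have b10' := (abs_le.1 b10).2
  have b14' := (abs_le.1 b14).1
  clear a1 a2 a4 a6 a9 a10 a12 a14 b1 b2 b3 b4 b6 b7 b9 b10 b14 k4 k6 k9 k10 k12 k14 k2500 k10'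
  have d1 : 0 ≤ (M : ℝ) * (4 * Real.log M + (2 * Real.log 2 + 4 * Real.log 5)) := by positivity
  have d2 : (M : ℝ) * (Real.log 2 + Real.log 5 + Real.log M) ≤
      (Real.log 2 + Real.log 5 + 1) * (M * (Real.log M + 1)) := by
    have : Real.log 2 + Real.log 5 + Real.log M ≤
        (Real.log 2 + Real.log 5 + 1) * (Real.log M + 1) := by
      linarith only [mul_nonneg hlog5 hlM, mul_nonneg hlog2 hlM]
    calc (M : ℝ) * (Real.log 2 + Real.log 5 + Real.log M)
        ≤ M * ((Real.log 2 + Real.log 5 + 1) * (Real.log M + 1)) :=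
          mul_le_mul_of_nonneg_left this (by positivity)
      _ = _ := by ring
  linarith only [c5, c10, c14, a1', a2', a4', a6', a9', a10', a12', a14', b1', b2', b3', b4', b6', b7', b9', b10', b14', d1, d2]

theorem F5AT_sum_id (n : ℕ) : ∑ j ∈ range n, (j : ℝ) = (n : ℝ) * (n - 1) / 2 := by
  induction n with
  | zero => simp
  | succ n ih =>
    rw [sum_range_succ, ih]
    push_cast
    ring

/-- the sum over the small rows. -/
theorem F5AT_S1 (M : ℕ) (κ : ℝ) :
    ∑ a ∈ range (2 * M), (7 * Real.log a.factorial - 7 * Real.log (4 * M + a).factorial +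
      2 * Real.log (4 * M + 2 * a).factorial + κ * Real.log M + κ) ≤
    7 * F5AT_G (2 * M) - 7 * (F5AT_G (6 * M) - F5AT_G (4 * M)) +
      (F5AT_G (8 * M) - F5AT_G (4 * M)) + 2 * κ * ((M : ℝ) * (Real.log M + 1)) := by
  have h1 := F5AT_sum_shift (4 * M) (2 * M)
  have h2 := F5AT_sum_two (4 * M) (2 * M)
  rw [show 4 * M + 2 * M = 6 * M by ring] at h1
  rw [show 4 * M + 2 * (2 * M) = 8 * M by ring] at h2
  have h3 : ∑ a ∈ range (2 * M), (7 * Real.log a.factorial -
      7 * Real.log (4 * M + a).factorial +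
      2 * Real.log (4 * M + 2 * a).factorial + κ * Real.log M + κ) =
      7 * F5AT_G (2 * M) - 7 * ∑ a ∈ range (2 * M), Real.log (4 * M + a).factorial +
      ∑ a ∈ range (2 * M), 2 * Real.log (4 * M + 2 * a).factorial +
      (2 * (M : ℝ)) * (κ * Real.log M) + (2 * (M : ℝ)) * κ := by
    simp only [sum_add_distrib, sum_sub_distrib, sum_const, card_range, nsmul_eq_mul, ← mul_sum,
      F5AT_G]
    push_cast
    ring
  rw [h3, h1]
  linarith only [h2]

/-- the sum over the middle rows. -/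
theorem F5AT_S2 (M : ℕ) (κ : ℝ) :
    ∑ i ∈ range M, (2 * Real.log (4 * M + 2 * (2 * M + i)).factorial -
      2 * Real.log (3 * M - 1 - (2 * M + i)).factorial -
      2 * Real.log (7 * M + (2 * M + i)).factorial + 7 * Real.log (2 * M).factorial -
      7 * Real.log (6 * M).factorial + 2 * Real.log M.factorial +
      2 * Real.log (9 * M).factorial + κ * Real.log M + κ) ≤
    (F5AT_G (10 * M) - F5AT_G (8 * M)) - 2 * F5AT_G M - 2 * (F5AT_G (10 * M) - F5AT_G (9 * M)) +
      (M : ℝ) * (7 * Real.log (2 * M).factorial - 7 * Real.log (6 * M).factorial +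
        2 * Real.log M.factorial + 2 * Real.log (9 * M).factorial) +
      κ * ((M : ℝ) * (Real.log M + 1)) := by
  have h1 := F5AT_sum_two (8 * M) M
  have h2 := F5AT_sum_shift (9 * M) M
  have h3 := sum_range_reflect (fun i : ℕ => Real.log (i.factorial : ℝ)) M
  rw [show 8 * M + 2 * M = 10 * M by ring] at h1
  rw [show 9 * M + M = 10 * M by ring] at h2
  have h4 : ∀ i ∈ range M, (2 * Real.log (4 * M + 2 * (2 * M + i)).factorial -
      2 * Real.log (3 * M - 1 - (2 * M + i)).factorial -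
      2 * Real.log (7 * M + (2 * M + i)).factorial + 7 * Real.log (2 * M).factorial -
      7 * Real.log (6 * M).factorial + 2 * Real.log M.factorial +
      2 * Real.log (9 * M).factorial + κ * Real.log M + κ) =
      2 * Real.log (8 * M + 2 * i).factorial - 2 * Real.log (M - 1 - i).factorial -
      2 * Real.log (9 * M + i).factorial + (7 * Real.log (2 * M).factorial -
      7 * Real.log (6 * M).factorial + 2 * Real.log M.factorial +
      2 * Real.log (9 * M).factorial + κ * Real.log M + κ) := by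
    intro i _
    rw [show 4 * M + 2 * (2 * M + i) = 8 * M + 2 * i by ring,
      show 3 * M - 1 - (2 * M + i) = M - 1 - i by omega,
      show 7 * M + (2 * M + i) = 9 * M + i by ring]
    ring
  rw [sum_congr rfl h4]
  have h5 : ∑ i ∈ range M, (2 * Real.log (8 * M + 2 * i).factorial -
      2 * Real.log (M - 1 - i).factorial -
      2 * Real.log (9 * M + i).factorial + (7 * Real.log (2 * M).factorial -
      7 * Real.log (6 * M).factorial + 2 * Real.log M.factorial +
      2 * Real.log (9 * M).factorial + κ * Real.log M + κ)) =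
      ∑ i ∈ range M, 2 * Real.log (8 * M + 2 * i).factorial -
      2 * ∑ i ∈ range M, Real.log (M - 1 - i).factorial -
      2 * ∑ i ∈ range M, Real.log (9 * M + i).factorial +
      (M : ℝ) * (7 * Real.log (2 * M).factorial -
      7 * Real.log (6 * M).factorial + 2 * Real.log M.factorial +
      2 * Real.log (9 * M).factorial + κ * Real.log M + κ) := by
    simp only [sum_add_distrib, sum_sub_distrib, sum_const, card_range, nsmul_eq_mul, ← mul_sum]
    ring
  rw [h5, h2, h3]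
  change _ - 2 * F5AT_G M - _ + _ ≤ _
  linarith only [h1]

/-- the sum over the large rows. -/
theorem F5AT_S3 (M : ℕ) (κ : ℝ) :
    ∑ j ∈ range (2 * M), (7 * Real.log (3 * M).factorial - 7 * Real.log (7 * M).factorial +
      2 * Real.log (10 * M).factorial + j * (4 * Real.log M + Real.log 2500) -
      Real.log (14 * M).factorial + Real.log j.factorial + Real.log (14 * M - j).factorial +
      κ * Real.log M + κ) =
    2 * (M : ℝ) * (7 * Real.log (3 * M).factorial - 7 * Real.log (7 * M).factorial +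
      2 * Real.log (10 * M).factorial) +
      (M : ℝ) * (2 * M - 1) * (4 * Real.log M + Real.log 2500) -
      2 * (M : ℝ) * Real.log (14 * M).factorial + F5AT_G (2 * M) +
      (F5AT_G (14 * M) + Real.log (14 * M).factorial - F5AT_G (12 * M) -
        Real.log (12 * M).factorial) + 2 * κ * ((M : ℝ) * (Real.log M + 1)) := by
  have h1 : ∑ j ∈ range (2 * M), Real.log (14 * M - j).factorial =
      F5AT_G (14 * M) + Real.log (14 * M).factorial - F5AT_G (12 * M) -
        Real.log (12 * M).factorial := by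
    rw [← sum_range_reflect]
    have h2 : ∀ j ∈ range (2 * M), Real.log ((14 * M - (2 * M - 1 - j)).factorial : ℝ) =
        Real.log ((12 * M + 1 + j).factorial : ℝ) := by
      intro j hj
      rw [mem_range] at hj
      rw [show 14 * M - (2 * M - 1 - j) = 12 * M + 1 + j by omega]
    rw [sum_congr rfl h2, F5AT_sum_shift, show 12 * M + 1 + 2 * M = 14 * M + 1 by ring,
      F5AT_G_succ, F5AT_G_succ]
    ring
  have h3 : ∑ j ∈ range (2 * M), (7 * Real.log (3 * M).factorial -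
      7 * Real.log (7 * M).factorial +
      2 * Real.log (10 * M).factorial + j * (4 * Real.log M + Real.log 2500) -
      Real.log (14 * M).factorial + Real.log j.factorial + Real.log (14 * M - j).factorial +
      κ * Real.log M + κ) =
      2 * (M : ℝ) * (7 * Real.log (3 * M).factorial - 7 * Real.log (7 * M).factorial +
      2 * Real.log (10 * M).factorial) +
      (∑ j ∈ range (2 * M), (j : ℝ)) * (4 * Real.log M + Real.log 2500) -
      2 * (M : ℝ) * Real.log (14 * M).factorial + F5AT_G (2 * M) +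
      ∑ j ∈ range (2 * M), Real.log (14 * M - j).factorial +
      2 * (M : ℝ) * (κ * Real.log M) + 2 * (M : ℝ) * κ := by
    simp only [sum_add_distrib, sum_sub_distrib, sum_const, card_range, nsmul_eq_mul, sum_mul,
      F5AT_G]
    push_cast
    ring
  rw [h3, h1, F5AT_sum_id]
  push_cast
  ring

/-- the normalization. -/
theorem F5AT_S4 (M : ℕ) (hM : 1 ≤ M) :
    ∑ k ∈ range (5 * M), (5 * Real.log (2 * (2 * M)).factorial -
      2 * Real.log (2 * k - 1).factorial) ≤
    25 * (M : ℝ) * Real.log (4 * M).factorial - (F5AT_G (10 * M) -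
      Real.log (10 * M).factorial - 5 * (M : ℝ) * (Real.log 10 + Real.log M)) := by
  have h1 := F5AT_sum_odd_ge (5 * M)
  have hM' : (0 : ℝ) < M := by exact_mod_cast hM
  have h2 : Real.log ((2 * (5 * M) : ℕ) : ℝ) = Real.log 10 + Real.log M := by
    have : ((2 * (5 * M) : ℕ) : ℝ) = 10 * M := by push_cast; ring
    rw [this, Real.log_mul (by norm_num) hM'.ne']
  rw [h2, show 2 * (5 * M) = 10 * M by ring] at h1
  rw [sum_sub_distrib, sum_const, card_range, nsmul_eq_mul, show 2 * (2 * M) = 4 * M by ring]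
  push_cast at h1 ⊢
  linarith only [h1]

theorem F5AT_const : 36 + 28 * Real.log 2 - 52 * Real.log 5 - 28 * Real.log 7 ≤ -82.7 := by
  have h2 := Real.log_two_lt_d9
  have h2' := Real.log_two_gt_d9
  have h5 : 3 * Real.log 5 = 7 * Real.log 2 + Real.log (125 / 128) := by
    have e1 : (3 : ℝ) * Real.log 5 = Real.log (5 ^ 3) := by rw [Real.log_pow]; norm_num
    have e2 : (7 : ℝ) * Real.log 2 = Real.log (2 ^ 7) := by rw [Real.log_pow]; norm_num
    rw [e1, e2, ← Real.log_mul (by norm_num) (by norm_num)]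
    norm_num
  have h5' : -(3 / 125) ≤ Real.log (125 / 128 : ℝ) := by
    have := Real.one_sub_inv_le_log_of_pos (x := (125 / 128 : ℝ)) (by norm_num)
    norm_num at this ⊢
    linarith only [this]
  have h7 : 2 * Real.log 7 = Real.log 2 + 2 * Real.log 5 + Real.log (49 / 50) := by
    have e1 : (2 : ℝ) * Real.log 7 = Real.log (7 ^ 2) := by rw [Real.log_pow]; norm_num
    have e2 : (2 : ℝ) * Real.log 5 = Real.log (5 ^ 2) := by rw [Real.log_pow]; norm_num
    rw [e1, e2, ← Real.log_mul (by norm_num) (by norm_num),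
      ← Real.log_mul (by norm_num) (by norm_num)]
    norm_num
  have h7' : -(1 / 49) ≤ Real.log (49 / 50 : ℝ) := by
    have := Real.one_sub_inv_le_log_of_pos (x := (49 / 50 : ℝ)) (by norm_num)
    norm_num at this ⊢
    linarith only [this]
  linarith only [h7', h7, h5', h5, h2', h2]

theorem F5AT_growth (κ : ℝ) : ∃ M₀ : ℕ, ∀ M ≥ M₀,
    κ * ((M : ℝ) * (Real.log M + 1)) ≤ 0.5 * (M : ℝ) ^ 2 := by
  obtain ⟨ε, hε, hε'⟩ : ∃ ε : ℝ, 0 < ε ∧ |κ| * ε ≤ 1 / 4 := by
    refine ⟨1 / (4 * (|κ| + 1)), by positivity, ?_⟩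
    rw [mul_one_div, div_le_iff₀ (by positivity)]
    have := abs_nonneg κ
    linarith []
  have h1 : ∀ᶠ M : ℕ in Filter.atTop, Real.log (M : ℝ) ≤ ε * (M : ℝ) := by
    have h2 := Real.isLittleO_log_id_atTop.def hε
    filter_upwards [tendsto_natCast_atTop_atTop.eventually h2] with M hM
    simp only [id, Real.norm_eq_abs] at hM
    rw [abs_of_nonneg (by positivity : (0 : ℝ) ≤ (M : ℝ))] at hM
    exact le_trans (le_abs_self _) hM
  have h2 : ∀ᶠ M : ℕ in Filter.atTop, (1 : ℝ) ≤ ε * (M : ℝ) := by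
    have h3 : Filter.Tendsto (fun M : ℕ => ε * (M : ℝ)) Filter.atTop Filter.atTop :=
      tendsto_natCast_atTop_atTop.const_mul_atTop hε
    exact h3.eventually_ge_atTop 1
  obtain ⟨M₀, hM₀⟩ := Filter.eventually_atTop.mp (h1.and (h2.and (Filter.eventually_ge_atTop 1)))
  refine ⟨M₀, fun M hM => ?_⟩
  obtain ⟨a1, a2, a3⟩ := hM₀ M hM
  have hM' : (1 : ℝ) ≤ M := by exact_mod_cast a3
  have hlM : 0 ≤ Real.log (M : ℝ) := Real.log_nonneg hM'
  calc κ * ((M : ℝ) * (Real.log M + 1)) ≤ |κ| * ((M : ℝ) * (Real.log M + 1)) :=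
        mul_le_mul_of_nonneg_right (le_abs_self κ) (by positivity)
    _ ≤ |κ| * ((M : ℝ) * (ε * M + ε * M)) := by
        refine mul_le_mul_of_nonneg_left ?_ (abs_nonneg κ)
        exact mul_le_mul_of_nonneg_left (add_le_add a1 a2) (by positivity)
    _ = (|κ| * ε) * (2 * (M : ℝ) ^ 2) := by ring
    _ ≤ (1 / 4) * (2 * (M : ℝ) ^ 2) := mul_le_mul_of_nonneg_right hε' (by positivity)
    _ = 0.5 * (M : ℝ) ^ 2 := by ring

/-- the total, from the determinant bound (`abs_HK5_le`, file `Det.lean`) and the bounds for the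
rows (`row_small`, `row_mid`, `row_large`, file `Rows.lean`). -/
theorem arch_total5_of_ne_of
    (habs : ∀ M : ℕ, 1 ≤ M → |HK5 (2 * M) (5 * M)| ≤ (5 * M).factorial *
      (∏ a ∈ range (3 * M), Vn M a ^ 2 * nrm (2 * M) (5 * M) (lag M a)) *
      ∏ j ∈ range (2 * M), nrm (2 * M) (5 * M) (om M * (X - C ((5 * (M : ℝ)) ^ 2)) ^ j))
    (hsmall : ∃ κ : ℝ, ∀ M a : ℕ, 1 ≤ M → a < 2 * M →
      Real.log (Vn M a ^ 2 * nrm (2 * M) (5 * M) (lag M a)) ≤
        7 * Real.log a.factorial - 7 * Real.log (4 * M + a).factorial +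
        2 * Real.log (4 * M + 2 * a).factorial + κ * Real.log M + κ)
    (hmid : ∃ κ : ℝ, ∀ M a : ℕ, 1 ≤ M → 2 * M ≤ a → a < 3 * M →
      Real.log (Vn M a ^ 2 * nrm (2 * M) (5 * M) (lag M a)) ≤
        2 * Real.log (4 * M + 2 * a).factorial - 2 * Real.log (3 * M - 1 - a).factorial -
        2 * Real.log (7 * M + a).factorial + 7 * Real.log (2 * M).factorial -
        7 * Real.log (6 * M).factorial + 2 * Real.log M.factorial +
        2 * Real.log (9 * M).factorial + κ * Real.log M + κ)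
    (hlarge : ∃ κ : ℝ, ∀ M j : ℕ, 1 ≤ M → j < 2 * M →
      Real.log (nrm (2 * M) (5 * M) (om M * (X - C ((5 * (M : ℝ)) ^ 2)) ^ j)) ≤
        7 * Real.log (3 * M).factorial - 7 * Real.log (7 * M).factorial +
        2 * Real.log (10 * M).factorial + j * (4 * Real.log M + Real.log 2500) -
        Real.log (14 * M).factorial + Real.log j.factorial + Real.log (14 * M - j).factorial +
        κ * Real.log M + κ) :
    ∃ M₀ : ℕ, ∀ M ≥ M₀, HK5 (2 * M) (5 * M) ≠ 0 →
    Real.log |HK5 (2 * M) (5 * M)| +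
      ∑ k ∈ range (5 * M), (5 * Real.log (2 * (2 * M)).factorial -
        2 * Real.log (2 * k - 1).factorial) ≤ -82.2 * (M : ℝ) ^ 2 := by
  obtain ⟨κ₁, hκ₁⟩ := hsmall
  obtain ⟨κ₂, hκ₂⟩ := hmid
  obtain ⟨κ₃, hκ₃⟩ := hlarge
  obtain ⟨κ₀, hκ₀⟩ := F5AT_E
  obtain ⟨M₁, hM₁⟩ := F5AT_growth (κ₀ + 2 * κ₁ + κ₂ + 2 * κ₃)
  refine ⟨max M₁ 1, fun M hM hne => ?_⟩
  have hM1 : 1 ≤ M := le_trans (le_max_right _ _) hM
  have hg := hM₁ M (le_trans (le_max_left _ _) hM)
  have hH := habs M hM1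
  have hpos : 0 < |HK5 (2 * M) (5 * M)| := abs_pos.2 hne
  have hprod := lt_of_lt_of_le hpos hH
  have hlog := Real.log_le_log hpos hH
  have hne1 : (∏ a ∈ range (3 * M), Vn M a ^ 2 * nrm (2 * M) (5 * M) (lag M a)) ≠ 0 := by
    intro h
    rw [h] at hprod
    simp at hprod
  have hne2 : (∏ j ∈ range (2 * M),
      nrm (2 * M) (5 * M) (om M * (X - C ((5 * (M : ℝ)) ^ 2)) ^ j)) ≠ 0 := by
    intro h
    rw [h] at hprod
    simp at hprod
  have hfne : (((5 * M).factorial : ℕ) : ℝ) ≠ 0 := by exact_mod_cast (Nat.factorial_pos _).ne'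
  rw [Real.log_mul (mul_ne_zero hfne hne1) hne2, Real.log_mul hfne hne1,
    Real.log_prod (fun a ha => Finset.prod_ne_zero_iff.1 hne1 a ha),
    Real.log_prod (fun a ha => Finset.prod_ne_zero_iff.1 hne2 a ha)] at hlog
  -- the rows
  have r12 : ∑ a ∈ range (3 * M), Real.log (Vn M a ^ 2 * nrm (2 * M) (5 * M) (lag M a)) ≤
      (∑ a ∈ range (2 * M), (7 * Real.log a.factorial - 7 * Real.log (4 * M + a).factorial +
        2 * Real.log (4 * M + 2 * a).factorial + κ₁ * Real.log M + κ₁)) +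
      ∑ i ∈ range M, (2 * Real.log (4 * M + 2 * (2 * M + i)).factorial -
        2 * Real.log (3 * M - 1 - (2 * M + i)).factorial -
        2 * Real.log (7 * M + (2 * M + i)).factorial + 7 * Real.log (2 * M).factorial -
        7 * Real.log (6 * M).factorial + 2 * Real.log M.factorial +
        2 * Real.log (9 * M).factorial + κ₂ * Real.log M + κ₂) := by
    rw [show 3 * M = 2 * M + M by ring, sum_range_add]
    refine add_le_add (sum_le_sum fun a ha => ?_) (sum_le_sum fun i hi => ?_)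
    · exact hκ₁ M a hM1 (mem_range.1 ha)
    · rw [mem_range] at hi
      have h := hκ₂ M (2 * M + i) hM1 (by omega) (by omega)
      rw [show 3 * M = 2 * M + M by ring] at h
      exact h
  have r3 : ∑ j ∈ range (2 * M),
      Real.log (nrm (2 * M) (5 * M) (om M * (X - C ((5 * (M : ℝ)) ^ 2)) ^ j)) ≤
      ∑ j ∈ range (2 * M), (7 * Real.log (3 * M).factorial - 7 * Real.log (7 * M).factorial +
      2 * Real.log (10 * M).factorial + j * (4 * Real.log M + Real.log 2500) -
      Real.log (14 * M).factorial + Real.log j.factorial + Real.log (14 * M - j).factorial +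
      κ₃ * Real.log M + κ₃) :=
    sum_le_sum fun j hj => hκ₃ M j hM1 (mem_range.1 hj)
  have s1 := F5AT_S1 M κ₁
  have s2 := F5AT_S2 M κ₂
  have s3 := F5AT_S3 M κ₃
  have s4 := F5AT_S4 M hM1
  have s0 := hκ₀ M hM1
  have hc := F5AT_const
  have hM2 : (0 : ℝ) ≤ (M : ℝ) ^ 2 := by positivity
  have hc2 := mul_le_mul_of_nonneg_right hc hM2
  have h12 : (0 : ℝ) ≤ Real.log (12 * M).factorial := Real.log_natCast_nonneg _
  rw [one_mul] at s0
  rw [s3] at r3
  linarith only [h12, hc2, s0, s4, s2, s1, r3, r12, hlog, hg]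

end Vale.Agent.P030.Five
end
end

section

section

/-! A5: Lagrange basis and the bound for the determinant (uses the Cauchy-Schwarz bound and the
trivial determinant bound as hypotheses; see `Det.lean`). -/

namespace Vale.Agent.P030.Five

open Finset Polynomial MeasureTheory Vale.Agent.P030

/-- the monic basis. -/
noncomputable def DetQ (M a : ℕ) : ℝ[X] :=
  (∏ l ∈ range (min a (3 * M)), (X - C (Tn M l))) * (X - C ((5 * (M : ℝ)) ^ 2)) ^ (a - 3 * M)

theorem DetQ_monic (M a : ℕ) : (DetQ M a).Monic := by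
  unfold DetQ
  exact (monic_prod_of_monic _ _ fun l _ => monic_X_sub_C _).mul ((monic_X_sub_C _).pow _)

theorem DetQ_natDegree (M a : ℕ) : (DetQ M a).natDegree = a := by
  unfold DetQ
  rw [(monic_prod_of_monic _ _ fun l _ => monic_X_sub_C _).natDegree_mul
    ((monic_X_sub_C _).pow _), natDegree_prod_of_monic _ _ fun l _ => monic_X_sub_C _,
    (monic_X_sub_C _).natDegree_pow]
  simp only [natDegree_X_sub_C, sum_const, card_range, smul_eq_mul, mul_one]
  omega

theorem DetQ_of_le (M a : ℕ) (h : a ≤ 3 * M) :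
    DetQ M a = ∏ l ∈ range a, (X - C (Tn M l)) := by
  unfold DetQ
  rw [min_eq_left h, Nat.sub_eq_zero_of_le h, pow_zero, mul_one]

theorem DetQ_add (M j : ℕ) :
    DetQ M (3 * M + j) = om M * (X - C ((5 * (M : ℝ)) ^ 2)) ^ j := by
  unfold DetQ om
  rw [min_eq_right (Nat.le_add_right _ _), Nat.add_sub_cancel_left]

theorem Det_Tn_injOn (M : ℕ) (s : Set ℕ) : Set.InjOn (Tn M) s := by
  intro a _ b _ h
  unfold Tn at h
  have h1 : (0 : ℝ) ≤ ((2 * M : ℕ) : ℝ) + a + 1 / 2 := by positivity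
  have h2 : (0 : ℝ) ≤ ((2 * M : ℕ) : ℝ) + b + 1 / 2 := by positivity
  have h3 := (sq_eq_sq₀ h1 h2).1 h
  have h4 : (a : ℝ) = b := by linarith only [h3]
  exact_mod_cast h4

theorem DetQ_eq_sum (M a : ℕ) (ha : a < 3 * M) :
    DetQ M a = ∑ b ∈ range (3 * M), C ((DetQ M a).eval (Tn M b)) * lag M b := by
  have h1 : (DetQ M a).degree < ((range (3 * M)).card : ℕ) := by
    rw [card_range]
    calc (DetQ M a).degree ≤ (DetQ M a).natDegree := degree_le_natDegree
      _ < ((3 * M : ℕ) : WithBot ℕ) := by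
        rw [DetQ_natDegree]; exact_mod_cast ha
  have h2 := Lagrange.eq_interpolate (f := DetQ M a) (Det_Tn_injOn M _) h1
  conv_lhs => rw [h2]
  rw [Lagrange.interpolate_apply]
  rfl

theorem DetQ_eval_of_lt (M a b : ℕ) (ha : a < 3 * M) (hb : b < a) :
    (DetQ M a).eval (Tn M b) = 0 := by
  rw [DetQ_of_le M a ha.le, eval_prod]
  exact prod_eq_zero (mem_range.2 hb) (by simp)

theorem DetQ_eval_self (M a : ℕ) (ha : a < 3 * M) :
    (DetQ M a).eval (Tn M a) = Vn M a := by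
  rw [DetQ_of_le M a ha.le, eval_prod]
  simp [Vn]

/-- the basis adapted to the scalar product. -/
noncomputable def DetB (M a : ℕ) : ℝ[X] := if a < 3 * M then lag M a else DetQ M a

/-- the transition matrix. -/
noncomputable def DetU (M a b : ℕ) : ℝ :=
  if a < 3 * M then (if b < 3 * M then (DetQ M a).eval (Tn M b) else 0)
  else if a = b then 1 else 0

theorem DetQ_eq_DetU' (M a : ℕ) (ha5 : a < 5 * M) :
    DetQ M a = ∑ b ∈ range (5 * M), DetU M a b • DetB M b := by
  by_cases ha : a < 3 * M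
  · have h53 : 5 * M = 3 * M + 2 * M := by ring
    rw [h53, sum_range_add]
    have h1 : ∑ x ∈ range (2 * M), DetU M a (3 * M + x) • DetB M (3 * M + x) = 0 := by
      refine sum_eq_zero fun x _ => ?_
      have : DetU M a (3 * M + x) = 0 := by
        unfold DetU
        rw [if_pos ha, if_neg (by omega)]
      rw [this, zero_smul]
    rw [h1, add_zero]
    conv_lhs => rw [DetQ_eq_sum M a ha]
    refine sum_congr rfl fun b hb => ?_
    have hb' := mem_range.1 hb
    unfold DetU DetB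
    rw [if_pos ha, if_pos hb', if_pos hb', smul_eq_C_mul]
  · have h1 : ∀ b ∈ range (5 * M), DetU M a b • DetB M b =
        if a = b then DetQ M b else 0 := by
      intro b _
      unfold DetU
      rw [if_neg ha]
      split_ifs with hab
      · subst hab
        unfold DetB
        rw [if_neg ha, one_smul]
      · rw [zero_smul]
    rw [sum_congr rfl h1, sum_ite_eq, if_pos (mem_range.2 ha5)]

theorem DetQ_eq_DetU (M : ℕ) (a : Fin (5 * M)) :
    DetQ M a = ∑ b : Fin (5 * M), DetU M a b • DetB M b := by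
  rw [DetQ_eq_DetU' M a a.2, Finset.sum_range]

theorem DetB_natDegree (M a : ℕ) (ha : a < 5 * M) : (DetB M a).natDegree ≤ 5 * M := by
  unfold DetB
  split_ifs with h
  · unfold lag
    refine (natDegree_prod_le _ _).trans ?_
    calc ∑ l ∈ (range (3 * M)).erase a, (C ((Tn M a - Tn M l)⁻¹) * (X - C (Tn M l))).natDegree
        ≤ ∑ l ∈ (range (3 * M)).erase a, 1 := by
          refine sum_le_sum fun l _ => ?_
          refine (natDegree_C_mul_le _ _).trans ?_
          rw [natDegree_X_sub_C]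
      _ ≤ 5 * M := by
          rw [sum_const, smul_eq_mul, mul_one]
          refine (card_erase_le).trans ?_
          rw [card_range]
          omega
  · rw [DetQ_natDegree]
    exact ha.le

theorem Det_nrm_nonneg (N c : ℕ) (A : ℝ[X]) : 0 ≤ nrm N c A := by
  unfold nrm
  refine add_nonneg (sum_nonneg fun i _ => by positivity) (integral_nonneg fun y => ?_)
  have : 0 ≤ lw N c y := by
    unfold lw
    have := Real.cosh_pos (Real.pi * y)
    positivity
  positivity

theorem Det_prod_split (M : ℕ) (F : ℕ → ℝ) :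
    ∏ a : Fin (5 * M), F a = (∏ a ∈ range (3 * M), F a) * ∏ j ∈ range (2 * M), F (3 * M + j) := by
  rw [← Finset.prod_range (fun a => F a)]
  have h53 : 5 * M = 3 * M + 2 * M := by ring
  rw [h53, prod_range_add]

theorem abs_HK5_le_of (M : ℕ)
    (hcs : ∀ A B : ℝ[X], A.natDegree + B.natDegree ≤ 5 * (2 * M) →
      |psi5 (2 * M) (A * B)| ≤
        Real.sqrt (nrm (2 * M) (5 * M) A) * Real.sqrt (nrm (2 * M) (5 * M) B))
    (hdet : ∀ (G : Matrix (Fin (5 * M)) (Fin (5 * M)) ℝ) (s : Fin (5 * M) → ℝ),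
      (∀ a, 0 ≤ s a) → (∀ a b, |G a b| ≤ Real.sqrt (s a) * Real.sqrt (s b)) →
      |G.det| ≤ (5 * M).factorial * ∏ a, s a) :
    |HK5 (2 * M) (5 * M)| ≤ (5 * M).factorial *
    (∏ a ∈ range (3 * M), Vn M a ^ 2 * nrm (2 * M) (5 * M) (lag M a)) *
    ∏ j ∈ range (2 * M), nrm (2 * M) (5 * M) (om M * (X - C ((5 * (M : ℝ)) ^ 2)) ^ j) := by
  set U : Matrix (Fin (5 * M)) (Fin (5 * M)) ℝ := Matrix.of fun a b => DetU M a b with hU
  set G : Matrix (Fin (5 * M)) (Fin (5 * M)) ℝ :=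
    Matrix.of fun a b => psi5 (2 * M) (DetB M a * DetB M b) with hG
  have h1 := HK5_eq_det (2 * M) (5 * M) (DetQ M) (DetQ_monic M) (DetQ_natDegree M)
  have hent : (Matrix.of fun a b : Fin (5 * M) => psi5 (2 * M) (DetQ M a * DetQ M b)) =
      U * G * U.transpose := by
    ext a b
    rw [Matrix.of_apply, DetQ_eq_DetU M a, DetQ_eq_DetU M b, Matrix.mul_apply]
    simp only [Matrix.mul_apply, Matrix.transpose_apply]
    rw [Finset.sum_mul_sum, map_sum]
    simp only [map_sum]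
    rw [Finset.sum_comm]
    refine Finset.sum_congr rfl fun d _ => ?_
    rw [Finset.sum_mul]
    refine Finset.sum_congr rfl fun c _ => ?_
    rw [smul_mul_smul_comm, map_smul, smul_eq_mul, hG, hU]
    simp only [Matrix.of_apply]
    ring
  have hdetU : U.det = ∏ a ∈ range (3 * M), Vn M a := by
    rw [Matrix.det_of_isUpperTriangular]
    · have : ∀ a : Fin (5 * M), U a a = (fun a : ℕ => if a < 3 * M then Vn M a else 1) a := by
        intro a
        rw [hU, Matrix.of_apply]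
        unfold DetU
        by_cases ha : (a : ℕ) < 3 * M
        · simp only [if_pos ha]
          exact DetQ_eval_self M a ha
        · simp only [if_neg ha, if_true]
      rw [prod_congr rfl fun a _ => this a,
        Det_prod_split M (fun a : ℕ => if a < 3 * M then Vn M a else 1)]
      have e1 : ∏ a ∈ range (3 * M), (fun a : ℕ => if a < 3 * M then Vn M a else 1) a =
          ∏ a ∈ range (3 * M), Vn M a :=
        prod_congr rfl fun a ha => if_pos (mem_range.1 ha)
      have e2 : ∏ j ∈ range (2 * M),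
          (fun a : ℕ => if a < 3 * M then Vn M a else 1) (3 * M + j) = 1 :=
        prod_eq_one fun j _ => if_neg (by omega)
      rw [e1, e2, mul_one]
    · intro a b hab
      have hab' : (b : ℕ) < a := by simpa using hab
      rw [hU, Matrix.of_apply]
      unfold DetU
      by_cases ha : (a : ℕ) < 3 * M
      · rw [if_pos ha, if_pos (hab'.trans ha)]
        exact DetQ_eval_of_lt M a b ha hab'
      · rw [if_neg ha, if_neg hab'.ne']
  have hGle : |G.det| ≤ (5 * M).factorial * ∏ a : Fin (5 * M), nrm (2 * M) (5 * M) (DetB M a) := by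
    refine hdet G (fun a => nrm (2 * M) (5 * M) (DetB M a)) (fun a => Det_nrm_nonneg _ _ _) ?_
    intro a b
    rw [hG, Matrix.of_apply]
    refine hcs _ _ ?_
    have ha := DetB_natDegree M a a.2
    have hb := DetB_natDegree M b b.2
    omega
  have hsplit : ∏ a : Fin (5 * M), nrm (2 * M) (5 * M) (DetB M a) =
      (∏ a ∈ range (3 * M), nrm (2 * M) (5 * M) (lag M a)) *
      ∏ j ∈ range (2 * M), nrm (2 * M) (5 * M) (om M * (X - C ((5 * (M : ℝ)) ^ 2)) ^ j) := by
    rw [Det_prod_split M (fun a => nrm (2 * M) (5 * M) (DetB M a))]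
    congr 1
    · refine prod_congr rfl fun a ha => ?_
      rw [DetB, if_pos (mem_range.1 ha)]
    · refine prod_congr rfl fun j _ => ?_
      rw [DetB, if_neg (by omega), DetQ_add]
  rw [h1, hent, Matrix.det_mul, Matrix.det_mul, Matrix.det_transpose, hdetU, abs_mul, abs_mul,
    prod_mul_distrib, prod_pow]
  rw [hsplit] at hGle
  calc |∏ a ∈ range (3 * M), Vn M a| * |G.det| * |∏ a ∈ range (3 * M), Vn M a|
      = (∏ a ∈ range (3 * M), Vn M a) ^ 2 * |G.det| := by
        rw [← sq_abs (∏ a ∈ range (3 * M), Vn M a)]; ring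
    _ ≤ (∏ a ∈ range (3 * M), Vn M a) ^ 2 * ((5 * M).factorial *
      ((∏ a ∈ range (3 * M), nrm (2 * M) (5 * M) (lag M a)) *
      ∏ j ∈ range (2 * M), nrm (2 * M) (5 * M) (om M * (X - C ((5 * (M : ℝ)) ^ 2)) ^ j))) :=
        mul_le_mul_of_nonneg_left hGle (sq_nonneg _)
    _ = _ := by ring

end Vale.Agent.P030.Five
end
end

section

section

/-! A4: Cauchy-Schwarz for the functional and the trivial determinant bound; the line identity
enters as a hypothesis here (it is removed in `Five/CS.lean`). -/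

namespace Vale.Agent.P030.Five

open Finset Polynomial MeasureTheory Vale.Agent.P030

theorem CS_cosh_ge (y : ℝ) : Real.exp |y| ≤ 2 * Real.cosh (Real.pi * y) := by
  have h1 : Real.cosh (Real.pi * y) = Real.cosh (Real.pi * |y|) := by
    rw [← Real.cosh_abs, abs_mul, abs_of_pos Real.pi_pos]
  rw [h1, Real.cosh_eq]
  have h2 : Real.exp |y| ≤ Real.exp (Real.pi * |y|) := by
    apply Real.exp_le_exp.2
    have := Real.two_le_pi
    linarith only [mul_nonneg (sub_nonneg.2 (abs_nonneg y)) (sub_nonneg.2 this), abs_nonneg y]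
  have h3 := Real.exp_pos (-(Real.pi * |y|))
  linarith

theorem CS_cosh_pos (y : ℝ) : 0 < 2 * Real.cosh (Real.pi * y) := by
  have := Real.cosh_pos (Real.pi * y)
  linarith

theorem CS_pow_mul_le (n : ℕ) (y : ℝ) :
    (1 + |y|) ^ n * (2 * Real.cosh (Real.pi * y))⁻¹ ≤
      ((n + 2).factorial * Real.exp 1) * (1 + y ^ 2)⁻¹ := by
  have h0 := abs_nonneg y
  have h1 : (1 + |y|) ^ (n + 2) / (n + 2).factorial ≤ Real.exp (1 + |y|) :=
    Real.pow_div_factorial_le_exp _ (by positivity) _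
  have hf : (0 : ℝ) < (n + 2).factorial := by exact_mod_cast Nat.factorial_pos _
  rw [div_le_iff₀ hf, Real.exp_add] at h1
  have h2 := CS_cosh_ge y
  have h3 := CS_cosh_pos y
  have h4 : (0 : ℝ) < 1 + y ^ 2 := by positivity
  rw [← div_eq_mul_inv, ← div_eq_mul_inv, div_le_div_iff₀ h3 h4]
  have h5 : 1 + y ^ 2 ≤ (1 + |y|) ^ 2 := by
    rw [← sq_abs y]
    linarith only [h0]
  calc (1 + |y|) ^ n * (1 + y ^ 2) ≤ (1 + |y|) ^ n * (1 + |y|) ^ 2 := by gcongr
    _ = (1 + |y|) ^ (n + 2) := by ring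
    _ ≤ Real.exp 1 * Real.exp |y| * (n + 2).factorial := h1
    _ = (n + 2).factorial * Real.exp 1 * Real.exp |y| := by ring
    _ ≤ (n + 2).factorial * Real.exp 1 * (2 * Real.cosh (Real.pi * y)) := by gcongr

theorem CS_norm_ltp_le (c : ℕ) (y : ℝ) : ‖ltp c y‖ ≤ (c + 1) * (1 + |y|) := by
  have h1 : ‖ltp c y‖ ≤ c + |y| := by
    unfold ltp
    refine (norm_add_le _ _).trans ?_
    simp
  have := abs_nonneg y
  have hc : (0 : ℝ) ≤ c := by positivity
  linarith only [h1, mul_nonneg hc this]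

theorem CS_continuous_ltp (c : ℕ) : Continuous (ltp c) := by
  unfold ltp
  fun_prop

theorem CS_one_le_norm_sub (N c : ℕ) (hN : N < c) (y : ℝ) (j : ℤ) (hj : j ∈ Icc (-(N : ℤ)) N) :
    1 ≤ ‖ltp c y - (j : ℂ)‖ := by
  have h1 : (ltp c y - (j : ℂ)).re = (c : ℝ) - j := by
    simp [ltp]
  have h2 : (j : ℝ) + 1 ≤ c := by
    have : j + 1 ≤ (c : ℤ) := by
      have := (Finset.mem_Icc.1 hj).2
      omega
    exact_mod_cast this
  calc (1 : ℝ) ≤ (c : ℝ) - j := by linarith only [h2]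
    _ = (ltp c y - (j : ℂ)).re := h1.symm
    _ ≤ ‖ltp c y - (j : ℂ)‖ := Complex.re_le_norm _

theorem CS_one_le_norm_prod (N c : ℕ) (hN : N < c) (y : ℝ) :
    1 ≤ ‖∏ j ∈ Icc (-(N : ℤ)) N, (ltp c y - (j : ℂ))‖ := by
  rw [norm_prod]
  calc (1 : ℝ) = ∏ _j ∈ Icc (-(N : ℤ)) N, (1 : ℝ) := by rw [Finset.prod_const_one]
    _ ≤ _ := Finset.prod_le_prod (fun _ _ => zero_le_one)
      fun j hj => CS_one_le_norm_sub N c hN y j hj

theorem CS_norm_fC_le (N c : ℕ) (hN : N < c) (y : ℝ) :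
    ‖fC N (ltp c y)‖ ≤ (c + 1) * (1 + |y|) := by
  unfold fC
  rw [norm_div, norm_pow]
  refine (div_le_self (norm_nonneg _) ?_).trans (CS_norm_ltp_le c y)
  exact one_le_pow₀ (CS_one_le_norm_prod N c hN y)

theorem CS_continuous_fC (N c : ℕ) (hN : N < c) : Continuous fun y => fC N (ltp c y) := by
  unfold fC
  have h := CS_continuous_ltp c
  refine Continuous.div h ?_ ?_
  · exact (continuous_finsetProd _ fun j _ => h.sub continuous_const).pow 5
  · intro y
    apply pow_ne_zero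
    intro h0
    have := CS_one_le_norm_prod N c hN y
    rw [h0, norm_zero] at this
    linarith only [this]

theorem CS_norm_aeval_le (c : ℕ) (A : ℝ[X]) : ∃ C : ℝ, ∀ y : ℝ,
    ‖aeval (ltp c y ^ 2) A‖ ≤ C * (1 + |y|) ^ (2 * A.natDegree) := by
  refine ⟨∑ k ∈ range (A.natDegree + 1), |A.coeff k| * ((c : ℝ) + 1) ^ (2 * k), fun y => ?_⟩
  rw [aeval_eq_sum_range, Finset.sum_mul]
  refine (norm_sum_le _ _).trans (Finset.sum_le_sum fun k hk => ?_)
  have hk' : k ≤ A.natDegree := Nat.lt_succ_iff.1 (Finset.mem_range.1 hk)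
  rw [norm_smul, Real.norm_eq_abs, mul_assoc]
  refine mul_le_mul_of_nonneg_left ?_ (abs_nonneg _)
  rw [← pow_mul, norm_pow]
  have hy := abs_nonneg y
  calc ‖ltp c y‖ ^ (2 * k) ≤ (((c : ℝ) + 1) * (1 + |y|)) ^ (2 * k) := by
        gcongr
        exact CS_norm_ltp_le c y
    _ = ((c : ℝ) + 1) ^ (2 * k) * (1 + |y|) ^ (2 * k) := by rw [mul_pow]
    _ ≤ ((c : ℝ) + 1) ^ (2 * k) * (1 + |y|) ^ (2 * A.natDegree) := by
        gcongr
        linarith only [hy]

theorem CS_continuous_aeval (c : ℕ) (A : ℝ[X]) : Continuous fun y => aeval (ltp c y ^ 2) A := by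
  have h := CS_continuous_ltp c
  simp only [aeval_eq_sum_range]
  exact continuous_finsetSum _ fun k _ => by fun_prop

theorem CS_continuous_lw (N c : ℕ) (hN : N < c) : Continuous (lw N c) := by
  unfold lw
  refine (CS_continuous_fC N c hN).norm.mul (Continuous.inv₀ (by fun_prop) fun y => ?_)
  exact (CS_cosh_pos y).ne'

theorem CS_lw_nonneg (N c : ℕ) (y : ℝ) : 0 ≤ lw N c y :=
  mul_nonneg (norm_nonneg _) (inv_nonneg.2 (CS_cosh_pos y).le)

theorem integrable_lw (N c : ℕ) (hN : N < c) (A B : ℝ[X]) :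
    Integrable fun y : ℝ => lw N c y * (‖aeval (ltp c y ^ 2) A‖ * ‖aeval (ltp c y ^ 2) B‖) := by
  obtain ⟨CA, hA⟩ := CS_norm_aeval_le c A
  obtain ⟨CB, hB⟩ := CS_norm_aeval_le c B
  set n := 1 + 2 * A.natDegree + 2 * B.natDegree with hn
  have hmaj : Integrable fun y : ℝ =>
      ((c + 1) * CA * CB * ((n + 2).factorial * Real.exp 1)) * (1 + y ^ 2)⁻¹ :=
    integrable_inv_one_add_sq.const_mul _
  refine hmaj.mono' ?_ (Filter.Eventually.of_forall fun y => ?_)
  · exact (((CS_continuous_lw N c hN)).mul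
      ((CS_continuous_aeval c A).norm.mul (CS_continuous_aeval c B).norm)).aestronglyMeasurable
  · have hCA : 0 ≤ CA := by
      have := (norm_nonneg _).trans (hA 0)
      simpa using this
    have hCB : 0 ≤ CB := by
      have := (norm_nonneg _).trans (hB 0)
      simpa using this
    have h3 := CS_cosh_pos y
    have hy := abs_nonneg y
    rw [Real.norm_eq_abs, abs_of_nonneg (mul_nonneg (CS_lw_nonneg N c y) (by positivity))]
    unfold lw
    calc ‖fC N (ltp c y)‖ * (2 * Real.cosh (Real.pi * y))⁻¹ *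
          (‖aeval (ltp c y ^ 2) A‖ * ‖aeval (ltp c y ^ 2) B‖)
        ≤ ((c + 1) * (1 + |y|)) * (2 * Real.cosh (Real.pi * y))⁻¹ *
          ((CA * (1 + |y|) ^ (2 * A.natDegree)) * (CB * (1 + |y|) ^ (2 * B.natDegree))) := by
          gcongr
          · exact CS_norm_fC_le N c hN y
          · exact hA y
          · exact hB y
      _ = ((c + 1) * CA * CB) * ((1 + |y|) ^ n * (2 * Real.cosh (Real.pi * y))⁻¹) := by
          rw [hn, pow_add, pow_add, pow_one]
          ring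
      _ ≤ ((c + 1) * CA * CB) * (((n + 2).factorial * Real.exp 1) * (1 + y ^ 2)⁻¹) := by
          exact mul_le_mul_of_nonneg_left (CS_pow_mul_le n y) (by positivity)
      _ = _ := by ring

theorem CS_nrm_nonneg (N c : ℕ) (A : ℝ[X]) : 0 ≤ nrm N c A := by
  unfold nrm
  refine add_nonneg (Finset.sum_nonneg fun i _ => mul_nonneg (abs_nonneg _) (sq_nonneg _)) ?_
  exact integral_nonneg fun y => mul_nonneg (CS_lw_nonneg N c y) (sq_nonneg _)

theorem CS_opt (a b x : ℝ) (ha : 0 ≤ a) (hb : 0 ≤ b)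
    (h : ∀ s : ℝ, 0 < s → x ≤ (s * a + s⁻¹ * b) / 2) : x ≤ √a * √b := by
  rcases ha.eq_or_lt with ha0 | ha0
  · subst ha0
    rw [Real.sqrt_zero, zero_mul]
    by_contra hx
    push Not at hx
    rcases hb.eq_or_lt with hb0 | hb0
    · have := h 1 one_pos
      rw [← hb0] at this
      norm_num at this
      linarith
    · have := h (b / x) (by positivity)
      rw [inv_div, mul_zero, zero_add, div_mul_cancel₀ _ hb0.ne'] at this
      linarith
  · rcases hb.eq_or_lt with hb0 | hb0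
    · subst hb0
      rw [Real.sqrt_zero, mul_zero]
      by_contra hx
      push Not at hx
      have := h (x / a) (by positivity)
      rw [mul_zero, add_zero, div_mul_cancel₀ _ ha0.ne'] at this
      linarith
    · have h1 := Real.sqrt_pos.2 ha0
      have h2 := Real.sqrt_pos.2 hb0
      have h3 := h (√b / √a) (by positivity)
      have e1 : √b / √a * a = √a * √b := by
        nth_rewrite 2 [← Real.mul_self_sqrt ha0.le]
        field_simp
      have e2 : (√b / √a)⁻¹ * b = √a * √b := by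
        rw [inv_div]
        nth_rewrite 2 [← Real.mul_self_sqrt hb0.le]
        field_simp
      rw [e1, e2] at h3
      linarith only [h3]

theorem CS_abs_psi5_mul_le_of (N c : ℕ) (hN : N < c) (A B : ℝ[X])
    (hl : ((psi5 N (A * B) -
      ∑ i ∈ range (c - N), wt5 N i * (A * B).eval (((N : ℝ) + i + 1 / 2) ^ 2) : ℝ) : ℂ) =
      (-1 : ℂ) ^ c * ∫ y : ℝ, fC N (ltp c y) * aeval (ltp c y ^ 2) (A * B) *
        (((2 * Real.cosh (Real.pi * y))⁻¹ : ℝ) : ℂ)) :
    |psi5 N (A * B)| ≤ Real.sqrt (nrm N c A) * Real.sqrt (nrm N c B) := by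
  have hI := integrable_lw N c hN A B
  have hIA := integrable_lw N c hN A A
  have hIB := integrable_lw N c hN B B
  set tau : ℕ → ℝ := fun i => (N : ℝ) + i + 1 / 2 with htau
  have h1 : |psi5 N (A * B)| ≤ (∑ i ∈ range (c - N), |f5 N (tau i)| *
      (|A.eval (tau i ^ 2)| * |B.eval (tau i ^ 2)|)) +
      ∫ y : ℝ, lw N c y * (‖aeval (ltp c y ^ 2) A‖ * ‖aeval (ltp c y ^ 2) B‖) := by
    have h2 : |psi5 N (A * B) -
        ∑ i ∈ range (c - N), wt5 N i * (A * B).eval (((N : ℝ) + i + 1 / 2) ^ 2)| ≤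
        ∫ y : ℝ, lw N c y * (‖aeval (ltp c y ^ 2) A‖ * ‖aeval (ltp c y ^ 2) B‖) := by
      rw [← Real.norm_eq_abs, ← Complex.norm_real, hl, norm_mul, norm_pow, norm_neg, norm_one,
        one_pow, one_mul]
      refine (norm_integral_le_integral_norm _).trans (le_of_eq ?_)
      refine integral_congr_ae (Filter.Eventually.of_forall fun y => ?_)
      have h3 := CS_cosh_pos y
      simp only [map_mul, norm_mul, Complex.norm_real, Real.norm_eq_abs]
      unfold lw
      rw [abs_of_pos (inv_pos.2 h3)]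
      ring
    have h4 : |∑ i ∈ range (c - N), wt5 N i * (A * B).eval (((N : ℝ) + i + 1 / 2) ^ 2)| ≤
        ∑ i ∈ range (c - N), |f5 N (tau i)| * (|A.eval (tau i ^ 2)| * |B.eval (tau i ^ 2)|) := by
      refine (Finset.abs_sum_le_sum_abs _ _).trans (le_of_eq ?_)
      refine Finset.sum_congr rfl fun i _ => ?_
      rw [eval_mul, abs_mul, abs_mul]
      congr 1
      unfold wt5
      rw [abs_mul, abs_pow, abs_neg, abs_one, one_pow, one_mul]
    have h5 := abs_add_le (psi5 N (A * B) -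
      ∑ i ∈ range (c - N), wt5 N i * (A * B).eval (((N : ℝ) + i + 1 / 2) ^ 2))
      (∑ i ∈ range (c - N), wt5 N i * (A * B).eval (((N : ℝ) + i + 1 / 2) ^ 2))
    rw [sub_add_cancel] at h5
    linarith only [h2, h4, h5]
  refine CS_opt _ _ _ (CS_nrm_nonneg N c A) (CS_nrm_nonneg N c B) fun s hs => h1.trans ?_
  have hyoung : ∀ u v : ℝ, u * v ≤ (s * (u * u) + s⁻¹ * (v * v)) / 2 := by
    intro u v
    have hs' : s * s⁻¹ = 1 := mul_inv_cancel₀ hs.ne'
    have h6 : 0 ≤ s⁻¹ * (s * u - v) ^ 2 := mul_nonneg (inv_nonneg.2 hs.le) (sq_nonneg _)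
    have h7 : s⁻¹ * (s * u - v) ^ 2 = (s * s⁻¹) * (s * (u * u)) - 2 * (s * s⁻¹) * (u * v) +
      s⁻¹ * (v * v) := by ring
    rw [h7, hs'] at h6
    linarith only [h6]
  have h8 : ∑ i ∈ range (c - N), |f5 N (tau i)| * (|A.eval (tau i ^ 2)| * |B.eval (tau i ^ 2)|) ≤
      (s * (∑ i ∈ range (c - N), |f5 N (tau i)| * (A.eval (tau i ^ 2)) ^ 2) +
      s⁻¹ * (∑ i ∈ range (c - N), |f5 N (tau i)| * (B.eval (tau i ^ 2)) ^ 2)) / 2 := by
    rw [Finset.mul_sum, Finset.mul_sum, ← Finset.sum_add_distrib, Finset.sum_div]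
    refine Finset.sum_le_sum fun i _ => ?_
    have h9 := mul_le_mul_of_nonneg_left (hyoung |A.eval (tau i ^ 2)| |B.eval (tau i ^ 2)|)
      (abs_nonneg (f5 N (tau i)))
    rw [abs_mul_abs_self, abs_mul_abs_self] at h9
    refine h9.trans (le_of_eq ?_)
    ring
  have h10 : ∫ y : ℝ, lw N c y * (‖aeval (ltp c y ^ 2) A‖ * ‖aeval (ltp c y ^ 2) B‖) ≤
      (s * (∫ y : ℝ, lw N c y * ‖aeval (ltp c y ^ 2) A‖ ^ 2) +
      s⁻¹ * (∫ y : ℝ, lw N c y * ‖aeval (ltp c y ^ 2) B‖ ^ 2)) / 2 := by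
    have e : (s * (∫ y : ℝ, lw N c y * ‖aeval (ltp c y ^ 2) A‖ ^ 2) +
        s⁻¹ * (∫ y : ℝ, lw N c y * ‖aeval (ltp c y ^ 2) B‖ ^ 2)) / 2 =
        ∫ y : ℝ, (s * (lw N c y * (‖aeval (ltp c y ^ 2) A‖ * ‖aeval (ltp c y ^ 2) A‖)) +
          s⁻¹ * (lw N c y * (‖aeval (ltp c y ^ 2) B‖ * ‖aeval (ltp c y ^ 2) B‖))) / 2 := by
      rw [integral_div, integral_add (hIA.const_mul s) (hIB.const_mul s⁻¹), integral_const_mul,
        integral_const_mul]
      simp only [sq]
    rw [e]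
    refine integral_mono hI (((hIA.const_mul s).add (hIB.const_mul s⁻¹)).div_const 2) fun y => ?_
    have h9 := mul_le_mul_of_nonneg_left
      (hyoung ‖aeval (ltp c y ^ 2) A‖ ‖aeval (ltp c y ^ 2) B‖) (CS_lw_nonneg N c y)
    refine h9.trans (le_of_eq ?_)
    ring
  unfold nrm
  have := add_le_add h8 h10
  refine this.trans (le_of_eq ?_)
  ring

/-- trivial determinant bound. -/
theorem abs_det_le {K : ℕ} (G : Matrix (Fin K) (Fin K) ℝ) (s : Fin K → ℝ) (hs : ∀ a, 0 ≤ s a)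
    (h : ∀ a b, |G a b| ≤ Real.sqrt (s a) * Real.sqrt (s b)) :
    |G.det| ≤ K.factorial * ∏ a, s a := by
  rw [Matrix.det_apply]
  calc |∑ σ : Equiv.Perm (Fin K), Equiv.Perm.sign σ • ∏ i, G (σ i) i|
      ≤ ∑ σ : Equiv.Perm (Fin K), |Equiv.Perm.sign σ • ∏ i, G (σ i) i| :=
        Finset.abs_sum_le_sum_abs _ _
    _ ≤ ∑ _σ : Equiv.Perm (Fin K), ∏ i : Fin K, s i := by
        refine Finset.sum_le_sum fun σ _ => ?_
        have h1 : |Equiv.Perm.sign σ • ∏ i, G (σ i) i| = ∏ i : Fin K, |G (σ i) i| := by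
          rw [← Finset.abs_prod]
          rcases Int.units_eq_one_or (Equiv.Perm.sign σ) with h | h <;> rw [h] <;> simp
        rw [h1]
        calc ∏ i : Fin K, |G (σ i) i|
            ≤ ∏ i : Fin K, (√(s (σ i)) * √(s i)) :=
              Finset.prod_le_prod (fun _ _ => abs_nonneg _) fun i _ => h _ _
          _ = (∏ i : Fin K, √(s (σ i))) * ∏ i : Fin K, √(s i) :=
              Finset.prod_mul_distrib
          _ = (∏ i : Fin K, √(s i)) * ∏ i : Fin K, √(s i) := by
              rw [Equiv.prod_comp σ fun i : Fin K => √(s i)]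
          _ = ∏ i : Fin K, s i := by
              rw [← Finset.prod_mul_distrib]
              exact Finset.prod_congr rfl fun i _ => Real.mul_self_sqrt (hs i)
    _ = K.factorial * ∏ a, s a := by
        rw [Finset.sum_const, Finset.card_univ, Fintype.card_perm, Fintype.card_fin,
          nsmul_eq_mul]

end Vale.Agent.P030.Five
end
end

section

section

/-! A0: Fourier transform of `sech`. -/

namespace Vale.Agent.P030.Five

open Finset Polynomial MeasureTheory Vale.Agent.P030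

theorem Sech_integrable_exp_abs : Integrable fun y : ℝ => Real.exp (-Real.pi * |y|) := by
  have hpi := Real.pi_pos
  have hR : IntegrableOn (fun y : ℝ => Real.exp (-Real.pi * |y|)) (Set.Ioi 0) := by
    refine (integrableOn_exp_mul_Ioi (a := -Real.pi) (by linarith) 0).congr_fun ?_
      measurableSet_Ioi
    intro y hy
    simp only [abs_of_pos (Set.mem_Ioi.mp hy)]
  have hL : IntegrableOn (fun y : ℝ => Real.exp (-Real.pi * |y|)) (Set.Iic 0) := by
    refine (integrableOn_exp_mul_Iic (a := Real.pi) (by linarith) 0).congr_fun ?_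
      measurableSet_Iic
    intro y hy
    simp only [abs_of_nonpos (Set.mem_Iic.mp hy), mul_neg, neg_mul, neg_neg]
  have := hL.union hR
  rwa [Set.Iic_union_Ioi, integrableOn_univ] at this

theorem integrable_sech : Integrable fun y : ℝ => (2 * Real.cosh (Real.pi * y))⁻¹ := by
  refine Sech_integrable_exp_abs.mono' ?_ ?_
  · refine (Continuous.inv₀ ?_ ?_).aestronglyMeasurable
    · fun_prop
    · intro y
      have := Real.cosh_pos (Real.pi * y)
      positivity
  · refine Filter.Eventually.of_forall fun y => ?_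
    have hc := Real.cosh_pos (Real.pi * y)
    have hpi := Real.pi_pos
    rw [Real.norm_of_nonneg (by positivity)]
    have h2 : Real.exp (Real.pi * |y|) ≤ 2 * Real.cosh (Real.pi * y) := by
      have h3 : Real.cosh (Real.pi * y) = Real.cosh (Real.pi * |y|) := by
        rcases abs_cases y with h | h
        · rw [h.1]
        · rw [h.1, mul_neg, Real.cosh_neg]
      rw [h3, Real.cosh_eq]
      have := Real.exp_pos (-(Real.pi * |y|))
      linarith only [this]
    have h4 : -Real.pi * |y| = -(Real.pi * |y|) := by ring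
    rw [h4, Real.exp_neg]
    exact inv_anti₀ (Real.exp_pos _) h2

/-- the Beta integral in logistic coordinates. -/
theorem Sech_beta (u : ℂ) :
    Complex.betaIntegral u (1 - u) = ∫ y : ℝ, (2 * Real.pi : ℂ) *
      Complex.exp (2 * Real.pi * y * u) * (((1 + Real.exp (2 * Real.pi * y))⁻¹ : ℝ) : ℂ) := by
  have hpi := Real.pi_pos
  set f : ℝ → ℝ := fun y => Real.sigmoid (2 * Real.pi * y) with hf
  have himg : f '' Set.univ = Set.Ioo 0 1 := by
    rw [Set.image_univ, ← Real.range_sigmoid]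
    ext s
    constructor
    · rintro ⟨y, rfl⟩
      exact ⟨_, rfl⟩
    · rintro ⟨y, rfl⟩
      refine ⟨y / (2 * Real.pi), ?_⟩
      simp only [hf]
      congr 1
      field_simp
  have hder : ∀ y ∈ Set.univ, HasDerivWithinAt f
      (f y * (1 - f y) * (2 * Real.pi)) Set.univ y := by
    intro y _
    have h1 := (Real.hasDerivAt_sigmoid (2 * Real.pi * y)).comp y
      ((hasDerivAt_id y).const_mul (2 * Real.pi))
    refine (HasDerivAt.hasDerivWithinAt ?_)
    simpa [hf, Function.comp_def] using h1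
  have hinj : Set.InjOn f Set.univ := by
    intro a _ b _ hab
    have := Real.sigmoid_injective hab
    have h2 : (2 * Real.pi) ≠ 0 := by positivity
    exact mul_left_cancel₀ h2 this
  have key := integral_image_eq_integral_abs_deriv_smul MeasurableSet.univ hder hinj
    (fun s : ℝ => (s : ℂ) ^ (u - 1) * (1 - (s : ℂ)) ^ ((1 - u) - 1))
  rw [himg] at key
  rw [Complex.betaIntegral, intervalIntegral.integral_of_le zero_le_one,
    integral_Ioc_eq_integral_Ioo, key, Measure.restrict_univ]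
  refine integral_congr_ae (Filter.Eventually.of_forall fun y => ?_)
  simp only
  have hE := Real.exp_pos (2 * Real.pi * y)
  have hs0 : 0 < f y := Real.sigmoid_pos _
  have hs1 : 0 < 1 - f y := by
    have := Real.sigmoid_lt_one (2 * Real.pi * y)
    simp only [hf]; linarith only [this]
  have h1s : 1 - f y = (1 + Real.exp (2 * Real.pi * y))⁻¹ := by
    simp only [hf]
    rw [← Real.sigmoid_neg, Real.sigmoid_def, neg_neg]
  have hfs : f y = Real.exp (2 * Real.pi * y) * (1 - f y) := by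
    simp only [hf]
    rw [← Real.sigmoid_neg, ← Real.sigmoid_mul_rexp_neg, mul_left_comm, ← Real.exp_add]
    simp
  have habs : |f y * (1 - f y) * (2 * Real.pi)| = f y * (1 - f y) * (2 * Real.pi) :=
    abs_of_pos (by positivity)
  rw [habs]
  set L : ℝ := Real.log (1 - f y) with hL
  have hlog : Real.log (f y) = 2 * Real.pi * y + L := by
    rw [hfs, Real.log_mul hE.ne' hs1.ne', Real.log_exp]
  have hexpL : Real.exp L = 1 - f y := Real.exp_log hs1
  have hexpf : Real.exp (2 * Real.pi * y + L) = f y := by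
    rw [← hlog, Real.exp_log hs0]
  have c1 : ((f y : ℝ) : ℂ) ^ (u - 1) = Complex.exp (((2 * Real.pi * y + L : ℝ) : ℂ) * (u - 1)) := by
    rw [Complex.cpow_def_of_ne_zero (by exact_mod_cast hs0.ne'), ← Complex.ofReal_log hs0.le, hlog]
  have c2 : (1 - (f y : ℂ)) ^ ((1 - u) - 1) = Complex.exp ((L : ℂ) * (-u)) := by
    have h0 : (1 - (f y : ℂ)) = ((1 - f y : ℝ) : ℂ) := by push_cast; rfl
    rw [h0, Complex.cpow_def_of_ne_zero (by exact_mod_cast hs1.ne'),
      ← Complex.ofReal_log hs1.le]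
    congr 1
    ring
  rw [c1, c2, ← h1s, ← hexpL]
  rw [Complex.real_smul]
  have e1 : ((f y * Real.exp L * (2 * Real.pi) : ℝ) : ℂ) =
      Complex.exp (((2 * Real.pi * y + L : ℝ) : ℂ)) * Complex.exp ((L : ℝ) : ℂ) *
        (2 * Real.pi : ℂ) := by
    conv_lhs => rw [← hexpf]
    push_cast
    rfl
  have e2 : ((Real.exp L : ℝ) : ℂ) = Complex.exp ((L : ℝ) : ℂ) := by push_cast; rfl
  rw [e1, e2]
  have e3 : Complex.exp (2 * Real.pi * y * u) =
    Complex.exp ((2 * Real.pi * y + L : ℝ) : ℂ) *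
      Complex.exp (((2 * Real.pi * y + L : ℝ) : ℂ) * (u - 1)) * Complex.exp ((L : ℂ) * (-u)) := by
    rw [← Complex.exp_add, ← Complex.exp_add]
    congr 1
    push_cast
    ring
  rw [e3]
  ring

theorem fourier_sech (x : ℝ) :
    ∫ y : ℝ, Complex.exp (-((x * y : ℝ) : ℂ) * Complex.I) *
      (((2 * Real.cosh (Real.pi * y))⁻¹ : ℝ) : ℂ) = (((2 * Real.cosh (x / 2))⁻¹ : ℝ) : ℂ) := by
  have hpi := Real.pi_pos
  have hpi' : (Real.pi : ℂ) ≠ 0 := by exact_mod_cast hpi.ne'
  set u : ℂ := 1 / 2 - Complex.I * x / (2 * Real.pi) with hu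
  have hure : u.re = 1 / 2 := by
    rw [hu]
    have h1 : Complex.I * (x : ℂ) / (2 * Real.pi) = ((x / (2 * Real.pi) : ℝ) : ℂ) * Complex.I := by
      push_cast
      field_simp
    rw [h1, Complex.sub_re, Complex.re_ofReal_mul, Complex.I_re, mul_zero, sub_zero]
    norm_num
  have hG := Complex.Gamma_mul_Gamma_eq_betaIntegral (s := u) (t := 1 - u)
    (by rw [hure]; norm_num) (by rw [Complex.sub_re, hure]; norm_num)
  have h1 : u + (1 - u) = 1 := by ring
  rw [h1, Complex.Gamma_one, one_mul, Complex.Gamma_mul_Gamma_one_sub] at hG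
  have hsin : Complex.sin (Real.pi * u) = Complex.cosh (x / 2) := by
    have h2 : (Real.pi : ℂ) * u = Real.pi / 2 - (x / 2) * Complex.I := by
      rw [hu]; field_simp
    rw [h2, Complex.sin_pi_div_two_sub, Complex.cos_mul_I]
  rw [hsin, Sech_beta] at hG
  have h3 : ∀ y : ℝ, (2 * Real.pi : ℂ) *
      Complex.exp (2 * Real.pi * y * u) * (((1 + Real.exp (2 * Real.pi * y))⁻¹ : ℝ) : ℂ) =
      (2 * Real.pi : ℂ) * (Complex.exp (-((x * y : ℝ) : ℂ) * Complex.I) *
      (((2 * Real.cosh (Real.pi * y))⁻¹ : ℝ) : ℂ)) := by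
    intro y
    have h4 : 2 * Real.pi * y * u = ((Real.pi * y : ℝ) : ℂ) + (-((x * y : ℝ) : ℂ) * Complex.I) := by
      rw [hu]; push_cast; field_simp; ring
    have h5 : (2 * Real.cosh (Real.pi * y))⁻¹ =
        Real.exp (Real.pi * y) * (1 + Real.exp (2 * Real.pi * y))⁻¹ := by
      have h6 : Real.exp (2 * Real.pi * y) = Real.exp (Real.pi * y) * Real.exp (Real.pi * y) := by
        rw [← Real.exp_add]; congr 1; ring
      rw [Real.cosh_eq, h6, Real.exp_neg]
      have := Real.exp_pos (Real.pi * y)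
      field_simp
      ring
    rw [h4, h5, Complex.exp_add]
    push_cast
    ring
  simp_rw [h3] at hG
  rw [integral_const_mul] at hG
  have h7 : Complex.cosh (x / 2) = ((Real.cosh (x / 2) : ℝ) : ℂ) := by push_cast; rfl
  rw [h7] at hG
  have hc := Real.cosh_pos (x / 2)
  have hc' : ((Real.cosh (x / 2) : ℝ) : ℂ) ≠ 0 := by exact_mod_cast hc.ne'
  have h8 : (2 * Real.pi : ℂ) ≠ 0 := mul_ne_zero two_ne_zero hpi'
  have h9 : (2 * Real.pi : ℂ) * (((2 * Real.cosh (x / 2))⁻¹ : ℝ) : ℂ) =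
      Real.pi / ((Real.cosh (x / 2) : ℝ) : ℂ) := by
    push_cast at hc' ⊢
    field_simp
  exact mul_left_cancel₀ h8 (hG.symm.trans h9.symm)

end Vale.Agent.P030.Five
end
end

section

section

/-! A1: the tail of an alternating series as an integral over the line. -/

namespace Vale.Agent.P030.Five

open Finset Polynomial MeasureTheory Vale.Agent.P030

/-- the kernel `x^k / k! e^{-r x}` -/
noncomputable def TailK (k : ℕ) (r : ℂ) (x : ℝ) : ℂ :=
  (x : ℂ) ^ k / (k.factorial : ℂ) * Complex.exp (-(r * x))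

theorem Tail_norm (k : ℕ) (r : ℂ) (x : ℝ) (hx : 0 < x) :
    ‖TailK k r x‖ = x ^ k / k.factorial * Real.exp (-(r.re * x)) := by
  rw [TailK, norm_mul, norm_div, norm_pow, Complex.norm_real, Complex.norm_natCast,
    Complex.norm_exp, Real.norm_of_nonneg hx.le]
  congr 2
  simp

theorem Tail_integrable (k : ℕ) (r : ℂ) (hr : 0 < r.re) :
    IntegrableOn (TailK k r) (Set.Ioi (0 : ℝ)) := by
  have h1 : IntegrableOn (fun x : ℝ => (k.factorial : ℝ)⁻¹ * (x ^ (k : ℝ) *
      Real.exp (-r.re * x ^ (1 : ℝ)))) (Set.Ioi (0 : ℝ)) :=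
    (integrableOn_rpow_mul_exp_neg_mul_rpow (p := 1) (s := k) (b := r.re)
      (by have : (0 : ℝ) ≤ k := Nat.cast_nonneg k
          linarith) one_pos hr).const_mul _
  refine Integrable.mono' h1 ?_ ?_
  · refine Continuous.aestronglyMeasurable ?_
    unfold TailK
    fun_prop
  · refine (ae_restrict_iff' measurableSet_Ioi).mpr (Filter.Eventually.of_forall fun x hx => ?_)
    rw [Tail_norm k r x hx, Real.rpow_natCast, Real.rpow_one]
    apply le_of_eq
    rw [neg_mul]
    ring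

theorem Tail_integral (k : ℕ) (r : ℂ) (hr : 0 < r.re) :
    ∫ x in Set.Ioi (0 : ℝ), TailK k r x = 1 / r ^ (k + 1) := by
  have hr0 : r ≠ 0 := by
    intro h; rw [h] at hr; simp at hr
  induction k with
  | zero =>
    have h1 := integral_exp_mul_complex_Ioi (a := -r) (by simpa using hr) 0
    have h2 : ∀ x : ℝ, TailK 0 r x = Complex.exp (-r * x) := by
      intro x; rw [TailK]; simp
    simp_rw [h2]
    rw [h1]
    simp
  | succ k ih =>
    have hk : (k.factorial : ℂ) ≠ 0 := by exact_mod_cast k.factorial_ne_zero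
    have hk1 : ((k : ℂ) + 1) ≠ 0 := by exact_mod_cast k.succ_ne_zero
    have hd : ∀ x ∈ Set.Ici (0 : ℝ), HasDerivAt (fun x : ℝ => -(1 / r) * TailK (k + 1) r x)
        (TailK (k + 1) r x - 1 / r * TailK k r x) x := by
      intro x _
      have hx : HasDerivAt (fun x : ℝ => (x : ℂ)) 1 x := Complex.ofRealCLM.hasDerivAt
      have h1 : HasDerivAt (fun x : ℝ => (x : ℂ) ^ (k + 1) / ((k + 1).factorial : ℂ))
          (((k + 1 : ℕ) : ℂ) * (x : ℂ) ^ k * 1 / ((k + 1).factorial : ℂ)) x := by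
        have := (hx.pow (k + 1)).div_const ((k + 1).factorial : ℂ)
        simpa using this
      have h2 : HasDerivAt (fun x : ℝ => Complex.exp (-(r * x)))
          (Complex.exp (-(r * x)) * (-(r * 1))) x :=
        ((hx.const_mul r).neg).cexp
      have h3 := (h1.mul h2).const_mul (-(1 / r))
      refine h3.congr_deriv ?_
      rw [TailK, TailK, Nat.factorial_succ]
      push_cast
      field_simp
      ring
    have hlim : Filter.Tendsto (fun x : ℝ => -(1 / r) * TailK (k + 1) r x) Filter.atTop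
        (nhds 0) := by
      rw [tendsto_zero_iff_norm_tendsto_zero]
      have h1 := (tendsto_rpow_mul_exp_neg_mul_atTop_nhds_zero ((k + 1 : ℕ) : ℝ) r.re hr).const_mul
        (‖-(1 / r)‖ * ((k + 1).factorial : ℝ)⁻¹)
      rw [mul_zero] at h1
      refine h1.congr' ?_
      filter_upwards [Filter.eventually_gt_atTop 0] with x hx
      rw [norm_mul, Tail_norm _ _ _ hx, Real.rpow_natCast, neg_mul (r.re)]
      ring
    have hK1 := Tail_integrable (k + 1) r hr
    have hK0 := (Tail_integrable k r hr).const_mul (1 / r)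
    have h4 := integral_Ioi_of_hasDerivAt_of_tendsto' hd (hK1.sub hK0) hlim
    rw [integral_sub hK1 hK0, integral_const_mul, ih] at h4
    have h5 : TailK (k + 1) r 0 = 0 := by
      rw [TailK]; simp
    rw [h5, mul_zero, sub_zero, sub_eq_zero] at h4
    rw [h4]
    field_simp
    ring

/-- the half line factor -/
noncomputable def TailH (x : ℝ) : ℂ := (((2 * Real.cosh (x / 2))⁻¹ : ℝ) : ℂ)

theorem TailH_norm_le (x : ℝ) : ‖TailH x‖ ≤ 1 / 2 := by
  have h := Real.one_le_cosh (x / 2)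
  rw [TailH, Complex.norm_real, Real.norm_of_nonneg (by positivity)]
  rw [inv_le_comm₀ (by positivity) (by norm_num)]
  norm_num

theorem TailH_continuous : Continuous TailH := by
  unfold TailH
  refine Complex.continuous_ofReal.comp (Continuous.inv₀ (by fun_prop) ?_)
  intro x
  have := Real.cosh_pos (x / 2)
  positivity

theorem TailH_add (x : ℝ) : TailH x * (1 + Complex.exp (-x)) = Complex.exp (-(x / 2)) := by
  have h1 : (1 + Complex.exp (-x)) = ((1 + Real.exp (-x) : ℝ) : ℂ) := by push_cast; rfl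
  have h2 : Complex.exp (-(x / 2)) = ((Real.exp (-(x / 2)) : ℝ) : ℂ) := by push_cast; rfl
  rw [h1, h2, TailH, ← Complex.ofReal_mul]
  congr 1
  have h3 : Real.exp (-x) = Real.exp (-(x / 2)) * Real.exp (-(x / 2)) := by
    rw [← Real.exp_add]; congr 1; ring
  rw [Real.cosh_eq, h3, Real.exp_neg]
  have := Real.exp_pos (x / 2)
  field_simp

theorem Tail_integrableH (k : ℕ) (r : ℂ) (hr : 0 < r.re) :
    IntegrableOn (fun x => TailK k r x * TailH x) (Set.Ioi (0 : ℝ)) := by
  refine Integrable.mul_bdd (c := 1 / 2) (Tail_integrable k r hr)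
    TailH_continuous.aestronglyMeasurable (Filter.Eventually.of_forall fun x => TailH_norm_le x)

/-- `T_n` -/
noncomputable def TailT (k : ℕ) (r : ℂ) : ℂ := ∫ x in Set.Ioi (0 : ℝ), TailK k r x * TailH x

theorem TailT_add (k : ℕ) (r : ℂ) (hr : 0 < r.re) :
    TailT k r + TailT k (r + 1) = 1 / (r + 1 / 2) ^ (k + 1) := by
  have hr1 : 0 < (r + 1).re := by simp; linarith
  have hr2 : 0 < (r + 1 / 2).re := by simp; linarith
  rw [TailT, TailT, ← integral_add (Tail_integrableH k r hr) (Tail_integrableH k (r + 1) hr1),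
    ← Tail_integral k _ hr2]
  refine integral_congr_ae (Filter.Eventually.of_forall fun x => ?_)
  simp only [TailK]
  have h1 : Complex.exp (-((r + 1) * x)) = Complex.exp (-(r * x)) * Complex.exp (-x) := by
    rw [← Complex.exp_add]; congr 1; ring
  have h2 : Complex.exp (-((r + 1 / 2) * x)) = Complex.exp (-(r * x)) * Complex.exp (-(x / 2)) := by
    rw [← Complex.exp_add]; congr 1; ring
  rw [h1, h2, ← TailH_add]
  ring

theorem TailT_norm_le (k : ℕ) (r : ℝ) (hr : 0 < r) :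
    ‖TailT k r‖ ≤ 1 / 2 * (1 / r ^ (k + 1)) := by
  have hre : 0 < ((r : ℝ) : ℂ).re := by simpa using hr
  have h0 : ∫ x in Set.Ioi (0 : ℝ), ‖TailK k r x‖ = 1 / r ^ (k + 1) := by
    have h1 := Tail_integral k (r : ℂ) hre
    have h2 : ∫ x in Set.Ioi (0 : ℝ), TailK k r x = ∫ x in Set.Ioi (0 : ℝ), ((‖TailK k r x‖ : ℝ) : ℂ) := by
      refine setIntegral_congr_fun measurableSet_Ioi ?_
      intro x hx
      simp only
      rw [Tail_norm k r x hx, TailK]
      push_cast
      simp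
    rw [h2, integral_complex_ofReal] at h1
    have h3 : (1 / (r : ℂ) ^ (k + 1)) = ((1 / r ^ (k + 1) : ℝ) : ℂ) := by push_cast; rfl
    rw [h3] at h1
    exact_mod_cast h1
  calc ‖TailT k r‖ ≤ ∫ x in Set.Ioi (0 : ℝ), ‖TailK k r x * TailH x‖ := norm_integral_le_integral_norm _
    _ ≤ ∫ x in Set.Ioi (0 : ℝ), 1 / 2 * ‖TailK k r x‖ := by
        refine integral_mono (Tail_integrableH k r hre).norm
          ((Tail_integrable k r hre).norm.const_mul _) ?_
        intro x
        simp only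
        rw [norm_mul, mul_comm]
        exact mul_le_mul_of_nonneg_right (TailH_norm_le x) (norm_nonneg _)
    _ = _ := by rw [integral_const_mul, h0]

theorem Tail_partial (c : ℕ) (j : ℤ) (hj : j < c) (k : ℕ) (M : ℕ) (hM : c ≤ M) :
    ∑ m ∈ Ico c M, (-1 : ℂ) ^ m / ((m : ℂ) + 1 / 2 - (j : ℂ)) ^ (k + 1) =
      (-1 : ℂ) ^ c * TailT k ((c : ℂ) - j) - (-1 : ℂ) ^ M * TailT k ((M : ℂ) - j) := by
  induction M, hM using Nat.le_induction with
  | base => simp
  | succ n hn ih =>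
    rw [Finset.sum_Ico_succ_top hn, ih]
    have h1 := TailT_add k ((n : ℂ) - j) (by
      have : (j : ℝ) < n := by
        have : j < (n : ℤ) := lt_of_lt_of_le hj (by exact_mod_cast hn)
        exact_mod_cast this
      simp; linarith only [this])
    have h2 : ((n : ℂ) - j + 1 / 2) = (n : ℂ) + 1 / 2 - j := by ring
    have h3 : ((n : ℂ) - j + 1) = ((n + 1 : ℕ) : ℂ) - j := by push_cast; ring
    rw [h2, h3] at h1
    rw [div_eq_mul_one_div, ← h1, pow_succ]
    ring

theorem Tail_fubini (c : ℕ) (j : ℤ) (hj : j < c) (k : ℕ) :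
    TailT k ((c : ℂ) - j) = ∫ y : ℝ, (1 / (ltp c y - (j : ℂ)) ^ (k + 1)) *
        (((2 * Real.cosh (Real.pi * y))⁻¹ : ℝ) : ℂ) := by
  have hre : 0 < ((c : ℂ) - j).re := by
    have : (j : ℝ) < c := by exact_mod_cast hj
    simp; linarith
  set S : ℝ → ℂ := fun y => (((2 * Real.cosh (Real.pi * y))⁻¹ : ℝ) : ℂ) with hS
  have hSint : Integrable S := integrable_sech.ofReal
  set F : ℝ → ℝ → ℂ := fun x y => Complex.exp (-((x * y : ℝ) : ℂ) * Complex.I) *
    (TailK k ((c : ℂ) - j) x * S y) with hF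
  have hint : Integrable (Function.uncurry F)
      ((volume.restrict (Set.Ioi (0 : ℝ))).prod (volume : Measure ℝ)) := by
    have h1 : Integrable (fun z : ℝ × ℝ => TailK k ((c : ℂ) - j) z.1 * S z.2)
      ((volume.restrict (Set.Ioi (0 : ℝ))).prod (volume : Measure ℝ)) :=
      Integrable.mul_prod (Tail_integrable k _ hre) hSint
    refine Integrable.bdd_mul (c := 1) h1 ?_ ?_
    · refine Continuous.aestronglyMeasurable ?_
      fun_prop
    · refine Filter.Eventually.of_forall fun z => ?_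
      rw [Complex.norm_exp]
      simp
  have hswap := integral_integral_swap hint
  have hL : ∫ x in Set.Ioi (0 : ℝ), ∫ y : ℝ, F x y = TailT k ((c : ℂ) - j) := by
    rw [TailT]
    refine integral_congr_ae (Filter.Eventually.of_forall fun x => ?_)
    simp only
    rw [TailH, ← fourier_sech, ← integral_const_mul]
    refine integral_congr_ae (Filter.Eventually.of_forall fun y => ?_)
    simp only [hF, hS]
    ring
  have hR : ∫ y : ℝ, ∫ x in Set.Ioi (0 : ℝ), F x y = ∫ y : ℝ, (1 / (ltp c y - (j : ℂ)) ^ (k + 1)) *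
        (((2 * Real.cosh (Real.pi * y))⁻¹ : ℝ) : ℂ) := by
    refine integral_congr_ae (Filter.Eventually.of_forall fun y => ?_)
    simp only
    have hre2 : 0 < (ltp c y - (j : ℂ)).re := by
      have : (j : ℝ) < c := by exact_mod_cast hj
      simp [ltp]; linarith only [this]
    rw [← Tail_integral k _ hre2, ← integral_mul_const]
    refine integral_congr_ae (Filter.Eventually.of_forall fun x => ?_)
    simp only [hF, hS, TailK]
    have h1 : Complex.exp (-((ltp c y - (j : ℂ)) * x)) =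
      Complex.exp (-((x * y : ℝ) : ℂ) * Complex.I) * Complex.exp (-(((c : ℂ) - j) * x)) := by
      rw [← Complex.exp_add]
      congr 1
      rw [ltp]
      push_cast
      ring
    rw [h1]
    ring
  rw [← hL, hswap, hR]

theorem tail_term (c : ℕ) (j : ℤ) (hj : j < c) (i : ℕ) (hi : 1 ≤ i) :
    (Integrable fun y : ℝ => (1 / (ltp c y - (j : ℂ)) ^ i) *
      (((2 * Real.cosh (Real.pi * y))⁻¹ : ℝ) : ℂ)) ∧
    Filter.Tendsto (fun M : ℕ => ∑ m ∈ Ico c M, (-1 : ℂ) ^ m / ((m : ℂ) + 1 / 2 - (j : ℂ)) ^ i)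
      Filter.atTop (nhds ((-1 : ℂ) ^ c * ∫ y : ℝ, (1 / (ltp c y - (j : ℂ)) ^ i) *
        (((2 * Real.cosh (Real.pi * y))⁻¹ : ℝ) : ℂ))) := by
  obtain ⟨k, rfl⟩ := Nat.exists_eq_add_of_le' hi
  have hjc : (j : ℝ) + 1 ≤ c := by
    have : j + 1 ≤ (c : ℤ) := hj
    exact_mod_cast this
  constructor
  · have hne : ∀ y : ℝ, ltp c y - (j : ℂ) ≠ 0 := by
      intro y h
      have h2 : (ltp c y - (j : ℂ)).re = 0 := by rw [h]; simp
      simp [ltp] at h2
      linarith only [hjc, h2]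
    refine Integrable.bdd_mul (c := 1) integrable_sech.ofReal ?_ ?_
    · refine Continuous.aestronglyMeasurable ?_
      refine Continuous.div continuous_const ?_ ?_
      · unfold ltp; fun_prop
      · intro y
        exact pow_ne_zero _ (hne y)
    · refine Filter.Eventually.of_forall fun y => ?_
      rw [norm_div, norm_one, norm_pow]
      have h1 : 1 ≤ ‖ltp c y - (j : ℂ)‖ := by
        refine le_trans ?_ (Complex.abs_re_le_norm _)
        have h2 : (ltp c y - (j : ℂ)).re = c - j := by simp [ltp]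
        rw [h2]
        refine le_trans ?_ (le_abs_self _)
        linarith only [hjc]
      rw [div_le_one (by positivity)]
      exact one_le_pow₀ h1
  · rw [← Tail_fubini c j hj k]
    have hlim : Filter.Tendsto (fun M : ℕ => (-1 : ℂ) ^ c * TailT k ((c : ℂ) - j) -
        (-1 : ℂ) ^ M * TailT k ((M : ℂ) - j)) Filter.atTop
        (nhds ((-1 : ℂ) ^ c * TailT k ((c : ℂ) - j) - 0)) := by
      refine Filter.Tendsto.sub tendsto_const_nhds ?_
      rw [tendsto_zero_iff_norm_tendsto_zero]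
      have hb : Filter.Tendsto (fun M : ℕ => 1 / 2 * (1 / ((M : ℝ) - j))) Filter.atTop
          (nhds 0) := by
        have h1 : Filter.Tendsto (fun M : ℕ => ((M : ℝ) - j)) Filter.atTop Filter.atTop :=
          Filter.tendsto_atTop_add_const_right _ _ tendsto_natCast_atTop_atTop
        have h2 := (Filter.Tendsto.inv_tendsto_atTop h1).const_mul (1 / 2)
        simpa using h2
      refine tendsto_of_tendsto_of_tendsto_of_le_of_le' tendsto_const_nhds hb ?_ ?_
      · exact Filter.Eventually.of_forall fun M => norm_nonneg _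
      · filter_upwards [Filter.eventually_ge_atTop c] with M hM
        have hMr : (c : ℝ) ≤ M := by exact_mod_cast hM
        rw [norm_mul, norm_pow, norm_neg, norm_one, one_pow, one_mul]
        have h3 : ((M : ℂ) - j) = (((M : ℝ) - j : ℝ) : ℂ) := by push_cast; rfl
        rw [h3]
        refine (TailT_norm_le k ((M : ℝ) - j) (by linarith only [hjc, hMr])).trans ?_
        refine mul_le_mul_of_nonneg_left ?_ (by norm_num)
        refine one_div_le_one_div_of_le (by linarith only [hjc, hMr]) ?_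
        exact le_self_pow₀ (by linarith only [hjc, hMr]) (by omega)
    rw [sub_zero] at hlim
    refine hlim.congr' ?_
    filter_upwards [Filter.eventually_ge_atTop c] with M hM
    exact (Tail_partial c j hj k M hM).symm

end Vale.Agent.P030.Five
end
end

section

section

/-! Complex partial fractions with real coefficients. -/

namespace Vale.Agent.P030.Five

open Finset Polynomial Vale.Agent.P030

theorem PFC_card (N : ℕ) : (Icc (-(N : ℤ)) N).card = 2 * N + 1 := by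
  rw [Int.card_Icc]
  omega

theorem fC_partial (N k : ℕ) (hk : k ≤ 5 * N) : ∃ a : ℤ → ℕ → ℝ, ∀ t : ℂ,
    (∀ j ∈ Icc (-(N : ℤ)) N, t ≠ (j : ℂ)) →
    fC N t * (t ^ 2) ^ k = ∑ j ∈ Icc (-(N : ℤ)) N, ∑ i ∈ range 5,
      (a j i : ℂ) * (1 / (t - (j : ℂ)) ^ (i + 1)) := by
  classical
  have hne : (Icc (-(N : ℤ)) N).Nonempty := ⟨0, by simp⟩
  have hdeg : ((X : ℚ[X]) ^ (2 * k + 1)).natDegree < 5 * (Icc (-(N : ℤ)) N).card := by
    rw [PFC_card, Polynomial.natDegree_X_pow]
    omega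
  have hpart := F5PF_partial (Icc (-(N : ℤ)) N) ((X : ℚ[X]) ^ (2 * k + 1)) hne hdeg
  set u : ℤ → PowerSeries ℚ := fun j =>
    ((((X : ℚ[X]) ^ (2 * k + 1)).comp (X + C (j : ℚ)) : ℚ[X]) : PowerSeries ℚ) *
      F5PF_E (Icc (-(N : ℤ)) N) j with hu
  refine ⟨fun j i => ((PowerSeries.coeff (4 - i) (u j) : ℚ) : ℝ), ?_⟩
  intro t ht
  have h1 := congrArg (aeval t) hpart
  have hF : aeval t ((X : ℚ[X]) ^ (2 * k + 1)) = t * (t ^ 2) ^ k := by
    rw [map_pow, aeval_X]; ring
  rw [hF, map_sum] at h1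
  have hD : (∏ j ∈ Icc (-(N : ℤ)) N, (t - (j : ℂ))) ^ 5 =
      ∏ j ∈ Icc (-(N : ℤ)) N, (t - (j : ℂ)) ^ 5 := by
    rw [Finset.prod_pow]
  have hne' : ∀ j ∈ Icc (-(N : ℤ)) N, (t - (j : ℂ)) ≠ 0 := fun j hj => sub_ne_zero.mpr (ht j hj)
  rw [fC, div_mul_eq_mul_div, h1, hD, Finset.sum_div]
  refine Finset.sum_congr rfl fun j hj => ?_
  rw [map_mul, map_prod, Polynomial.aeval_comp]
  have h2 : ∏ x ∈ (Icc (-(N : ℤ)) N).erase j, aeval t ((X - C (x : ℚ)) ^ 5 : ℚ[X]) =
      ∏ x ∈ (Icc (-(N : ℤ)) N).erase j, (t - (x : ℂ)) ^ 5 := by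
    refine Finset.prod_congr rfl fun x _ => ?_
    simp
  have h3 : ∏ x ∈ (Icc (-(N : ℤ)) N).erase j, (t - (x : ℂ)) ^ 5 ≠ 0 := by
    rw [Finset.prod_ne_zero_iff]
    intro x hx
    exact pow_ne_zero _ (hne' x (Finset.mem_of_mem_erase hx))
  rw [h2, ← Finset.mul_prod_erase _ _ hj, mul_div_mul_right _ _ h3]
  have h4 : aeval t (X - C (j : ℚ) : ℚ[X]) = t - (j : ℂ) := by simp
  have h5 : t - (j : ℂ) ≠ 0 := hne' j hj
  rw [h4, Polynomial.aeval_eq_sum_range' (PowerSeries.natDegree_trunc_lt _ 4), Finset.sum_div,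
    ← Finset.sum_range_reflect]
  refine Finset.sum_congr rfl fun r hr => ?_
  have hr' : r < 5 := Finset.mem_range.mp hr
  have e1 : 4 + 1 - 1 - r = 4 - r := by omega
  have e2 : 4 - r < 5 := by omega
  rw [e1, PowerSeries.coeff_trunc, if_pos e2, Algebra.smul_def, eq_ratCast, mul_div_assoc]
  have e3 : (((PowerSeries.coeff (4 - r) (u j) : ℚ) : ℝ) : ℂ) =
      ((PowerSeries.coeff (4 - r) (u j) : ℚ) : ℂ) := by norm_cast
  rw [e3]
  congr 1
  rw [div_eq_div_iff (pow_ne_zero _ h5) (pow_ne_zero _ h5), one_mul, ← pow_add]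
  congr 1
  omega

end Vale.Agent.P030.Five
end
end

section

section

/-! The alternating series as a finite sum plus an integral over the line `Re t = c`. -/

namespace Vale.Agent.P030.Five

open Finset Polynomial MeasureTheory Vale.Agent.P030

theorem Line_cast_f5 (N : ℕ) (t : ℝ) : ((f5 N t : ℝ) : ℂ) = fC N (t : ℂ) := by
  rw [f5, fC, Den]
  push_cast
  rfl

theorem Line_cast_eval (P : ℝ[X]) (t : ℝ) :
    ((P.eval (t ^ 2) : ℝ) : ℂ) = aeval ((t : ℂ) ^ 2) P := by
  have h : ((t : ℂ) ^ 2) = algebraMap ℝ ℂ (t ^ 2) := by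
    simp
  rw [h, Polynomial.aeval_algebraMap_apply]
  simp

/-- partial fractions for a general polynomial. -/
theorem Line_partial (N : ℕ) (P : ℝ[X]) (hP : P.natDegree ≤ 5 * N) : ∃ b : ℤ → ℕ → ℂ, ∀ t : ℂ,
    (∀ j ∈ Icc (-(N : ℤ)) N, t ≠ (j : ℂ)) →
    fC N t * aeval (t ^ 2) P = ∑ j ∈ Icc (-(N : ℤ)) N, ∑ i ∈ range 5,
      b j i * (1 / (t - (j : ℂ)) ^ (i + 1)) := by
  have h : ∀ k : ℕ, ∃ a : ℤ → ℕ → ℝ, k ≤ 5 * N → ∀ t : ℂ,
      (∀ j ∈ Icc (-(N : ℤ)) N, t ≠ (j : ℂ)) →
      fC N t * (t ^ 2) ^ k = ∑ j ∈ Icc (-(N : ℤ)) N, ∑ i ∈ range 5,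
        (a j i : ℂ) * (1 / (t - (j : ℂ)) ^ (i + 1)) := by
    intro k
    by_cases hk : k ≤ 5 * N
    · obtain ⟨a, ha⟩ := fC_partial N k hk
      exact ⟨a, fun _ => ha⟩
    · exact ⟨fun _ _ => 0, fun h => absurd h hk⟩
  choose a ha using h
  refine ⟨fun j i => ∑ k ∈ range (5 * N + 1), (P.coeff k : ℂ) * (a k j i : ℂ), fun t ht => ?_⟩
  rw [Polynomial.aeval_eq_sum_range' (Nat.lt_succ_of_le hP), Finset.mul_sum]
  have h1 : ∀ k ∈ range (5 * N + 1), fC N t * (P.coeff k • (t ^ 2) ^ k) =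
      ∑ j ∈ Icc (-(N : ℤ)) N, ∑ i ∈ range 5, ((P.coeff k : ℂ) * (a k j i : ℂ)) *
        (1 / (t - (j : ℂ)) ^ (i + 1)) := by
    intro k hk
    have hk' : k ≤ 5 * N := Nat.lt_succ_iff.mp (mem_range.mp hk)
    rw [Complex.real_smul, mul_left_comm, ha k hk' t ht, Finset.mul_sum]
    refine Finset.sum_congr rfl fun j _ => ?_
    rw [Finset.mul_sum]
    refine Finset.sum_congr rfl fun i _ => ?_
    rw [mul_assoc]
  rw [Finset.sum_congr rfl h1, Finset.sum_comm]
  refine Finset.sum_congr rfl fun j _ => ?_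
  rw [Finset.sum_comm]
  refine Finset.sum_congr rfl fun i _ => ?_
  rw [Finset.sum_mul]

theorem Line_ltp_ne (N c : ℕ) (hN : N < c) (y : ℝ) (j : ℤ) (hj : j ∈ Icc (-(N : ℤ)) N) :
    ltp c y ≠ (j : ℂ) := by
  intro h
  have h1 := congrArg Complex.re h
  simp only [ltp, Complex.add_re, Complex.natCast_re, Complex.mul_re, Complex.ofReal_re,
    Complex.I_re, mul_zero, Complex.ofReal_im, Complex.I_im, mul_one, sub_self, add_zero,
    Complex.intCast_re] at h1
  have h2 : (c : ℤ) = j := by exact_mod_cast h1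
  rw [mem_Icc] at hj
  omega

theorem line_identity (N c : ℕ) (hN : N < c) (P : ℝ[X]) (hP : P.natDegree ≤ 5 * N) :
    ((psi5 N P - ∑ i ∈ range (c - N), wt5 N i * P.eval (((N : ℝ) + i + 1 / 2) ^ 2) : ℝ) : ℂ) =
      (-1 : ℂ) ^ c * ∫ y : ℝ, fC N (ltp c y) * aeval (ltp c y ^ 2) P *
        (((2 * Real.cosh (Real.pi * y))⁻¹ : ℝ) : ℂ) := by
  obtain ⟨b, hb⟩ := Line_partial N P hP
  have hlt : ∀ j ∈ Icc (-(N : ℤ)) N, j < (c : ℤ) := by
    intro j hj
    rw [mem_Icc] at hj
    omega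
  -- the right side
  have hint : ∫ y : ℝ, fC N (ltp c y) * aeval (ltp c y ^ 2) P *
        (((2 * Real.cosh (Real.pi * y))⁻¹ : ℝ) : ℂ) =
      ∑ j ∈ Icc (-(N : ℤ)) N, ∑ i ∈ range 5, b j i *
        ∫ y : ℝ, (1 / (ltp c y - (j : ℂ)) ^ (i + 1)) *
          (((2 * Real.cosh (Real.pi * y))⁻¹ : ℝ) : ℂ) := by
    have e1 : (fun y : ℝ => fC N (ltp c y) * aeval (ltp c y ^ 2) P *
        (((2 * Real.cosh (Real.pi * y))⁻¹ : ℝ) : ℂ)) =
        fun y : ℝ => ∑ j ∈ Icc (-(N : ℤ)) N, ∑ i ∈ range 5, b j i *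
          ((1 / (ltp c y - (j : ℂ)) ^ (i + 1)) *
            (((2 * Real.cosh (Real.pi * y))⁻¹ : ℝ) : ℂ)) := by
      funext y
      rw [hb _ (Line_ltp_ne N c hN y), Finset.sum_mul]
      refine Finset.sum_congr rfl fun j _ => ?_
      rw [Finset.sum_mul]
      refine Finset.sum_congr rfl fun i _ => ?_
      rw [mul_assoc]
    have hI : ∀ j ∈ Icc (-(N : ℤ)) N, ∀ i ∈ range 5, Integrable fun y : ℝ => b j i *
          ((1 / (ltp c y - (j : ℂ)) ^ (i + 1)) *
            (((2 * Real.cosh (Real.pi * y))⁻¹ : ℝ) : ℂ)) := by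
      intro j hj i _
      exact (tail_term c j (hlt j hj) (i + 1) (by omega)).1.const_mul _
    rw [e1, integral_finsetSum]
    · refine Finset.sum_congr rfl fun j hj => ?_
      rw [integral_finsetSum]
      · refine Finset.sum_congr rfl fun i _ => ?_
        rw [integral_const_mul]
      · exact hI j hj
    · intro j hj
      exact integrable_finsetSum _ (hI j hj)
  -- the limit of the tail
  have hlim : Filter.Tendsto (fun M : ℕ => ∑ j ∈ Icc (-(N : ℤ)) N, ∑ i ∈ range 5, b j i *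
      ∑ m ∈ Ico c M, (-1 : ℂ) ^ m / ((m : ℂ) + 1 / 2 - (j : ℂ)) ^ (i + 1)) Filter.atTop
      (nhds (∑ j ∈ Icc (-(N : ℤ)) N, ∑ i ∈ range 5, b j i *
        ((-1 : ℂ) ^ c * ∫ y : ℝ, (1 / (ltp c y - (j : ℂ)) ^ (i + 1)) *
          (((2 * Real.cosh (Real.pi * y))⁻¹ : ℝ) : ℂ)))) := by
    refine tendsto_finsetSum _ fun j hj => tendsto_finsetSum _ fun i _ => ?_
    exact ((tail_term c j (hlt j hj) (i + 1) (by omega)).2).const_mul _
  -- the left side
  have hs := (summable_wt5 N P hP).of_abs.hasSum.tendsto_sum_nat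
  rw [← psi5_apply N P hP] at hs
  have hs2 := hs.sub_const (∑ i ∈ range (c - N), wt5 N i * P.eval (((N : ℝ) + i + 1 / 2) ^ 2))
  have hs3 := (Complex.continuous_ofReal.tendsto _).comp hs2
  have hlim2 := hlim.comp (Filter.tendsto_atTop_mono (fun n : ℕ => Nat.le_add_left n N)
    Filter.tendsto_id)
  rw [hint, Finset.mul_sum]
  have hterm : ∀ m : ℕ, (-1 : ℂ) ^ m * (fC N ((m : ℂ) + 1 / 2) *
      aeval (((m : ℂ) + 1 / 2) ^ 2) P) = ∑ j ∈ Icc (-(N : ℤ)) N, ∑ i ∈ range 5, b j i *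
        ((-1 : ℂ) ^ m / ((m : ℂ) + 1 / 2 - (j : ℂ)) ^ (i + 1)) := by
    intro m
    have hne : ∀ j ∈ Icc (-(N : ℤ)) N, (m : ℂ) + 1 / 2 ≠ (j : ℂ) := by
      intro j _ h
      have h1 : (2 * (m : ℤ) + 1 : ℤ) = 2 * j := by
        have : (2 * (m : ℂ) + 1) = 2 * (j : ℂ) := by rw [← h]; ring
        exact_mod_cast this
      omega
    rw [hb _ hne, Finset.mul_sum]
    refine Finset.sum_congr rfl fun j _ => ?_
    rw [Finset.mul_sum]
    refine Finset.sum_congr rfl fun i _ => ?_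
    ring
  have hcast : ∀ i : ℕ, ((wt5 N i * P.eval (((N : ℝ) + i + 1 / 2) ^ 2) : ℝ) : ℂ) =
      (-1 : ℂ) ^ (N + i) * (fC N (((N + i : ℕ) : ℂ) + 1 / 2) *
        aeval ((((N + i : ℕ) : ℂ) + 1 / 2) ^ 2) P) := by
    intro i
    rw [wt5, Complex.ofReal_mul, Complex.ofReal_mul, Line_cast_f5, Line_cast_eval]
    push_cast
    ring
  have hfin : Filter.Tendsto (fun n : ℕ =>
      ((∑ i ∈ range n, wt5 N i * P.eval (((N : ℝ) + i + 1 / 2) ^ 2) -
        ∑ i ∈ range (c - N), wt5 N i * P.eval (((N : ℝ) + i + 1 / 2) ^ 2) : ℝ) : ℂ))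
      Filter.atTop
      (nhds (∑ j ∈ Icc (-(N : ℤ)) N, ∑ i ∈ range 5, b j i *
        ((-1 : ℂ) ^ c * ∫ y : ℝ, (1 / (ltp c y - (j : ℂ)) ^ (i + 1)) *
          (((2 * Real.cosh (Real.pi * y))⁻¹ : ℝ) : ℂ)))) := by
    refine (hlim2.congr' ?_)
    filter_upwards [Filter.eventually_ge_atTop (c - N)] with n hn
    have e2 : ∑ i ∈ range n, wt5 N i * P.eval (((N : ℝ) + i + 1 / 2) ^ 2) -
        ∑ i ∈ range (c - N), wt5 N i * P.eval (((N : ℝ) + i + 1 / 2) ^ 2) =
        ∑ i ∈ Ico (c - N) n, wt5 N i * P.eval (((N : ℝ) + i + 1 / 2) ^ 2) :=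
      (Finset.sum_Ico_eq_sub _ hn).symm
    rw [e2, Complex.ofReal_sum]
    simp only [hcast]
    have e3 : ∑ i ∈ Ico (c - N) n, (-1 : ℂ) ^ (N + i) * (fC N (((N + i : ℕ) : ℂ) + 1 / 2) *
        aeval ((((N + i : ℕ) : ℂ) + 1 / 2) ^ 2) P) =
        ∑ m ∈ Ico c (n + N), (-1 : ℂ) ^ m * (fC N ((m : ℂ) + 1 / 2) *
          aeval (((m : ℂ) + 1 / 2) ^ 2) P) := by
      have := Finset.sum_Ico_add (fun m : ℕ => (-1 : ℂ) ^ m * (fC N ((m : ℂ) + 1 / 2) *
          aeval (((m : ℂ) + 1 / 2) ^ 2) P)) (c - N) n N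
      rw [this, Nat.sub_add_cancel hN.le]
    rw [e3]
    simp only [hterm, Function.comp]
    symm
    rw [Finset.sum_comm, add_comm n N]
    refine Finset.sum_congr rfl fun j _ => ?_
    rw [Finset.sum_comm]
    refine Finset.sum_congr rfl fun i _ => ?_
    rw [Finset.mul_sum]
  have huniq := tendsto_nhds_unique hs3 hfin
  rw [huniq]
  refine Finset.sum_congr rfl fun j _ => ?_
  rw [Finset.mul_sum]
  refine Finset.sum_congr rfl fun i _ => ?_
  ring

end Vale.Agent.P030.Five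
end
end

section

section

/-! A4: Cauchy-Schwarz for the functional (`integrable_lw`, `abs_det_le` are in `CSCore`). -/

namespace Vale.Agent.P030.Five

open Finset Polynomial MeasureTheory Vale.Agent.P030

theorem abs_psi5_mul_le (N c : ℕ) (hN : N < c) (A B : ℝ[X])
    (hAB : A.natDegree + B.natDegree ≤ 5 * N) :
    |psi5 N (A * B)| ≤ Real.sqrt (nrm N c A) * Real.sqrt (nrm N c B) :=
  CS_abs_psi5_mul_le_of N c hN A B
    (line_identity N c hN (A * B) (natDegree_mul_le.trans hAB))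

end Vale.Agent.P030.Five
end
end

section

section

/-! A5: the bound for the determinant. -/

namespace Vale.Agent.P030.Five

open Finset Polynomial MeasureTheory Vale.Agent.P030

theorem abs_HK5_le (M : ℕ) (hM : 1 ≤ M) : |HK5 (2 * M) (5 * M)| ≤ (5 * M).factorial *
    (∏ a ∈ range (3 * M), Vn M a ^ 2 * nrm (2 * M) (5 * M) (lag M a)) *
    ∏ j ∈ range (2 * M), nrm (2 * M) (5 * M) (om M * (X - C ((5 * (M : ℝ)) ^ 2)) ^ j) :=
  abs_HK5_le_of M (fun A B h => abs_psi5_mul_le (2 * M) (5 * M) (by omega) A B h)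
    (fun G s hs h => abs_det_le G s hs h)

end Vale.Agent.P030.Five
end
end

section

section

/-! `∏_{m<n} (1 + y²/(m+1/2)²) ≤ cosh (π y)`. -/

namespace Vale.Agent.P030.Five

open Finset Filter Topology

/-- Euler product for `sinh`. -/
theorem CoshProd_sinh (y : ℝ) :
    Tendsto (fun n : ℕ => Real.pi * y * ∏ j ∈ range n, (1 + y ^ 2 / ((j : ℝ) + 1) ^ 2)) atTop
      (𝓝 (Real.sinh (Real.pi * y))) := by
  have h := Complex.tendsto_euler_sin_prod (Complex.I * y)
  have h1 : Complex.sin (Real.pi * (Complex.I * y)) = Complex.I * (Real.sinh (Real.pi * y) : ℂ) := by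
    have : (Real.pi : ℂ) * (Complex.I * y) = ((Real.pi * y : ℝ) : ℂ) * Complex.I := by
      push_cast
      ring
    rw [this, Complex.sin_mul_I, Complex.ofReal_sinh]
    ring
  rw [h1] at h
  have h2 : ∀ n : ℕ, (Real.pi : ℂ) * (Complex.I * y) *
      ∏ j ∈ range n, ((1 : ℂ) - (Complex.I * y) ^ 2 / ((j : ℂ) + 1) ^ 2) =
      Complex.I * ((Real.pi * y * ∏ j ∈ range n, (1 + y ^ 2 / ((j : ℝ) + 1) ^ 2) : ℝ) : ℂ) := by
    intro n
    have h3 : ∀ j ∈ range n, ((1 : ℂ) - (Complex.I * y) ^ 2 / ((j : ℂ) + 1) ^ 2) =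
        ((1 + y ^ 2 / ((j : ℝ) + 1) ^ 2 : ℝ) : ℂ) := by
      intro j _
      push_cast
      rw [mul_pow, Complex.I_sq]
      ring
    rw [Finset.prod_congr rfl h3]
    push_cast
    ring
  simp_rw [h2] at h
  have h4 := h.const_mul (-Complex.I)
  have h5 : ∀ w : ℂ, -Complex.I * (Complex.I * w) = w := by
    intro w
    rw [← mul_assoc, neg_mul, Complex.I_mul_I]
    ring
  simp_rw [h5] at h4
  exact Filter.tendsto_ofReal_iff.1 h4

/-- splitting a product into odd and even factors. -/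
theorem CoshProd_split (y : ℝ) (n : ℕ) :
    ∏ j ∈ range (2 * n), (1 + (2 * y) ^ 2 / ((j : ℝ) + 1) ^ 2) =
      (∏ m ∈ range n, (1 + y ^ 2 / ((m : ℝ) + 1 / 2) ^ 2)) *
        ∏ j ∈ range n, (1 + y ^ 2 / ((j : ℝ) + 1) ^ 2) := by
  induction n with
  | zero => simp
  | succ n ih =>
    have e : 2 * (n + 1) = 2 * n + 1 + 1 := by ring
    rw [e, Finset.prod_range_succ, Finset.prod_range_succ, ih, Finset.prod_range_succ,
      Finset.prod_range_succ]
    have h1 : 1 + (2 * y) ^ 2 / (((2 * n : ℕ) : ℝ) + 1) ^ 2 = 1 + y ^ 2 / ((n : ℝ) + 1 / 2) ^ 2 := by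
      push_cast
      have : (2 * (n : ℝ) + 1) = 2 * ((n : ℝ) + 1 / 2) := by ring
      rw [this, mul_pow, mul_pow]
      have h0 : ((n : ℝ) + 1 / 2) ≠ 0 := by positivity
      field_simp
    have h2 : 1 + (2 * y) ^ 2 / (((2 * n + 1 : ℕ) : ℝ) + 1) ^ 2 = 1 + y ^ 2 / ((n : ℝ) + 1) ^ 2 := by
      push_cast
      have : (2 * (n : ℝ) + 1 + 1) = 2 * ((n : ℝ) + 1) := by ring
      rw [this, mul_pow, mul_pow]
      have h0 : ((n : ℝ) + 1) ≠ 0 := by positivity
      field_simp
    rw [h1, h2]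
    ring

/-- the product formula for `cosh`, for `y ≠ 0`. -/
theorem CoshProd_tendsto {y : ℝ} (hy : y ≠ 0) :
    Tendsto (fun n : ℕ => ∏ m ∈ range n, (1 + y ^ 2 / ((m : ℝ) + 1 / 2) ^ 2)) atTop
      (𝓝 (Real.cosh (Real.pi * y))) := by
  have h1 := CoshProd_sinh y
  have h2 := (CoshProd_sinh (2 * y)).comp (tendsto_id.const_mul_atTop' (show 0 < 2 by norm_num))
  have hs : Real.sinh (Real.pi * y) ≠ 0 := by
    intro h
    have h0 : Real.sinh (Real.pi * y) = Real.sinh 0 := by rw [h, Real.sinh_zero]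
    exact mul_ne_zero Real.pi_ne_zero hy (Real.sinh_injective h0)
  have h3 := h2.div (h1.const_mul 2) (mul_ne_zero two_ne_zero hs)
  have e1 : Real.sinh (Real.pi * (2 * y)) / (2 * Real.sinh (Real.pi * y)) =
      Real.cosh (Real.pi * y) := by
    have : Real.pi * (2 * y) = 2 * (Real.pi * y) := by ring
    rw [this, Real.sinh_two_mul]
    field_simp
  rw [e1] at h3
  refine h3.congr fun n => ?_
  have hP : 0 < ∏ j ∈ range n, (1 + y ^ 2 / ((j : ℝ) + 1) ^ 2) :=
    Finset.prod_pos fun j _ => by (clear * - hy; positivity)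
  have hpi := Real.pi_ne_zero
  simp only [Function.comp_apply, id_eq, Pi.div_apply]
  rw [CoshProd_split]
  field_simp

theorem prod_le_cosh (n : ℕ) (y : ℝ) :
    ∏ m ∈ range n, (1 + y ^ 2 / ((m : ℝ) + 1 / 2) ^ 2) ≤ Real.cosh (Real.pi * y) := by
  rcases eq_or_ne y 0 with rfl | hy
  · simp
  · refine Monotone.ge_of_tendsto ?_ (CoshProd_tendsto hy) n
    refine monotone_nat_of_le_succ fun k => ?_
    rw [Finset.prod_range_succ]
    refine le_mul_of_one_le_right (Finset.prod_nonneg fun j _ => by positivity) ?_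
    have : 0 ≤ y ^ 2 / ((k : ℝ) + 1 / 2) ^ 2 := by positivity
    linarith

end Vale.Agent.P030.Five
end
end

section

section

/-! The pointwise bound on the vertical line. -/

namespace Vale.Agent.P030.Five

open Finset Polynomial MeasureTheory Vale.Agent.P030

theorem LineBd_norm_sub (c : ℕ) (y a : ℝ) :
    ‖ltp c y - (a : ℂ)‖ ^ 2 = ((c : ℝ) - a) ^ 2 + y ^ 2 := by
  rw [← Complex.normSq_eq_norm_sq, Complex.normSq_apply]
  simp [ltp]
  ring

theorem LineBd_norm_add (c : ℕ) (y a : ℝ) :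
    ‖ltp c y + (a : ℂ)‖ ^ 2 = ((c : ℝ) + a) ^ 2 + y ^ 2 := by
  rw [← Complex.normSq_eq_norm_sq, Complex.normSq_apply]
  simp [ltp]
  ring

/-- `((c-a)²+Y)((c+a)²+Y) ≥ (c²-a²)² (1+Y/c²)²`. -/
theorem LineBd_pair {c a Y : ℝ} (hc : 0 < c) (hY : 0 ≤ Y) :
    (c ^ 2 - a ^ 2) ^ 2 * (1 + Y / c ^ 2) ^ 2 ≤ ((c - a) ^ 2 + Y) * ((c + a) ^ 2 + Y) ∨
      c ^ 2 < a ^ 2 := by
  by_cases h : c ^ 2 < a ^ 2
  · exact Or.inr h
  left
  push Not at h
  have hc2 : 0 < c ^ 2 := by positivity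
  set w : ℝ := (c ^ 2 - a ^ 2) / c ^ 2 with hw
  have hw0 : 0 ≤ w := div_nonneg (by linarith only [h]) hc2.le
  have hw1 : w ≤ 1 := by
    rw [hw, div_le_one hc2]; linarith only [sq_nonneg a]
  have e1 : c ^ 2 - a ^ 2 = w * c ^ 2 := by rw [hw]; field_simp
  have e2 : (c ^ 2 - a ^ 2) ^ 2 * (1 + Y / c ^ 2) ^ 2 = ((c ^ 2 - a ^ 2) + w * Y) ^ 2 := by
    rw [e1]
    field_simp
  rw [e2]
  have e3 : ((c - a) ^ 2 + Y) * ((c + a) ^ 2 + Y) =
      (c ^ 2 - a ^ 2) ^ 2 + Y * (2 * c ^ 2 + 2 * a ^ 2) + Y ^ 2 := by ring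
  rw [e3]
  have h1 : w * (c ^ 2 - a ^ 2) ≤ c ^ 2 - a ^ 2 := by linarith only [mul_nonneg (sq_nonneg (a : ℝ)) (sub_nonneg.2 hw0), e1]
  have h2 : w ^ 2 * Y ^ 2 ≤ Y ^ 2 := by
    have : w ^ 2 ≤ 1 := by nlinarith only [hw1, hw0]
    linarith only [mul_nonneg (sq_nonneg Y) (sub_nonneg.2 this)]
  have h3 : 2 * Y * (w * (c ^ 2 - a ^ 2)) ≤ Y * (2 * c ^ 2 + 2 * a ^ 2) := by
    linarith only [mul_nonneg (sub_nonneg.2 hY) (sub_nonneg.2 h1), mul_nonneg (sq_nonneg a) (sub_nonneg.2 hY)]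
  linarith only [h3, h2]

theorem LineBd_reflect (N : ℕ) (F : ℤ → ℝ) :
    ∏ j ∈ Icc (-(N : ℤ)) N, F (-j) = ∏ j ∈ Icc (-(N : ℤ)) N, F j := by
  refine Finset.prod_bij' (fun j _ => -j) (fun j _ => -j) ?_ ?_ ?_ ?_ ?_
  · intro j hj; rw [Finset.mem_Icc] at hj ⊢; omega
  · intro j hj; rw [Finset.mem_Icc] at hj ⊢; omega
  · intro j hj; simp
  · intro j hj; simp
  · intro j hj; rfl

theorem LineBd_card (N : ℕ) : (Icc (-(N : ℤ)) N).card = 2 * N + 1 := by
  rw [Int.card_Icc]; omega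

theorem LineBd_Den_pos {N c : ℕ} (h : N < c) : 0 < Den N (c : ℝ) := by
  refine Finset.prod_pos fun j hj => ?_
  rw [Finset.mem_Icc] at hj
  have h1 : (j : ℝ) ≤ N := by exact_mod_cast hj.2
  have h2 : (N : ℝ) < c := by exact_mod_cast h
  linarith only [h1, h2]

/-- the product of the distances to the poles. -/
theorem LineBd_poles {N c : ℕ} (h : N < c) (y : ℝ) :
    Den N (c : ℝ) ^ 2 * (1 + y ^ 2 / (c : ℝ) ^ 2) ^ (2 * N + 1) ≤
      (∏ j ∈ Icc (-(N : ℤ)) N, ‖ltp c y - (j : ℂ)‖) ^ 2 := by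
  have hc : (0 : ℝ) < c := by exact_mod_cast (Nat.zero_le N).trans_lt h
  have hD := LineBd_Den_pos h
  have hz : 0 < 1 + y ^ 2 / (c : ℝ) ^ 2 := by (clear * - hc; positivity)
  have e0 : ∀ j : ℤ, ‖ltp c y - (j : ℂ)‖ ^ 2 = ((c : ℝ) - j) ^ 2 + y ^ 2 := by
    intro j
    have := LineBd_norm_sub c y (j : ℝ)
    push_cast at this
    exact this
  rw [← Finset.prod_pow]
  simp_rw [e0]
  refine le_of_sq_le_sq ?_ (Finset.prod_nonneg fun j _ => by (clear * -; positivity))
  have e1 : (∏ j ∈ Icc (-(N : ℤ)) N, (((c : ℝ) - j) ^ 2 + y ^ 2)) ^ 2 =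
      ∏ j ∈ Icc (-(N : ℤ)) N, ((((c : ℝ) - j) ^ 2 + y ^ 2) * (((c : ℝ) + j) ^ 2 + y ^ 2)) := by
    rw [Finset.prod_mul_distrib, sq]
    congr 1
    rw [← LineBd_reflect]
    refine Finset.prod_congr rfl fun j _ => ?_
    push_cast
    ring
  have e2 : (Den N (c : ℝ) ^ 2 * (1 + y ^ 2 / (c : ℝ) ^ 2) ^ (2 * N + 1)) ^ 2 =
      ∏ j ∈ Icc (-(N : ℤ)) N,
        ((((c : ℝ) ^ 2 - (j : ℝ) ^ 2) ^ 2) * (1 + y ^ 2 / (c : ℝ) ^ 2) ^ 2) := by
    rw [Finset.prod_mul_distrib, Finset.prod_const, LineBd_card, mul_pow, ← pow_mul, ← pow_mul,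
      ← pow_mul]
    congr 1
    · have : ∀ j : ℤ, (((c : ℝ) ^ 2 - (j : ℝ) ^ 2) ^ 2) =
        ((c : ℝ) - j) ^ 2 * ((c : ℝ) - ((-j : ℤ) : ℝ)) ^ 2 := by
        intro j; push_cast; ring
      simp_rw [this]
      rw [Finset.prod_mul_distrib, LineBd_reflect N (fun j => ((c : ℝ) - (j : ℝ)) ^ 2),
        Finset.prod_pow]
      unfold Den
      ring
    · ring
  rw [e1, e2]
  refine Finset.prod_le_prod (fun j _ => by (clear * - hc; positivity)) fun j hj => ?_
  rw [Finset.mem_Icc] at hj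
  rcases LineBd_pair (c := (c : ℝ)) (a := (j : ℝ)) hc (sq_nonneg y) with h1 | h1
  · exact h1
  · exfalso
    have h2 : |(j : ℝ)| ≤ N := by
      rw [abs_le]; constructor
      · exact_mod_cast hj.1
      · exact_mod_cast hj.2
    have h3 : (N : ℝ) < c := by exact_mod_cast h
    have h4 : (j : ℝ) ^ 2 ≤ (N : ℝ) ^ 2 := by
      rw [← sq_abs]; exact pow_le_pow_left₀ (abs_nonneg _) h2 2
    have h5 : (N : ℝ) ^ 2 ≤ (c : ℝ) ^ 2 := pow_le_pow_left₀ (Nat.cast_nonneg _) h3.le 2
    linarith only [h1, h4, h5]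

theorem LineBd_norm_ltp (c : ℕ) (hc : 0 < c) (y : ℝ) :
    ‖ltp c y‖ ^ 2 = (c : ℝ) ^ 2 * (1 + y ^ 2 / (c : ℝ) ^ 2) := by
  have hc' : (0 : ℝ) < c := by exact_mod_cast hc
  have h := LineBd_norm_sub c y 0
  simp only [Complex.ofReal_zero, sub_zero] at h
  rw [h]
  field_simp

theorem LineBd_f5_pos {N c : ℕ} (h : N < c) : 0 < f5 N (c : ℝ) := by
  have hc : (0 : ℝ) < c := by exact_mod_cast (Nat.zero_le N).trans_lt h
  have hD := LineBd_Den_pos h
  unfold f5
  positivity

/-- the decay of the weight on the line. -/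
theorem LineBd_fC {N c : ℕ} (h : N < c) (y : ℝ) :
    ‖fC N (ltp c y)‖ ≤ f5 N (c : ℝ) / (1 + y ^ 2 / (c : ℝ) ^ 2) ^ (5 * N + 2) := by
  have hc : (0 : ℝ) < c := by exact_mod_cast (Nat.zero_le N).trans_lt h
  have hD := LineBd_Den_pos h
  have hz : 0 < 1 + y ^ 2 / (c : ℝ) ^ 2 := by (clear * - hc; positivity)
  set w : ℝ := 1 + y ^ 2 / (c : ℝ) ^ 2 with hw
  set P : ℝ := ∏ j ∈ Icc (-(N : ℤ)) N, ‖ltp c y - (j : ℂ)‖ with hP
  have hP2 : Den N (c : ℝ) ^ 2 * w ^ (2 * N + 1) ≤ P ^ 2 := LineBd_poles h y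
  have hf := LineBd_f5_pos h
  have e1 : ‖fC N (ltp c y)‖ = ‖ltp c y‖ / P ^ 5 := by
    unfold fC
    rw [norm_div, norm_pow, norm_prod]
  rw [e1]
  refine le_of_sq_le_sq ?_ (by (clear * - hf hc; positivity))
  rw [div_pow, div_pow, LineBd_norm_ltp c (by omega) y]
  have h5 : (Den N (c : ℝ) ^ 2 * w ^ (2 * N + 1)) ^ 5 ≤ (P ^ 2) ^ 5 :=
    pow_le_pow_left₀ (by (clear * - hD hc; positivity)) hP2 5
  have h6 : (P ^ 5) ^ 2 = (P ^ 2) ^ 5 := by ring
  rw [h6]
  calc (c : ℝ) ^ 2 * w / (P ^ 2) ^ 5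
      ≤ (c : ℝ) ^ 2 * w / (Den N (c : ℝ) ^ 2 * w ^ (2 * N + 1)) ^ 5 :=
        div_le_div_of_nonneg_left (by (clear * - hc; positivity)) (by (clear * - hD hc; positivity)) h5
    _ = f5 N (c : ℝ) ^ 2 / (w ^ (5 * N + 2)) ^ 2 := by
        unfold f5
        have e : (w ^ (2 * N + 1)) ^ 5 = w * (w ^ (5 * N + 2)) ^ 2 := by
          rw [← pow_mul, ← pow_mul, ← pow_succ']
          congr 1
          ring
        rw [mul_pow, e]
        field_simp

/-! ### The factors at the sites -/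

/-- `1 + Y/(m+1/2)²`. -/
noncomputable def LineBd_g (y : ℝ) (m : ℕ) : ℝ := 1 + y ^ 2 / ((m : ℝ) + 1 / 2) ^ 2

theorem LineBd_g_pos (y : ℝ) (m : ℕ) : 0 < LineBd_g y m := by
  unfold LineBd_g; positivity

theorem LineBd_om_eval (M : ℕ) (x : ℝ) : (om M).eval x = ∏ i ∈ range (3 * M), (x - Tn M i) := by
  unfold om
  rw [eval_prod]
  simp

theorem LineBd_om (M : ℕ) (y : ℝ) :
    ‖aeval (ltp (5 * M) y ^ 2) (om M)‖ ^ 2 = ((om M).eval ((5 * (M : ℝ)) ^ 2)) ^ 2 *
      ((∏ m ∈ range (3 * M), LineBd_g y m) * ∏ m ∈ range (3 * M), LineBd_g y (7 * M + m)) := by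
  rw [← Finset.prod_range_reflect (fun m => LineBd_g y m), ← Finset.prod_mul_distrib,
    LineBd_om_eval, ← Finset.prod_pow, ← Finset.prod_mul_distrib]
  unfold om
  rw [map_prod, norm_prod, ← Finset.prod_pow]
  refine Finset.prod_congr rfl fun i hi => ?_
  rw [Finset.mem_range] at hi
  have e1 : aeval (ltp (5 * M) y ^ 2) (X - C (Tn M i)) =
      (ltp (5 * M) y - ((((2 * M : ℕ) : ℝ) + i + 1 / 2 : ℝ) : ℂ)) *
      (ltp (5 * M) y + ((((2 * M : ℕ) : ℝ) + i + 1 / 2 : ℝ) : ℂ)) := by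
    rw [map_sub, aeval_X, aeval_C]
    unfold Tn
    simp only [Complex.coe_algebraMap, Complex.ofReal_pow]
    ring
  rw [e1, norm_mul, mul_pow, LineBd_norm_sub, LineBd_norm_add]
  have hcast : ((3 * M - 1 - i : ℕ) : ℝ) = 3 * (M : ℝ) - 1 - i := by
    have : 3 * M - 1 - i = 3 * M - (1 + i) := by omega
    rw [this, Nat.cast_sub (by omega)]
    push_cast; ring
  unfold LineBd_g Tn
  rw [hcast]
  have hi' : (i : ℝ) + 1 ≤ 3 * M := by exact_mod_cast hi
  have h1 : (0 : ℝ) < 3 * M - 1 - i + 1 / 2 := by linarith only [hcast]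
  have h2 : (0 : ℝ) < ((7 * M + i : ℕ) : ℝ) + 1 / 2 := by positivity
  have h3 : ((5 * M : ℕ) : ℝ) - (((2 * M : ℕ) : ℝ) + i + 1 / 2) = 3 * M - 1 - i + 1 / 2 := by
    push_cast; ring
  have h4 : ((5 * M : ℕ) : ℝ) + (((2 * M : ℕ) : ℝ) + i + 1 / 2) =
      ((7 * M + i : ℕ) : ℝ) + 1 / 2 := by
    push_cast; ring
  have h5 : (5 * (M : ℝ)) ^ 2 - (((2 * M : ℕ) : ℝ) + i + 1 / 2) ^ 2 =
      (3 * M - 1 - i + 1 / 2) * (((7 * M + i : ℕ) : ℝ) + 1 / 2) := by
    push_cast; ring
  rw [h3, h4, h5]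
  generalize (3 * (M : ℝ) - 1 - i + 1 / 2) = u at h1
  generalize (((7 * M + i : ℕ) : ℝ) + 1 / 2) = v at h2
  field_simp

theorem LineBd_block1 (M : ℕ) (hM : 1 ≤ M) (y : ℝ) :
    (1 + y ^ 2 / (5 * (M : ℝ)) ^ 2) ^ (4 * M) ≤ ∏ m ∈ range (4 * M), LineBd_g y (3 * M + m) := by
  refine le_of_sq_le_sq ?_ (Finset.prod_nonneg fun m _ => (LineBd_g_pos y _).le)
  have e1 : (∏ m ∈ range (4 * M), LineBd_g y (3 * M + m)) ^ 2 =
      ∏ m ∈ range (4 * M), (LineBd_g y (3 * M + m) * LineBd_g y (3 * M + (4 * M - 1 - m))) := by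
    rw [Finset.prod_mul_distrib, Finset.prod_range_reflect (fun m => LineBd_g y (3 * M + m)), sq]
  have e2 : ((1 + y ^ 2 / (5 * (M : ℝ)) ^ 2) ^ (4 * M)) ^ 2 =
      ∏ m ∈ range (4 * M), (1 + y ^ 2 / (5 * (M : ℝ)) ^ 2) ^ 2 := by
    rw [Finset.prod_const, Finset.card_range, ← pow_mul, ← pow_mul]
    ring_nf
  rw [e1, e2]
  refine Finset.prod_le_prod (fun j _ => by (clear * - hM; positivity)) fun m hm => ?_
  rw [Finset.mem_range] at hm
  have hcast : ((3 * M + (4 * M - 1 - m) : ℕ) : ℝ) = 7 * (M : ℝ) - 1 - m := by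
    have : 3 * M + (4 * M - 1 - m) = 7 * M - (1 + m) := by omega
    rw [this, Nat.cast_sub (by omega)]
    push_cast; ring
  have hm' : (m : ℝ) + 1 ≤ 4 * M := by exact_mod_cast hm
  have hM' : (1 : ℝ) ≤ M := by exact_mod_cast hM
  unfold LineBd_g
  rw [hcast]
  have h1 : (0 : ℝ) < 7 * M - 1 - m + 1 / 2 := by linarith only [hm', hM']
  have h2 : (0 : ℝ) < ((3 * M + m : ℕ) : ℝ) + 1 / 2 := by positivity
  have hs : (((3 * M + m : ℕ) : ℝ) + 1 / 2) + (7 * (M : ℝ) - 1 - m + 1 / 2) = 2 * (5 * (M : ℝ)) := by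
    push_cast; ring
  generalize (7 * (M : ℝ) - 1 - m + 1 / 2) = u at h1 hs
  generalize (((3 * M + m : ℕ) : ℝ) + 1 / 2) = v at h2 hs
  have h5 : (0 : ℝ) < 5 * M := by positivity
  generalize (5 * (M : ℝ)) = c at h5 hs
  have h6 : (c ^ 2)⁻¹ ≤ v⁻¹ * u⁻¹ := by
    rw [← mul_inv]
    refine inv_anti₀ (by positivity) ?_
    linarith only [mul_eq_zero_of_left (sub_eq_zero.2 hs) (c - (0)), mul_eq_zero_of_left (sub_eq_zero.2 hs) (v + u - (2 * c)), sq_nonneg (u - v)]
  have h7 : y ^ 2 / c ^ 2 ≤ y ^ 2 * (v⁻¹ * u⁻¹) := by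
    rw [div_eq_mul_inv]
    exact mul_le_mul_of_nonneg_left h6 (sq_nonneg y)
  calc (1 + y ^ 2 / c ^ 2) ^ 2 ≤ (1 + y ^ 2 * (v⁻¹ * u⁻¹)) ^ 2 :=
        pow_le_pow_left₀ (by (clear * - h5; positivity)) (by linarith only [h7]) 2
    _ ≤ (1 + y ^ 2 / v ^ 2) * (1 + y ^ 2 / u ^ 2) := by
        have e : (1 + y ^ 2 / v ^ 2) * (1 + y ^ 2 / u ^ 2) - (1 + y ^ 2 * (v⁻¹ * u⁻¹)) ^ 2 =
            y ^ 2 * (v⁻¹ - u⁻¹) ^ 2 := by
          rw [div_eq_mul_inv, div_eq_mul_inv, ← inv_pow, ← inv_pow]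
          ring
        linarith only [e, mul_nonneg (sq_nonneg y) (sq_nonneg (v⁻¹ - u⁻¹))]

theorem LineBd_block2 (M j : ℕ) (hM : 1 ≤ M) (hj : j ≤ 2 * M) (y : ℝ) :
    (1 + y ^ 2 / (4 * (5 * (M : ℝ)) ^ 2)) ^ j ≤
      ∏ m ∈ range (10 * M), LineBd_g y (10 * M + m) := by
  have hM' : (1 : ℝ) ≤ M := by exact_mod_cast hM
  set x : ℝ := y ^ 2 / (20 * (M : ℝ)) ^ 2 with hx
  have hx0 : 0 ≤ x := by positivity
  have h1 : y ^ 2 / (4 * (5 * (M : ℝ)) ^ 2) = 4 * x := by
    rw [hx]; field_simp; ring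
  have h2 : 1 + 4 * x ≤ (1 + x) ^ 4 := by
    have := one_add_mul_le_pow (a := x) (by linarith only [hx0]) 4
    simpa using this
  calc (1 + y ^ 2 / (4 * (5 * (M : ℝ)) ^ 2)) ^ j = (1 + 4 * x) ^ j := by rw [h1]
    _ ≤ ((1 + x) ^ 4) ^ j := pow_le_pow_left₀ (by (clear * - hM; positivity)) h2 j
    _ = (1 + x) ^ (4 * j) := by rw [← pow_mul]
    _ ≤ (1 + x) ^ (10 * M) := pow_le_pow_right₀ (by linarith only [hx0]) (by omega)
    _ = ∏ m ∈ range (10 * M), (1 + x) := by rw [Finset.prod_const, Finset.card_range]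
    _ ≤ ∏ m ∈ range (10 * M), LineBd_g y (10 * M + m) := by
        refine Finset.prod_le_prod (fun _ _ => by (clear * - hM; positivity)) fun m hm => ?_
        rw [Finset.mem_range] at hm
        have hm' : (m : ℝ) + 1 ≤ 10 * M := by exact_mod_cast hm
        unfold LineBd_g
        rw [hx]
        have h3 : (((10 * M + m : ℕ) : ℝ) + 1 / 2) ^ 2 ≤ (20 * (M : ℝ)) ^ 2 := by
          refine pow_le_pow_left₀ (by positivity) ?_ 2
          push_cast; linarith only [hm']
        have : y ^ 2 / (20 * (M : ℝ)) ^ 2 ≤ y ^ 2 / (((10 * M + m : ℕ) : ℝ) + 1 / 2) ^ 2 :=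
          div_le_div_of_nonneg_left (sq_nonneg y) (by positivity) h3
        linarith only [this]

theorem LineBd_split (M : ℕ) (y : ℝ) : ∏ m ∈ range (20 * M), LineBd_g y m =
    (∏ m ∈ range (3 * M), LineBd_g y m) * (∏ m ∈ range (4 * M), LineBd_g y (3 * M + m)) *
      (∏ m ∈ range (3 * M), LineBd_g y (7 * M + m)) *
      ∏ m ∈ range (10 * M), LineBd_g y (10 * M + m) := by
  have e1 : 20 * M = 10 * M + 10 * M := by ring
  have e2 : 10 * M = 7 * M + 3 * M := by ring
  have e3 : 7 * M = 3 * M + 4 * M := by ring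
  rw [e1, Finset.prod_range_add]
  congr 1
  conv_lhs => rw [e2, Finset.prod_range_add]
  congr 1
  conv_lhs => rw [e3, Finset.prod_range_add]

theorem LineBd_shift (c : ℕ) (y : ℝ) :
    ‖ltp c y ^ 2 - (((c : ℝ) ^ 2 : ℝ) : ℂ)‖ ^ 2 = y ^ 2 * (4 * (c : ℝ) ^ 2 + y ^ 2) := by
  have e : ltp c y ^ 2 - (((c : ℝ) ^ 2 : ℝ) : ℂ) =
      (ltp c y - ((c : ℝ) : ℂ)) * (ltp c y + ((c : ℝ) : ℂ)) := by
    push_cast; ring
  rw [e, norm_mul, mul_pow, LineBd_norm_sub, LineBd_norm_add]
  ring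

theorem LineBd_choose (n j : ℕ) (hj : j ≤ n) {z : ℝ} (hz : 0 ≤ z) :
    (n.choose j : ℝ) * z ^ j ≤ (1 + z) ^ n := by
  rw [add_comm 1 z, add_pow]
  have := Finset.single_le_sum (s := Finset.range (n + 1))
    (f := fun m => z ^ m * 1 ^ (n - m) * (n.choose m : ℝ))
    (fun i _ => by positivity) (Finset.mem_range.mpr (Nat.lt_succ_of_le hj))
  simp only [one_pow, mul_one] at this ⊢
  linarith only [this]

theorem LineBd_of
    (prod_le_cosh : ∀ (n : ℕ) (y : ℝ),
      ∏ m ∈ range n, (1 + y ^ 2 / ((m : ℝ) + 1 / 2) ^ 2) ≤ Real.cosh (Real.pi * y))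
    (M j : ℕ) (hM : 1 ≤ M) (hj : j ≤ 2 * M) (y : ℝ) :
    lw (2 * M) (5 * M) y *
      (‖aeval (ltp (5 * M) y ^ 2) (om M)‖ ^ 2 *
        (‖ltp (5 * M) y ^ 2 - (((5 * (M : ℝ)) ^ 2 : ℝ) : ℂ)‖ ^ 2) ^ j) ≤
      F0 M * (4 * (5 * (M : ℝ)) ^ 4) ^ j / ((14 * M).choose j : ℝ) *
        (1 + y ^ 2 / (5 * (M : ℝ)) ^ 2)⁻¹ := by
  have hM' : (1 : ℝ) ≤ M := by exact_mod_cast hM
  have hcc : ((5 * M : ℕ) : ℝ) = 5 * (M : ℝ) := by push_cast; ring
  have hfC := LineBd_fC (N := 2 * M) (c := 5 * M) (by omega) y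
  have hsh := LineBd_shift (5 * M) y
  have hB1 := LineBd_block1 M hM y
  have hB2 := LineBd_block2 M j hM hj y
  have hsplit := LineBd_split M y
  have hcosh : ∏ m ∈ range (20 * M), LineBd_g y m ≤ Real.cosh (Real.pi * y) :=
    prod_le_cosh (20 * M) y
  rw [hcc] at hfC hsh
  rw [LineBd_om, hsh]
  set c : ℝ := 5 * (M : ℝ) with hc
  have hc0 : 0 < c := by positivity
  set z : ℝ := y ^ 2 / c ^ 2 with hz
  have hz0 : 0 ≤ z := by (clear * - hM; positivity)
  set A : ℝ := ∏ m ∈ range (3 * M), LineBd_g y m with hA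
  set B : ℝ := ∏ m ∈ range (3 * M), LineBd_g y (7 * M + m) with hB
  set B1 : ℝ := ∏ m ∈ range (4 * M), LineBd_g y (3 * M + m) with hB1'
  set B2 : ℝ := ∏ m ∈ range (10 * M), LineBd_g y (10 * M + m) with hB2'
  have hA0 : 0 < A := Finset.prod_pos fun m _ => LineBd_g_pos y _
  have hB0 : 0 < B := Finset.prod_pos fun m _ => LineBd_g_pos y _
  have hB10 : 0 < B1 := Finset.prod_pos fun m _ => LineBd_g_pos y _
  have hB20 : 0 < B2 := Finset.prod_pos fun m _ => LineBd_g_pos y _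
  have hf5 : 0 < f5 (2 * M) c := by
    have := LineBd_f5_pos (N := 2 * M) (c := 5 * M) (by omega)
    rwa [hcc] at this
  have hC0 : (0 : ℝ) < ((14 * M).choose j : ℝ) := by
    exact_mod_cast Nat.choose_pos (by omega)
  -- the hyperbolic factor
  have hch : (2 * Real.cosh (Real.pi * y))⁻¹ ≤ (2 * (A * B1 * B * B2))⁻¹ := by
    refine inv_anti₀ (by (clear * - hA0 hB10 hB0 hB20; positivity)) ?_
    rw [← hsplit]
    linarith only [hcosh]
  have hlw : lw (2 * M) (5 * M) y ≤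
      f5 (2 * M) c / (1 + z) ^ (5 * (2 * M) + 2) * (2 * (A * B1 * B * B2))⁻¹ := by
    unfold lw
    exact mul_le_mul hfC hch (by positivity) (by (clear * - hf5 hM; positivity))
  have hsh2 : y ^ 2 * (4 * c ^ 2 + y ^ 2) =
      (4 * c ^ 4) * z * (1 + y ^ 2 / (4 * c ^ 2)) := by
    rw [hz]; field_simp
  have hE0 : 0 ≤ (om M).eval (c ^ 2) ^ 2 * (A * B) * (y ^ 2 * (4 * c ^ 2 + y ^ 2)) ^ j := by
    (clear * - hA0 hB0 hM; positivity)
  calc lw (2 * M) (5 * M) y * ((om M).eval (c ^ 2) ^ 2 * (A * B) *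
        (y ^ 2 * (4 * c ^ 2 + y ^ 2)) ^ j)
      ≤ (f5 (2 * M) c / (1 + z) ^ (5 * (2 * M) + 2) * (2 * (A * B1 * B * B2))⁻¹) *
        ((om M).eval (c ^ 2) ^ 2 * (A * B) * (y ^ 2 * (4 * c ^ 2 + y ^ 2)) ^ j) :=
        mul_le_mul_of_nonneg_right hlw hE0
    _ = F0 M * (4 * c ^ 4) ^ j * (z ^ j / (1 + z) ^ (10 * M)) *
        ((1 + y ^ 2 / (4 * c ^ 2)) ^ j / B2) * (1 / B1) * (1 / (1 + z) ^ 2) := by
        rw [hsh2, mul_pow (4 * c ^ 4 * z), mul_pow (4 * c ^ 4) z]
        unfold F0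
        rw [← hc]
        have e : (1 + z) ^ (5 * (2 * M) + 2) = (1 + z) ^ (10 * M) * (1 + z) ^ 2 := by
          rw [← pow_add]; ring_nf
        rw [e]
        generalize (om M).eval (c ^ 2) = E
        generalize (1 + y ^ 2 / (4 * c ^ 2)) ^ j = G
        generalize (4 * c ^ 4) ^ j = H
        generalize z ^ j = Z
        field_simp
    _ ≤ F0 M * (4 * c ^ 4) ^ j * (z ^ j / (1 + z) ^ (10 * M)) * 1 * (1 / (1 + z) ^ (4 * M)) *
        (1 / (1 + z)) := by
        have hF0 : 0 ≤ F0 M := by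
          unfold F0
          rw [← hc]
          (clear * - hf5; positivity)
        have hX : 0 ≤ F0 M * (4 * c ^ 4) ^ j * (z ^ j / (1 + z) ^ (10 * M)) := by (clear * - hF0 hM; positivity)
        refine mul_le_mul (mul_le_mul (mul_le_mul_of_nonneg_left ?_ hX) ?_ (by (clear * - hB10; positivity))
          (by (clear * - hF0 hM; positivity))) ?_ (by (clear * - hM; positivity)) (by (clear * - hF0 hM; positivity))
        · rw [div_le_one hB20]; exact hB2
        · exact one_div_le_one_div_of_le (by positivity) hB1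
        · refine one_div_le_one_div_of_le (by (clear * - hM; positivity)) ?_
          (by_contra nlg; linarith only [nlg, mul_pos (sub_pos.2 (not_le.1 nlg)) (sub_pos.2 (not_le.1 nlg)), mul_nonneg (sq_nonneg (1 + z : ℝ)) (sub_nonneg.2 hz0), mul_nonneg (sq_nonneg (1 + z : ℝ)) (le_of_lt (sub_pos.2 (not_le.1 nlg)))])
    _ = F0 M * (4 * c ^ 4) ^ j * (z ^ j / (1 + z) ^ (14 * M)) * (1 + z)⁻¹ := by
        have e : (1 + z) ^ (14 * M) = (1 + z) ^ (10 * M) * (1 + z) ^ (4 * M) := by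
          rw [← pow_add]; ring_nf
        rw [e]
        field_simp
    _ ≤ F0 M * (4 * c ^ 4) ^ j * (1 / ((14 * M).choose j : ℝ)) * (1 + z)⁻¹ := by
        have hF0 : 0 ≤ F0 M := by
          unfold F0
          rw [← hc]
          (clear * - hf5; positivity)
        refine mul_le_mul_of_nonneg_right (mul_le_mul_of_nonneg_left ?_ (by (clear * - hF0 hM; positivity)))
          (by (clear * - hM; positivity))
        rw [div_le_div_iff₀ (by (clear * - hM; positivity)) hC0, one_mul, mul_comm]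
        exact LineBd_choose _ _ (by omega) hz0
    _ = F0 M * (4 * c ^ 4) ^ j / ((14 * M).choose j : ℝ) * (1 + z)⁻¹ := by ring

theorem line_pointwise (M j : ℕ) (hM : 1 ≤ M) (hj : j ≤ 2 * M) (y : ℝ) :
    lw (2 * M) (5 * M) y *
      (‖aeval (ltp (5 * M) y ^ 2) (om M)‖ ^ 2 *
        (‖ltp (5 * M) y ^ 2 - (((5 * (M : ℝ)) ^ 2 : ℝ) : ℂ)‖ ^ 2) ^ j) ≤
      F0 M * (4 * (5 * (M : ℝ)) ^ 4) ^ j / ((14 * M).choose j : ℝ) *
        (1 + y ^ 2 / (5 * (M : ℝ)) ^ 2)⁻¹ :=
  LineBd_of prod_le_cosh M j hM hj y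

end Vale.Agent.P030.Five
end
end

section

section

/-! Task A7: bounds of the norms. -/

namespace Vale.Agent.P030.Five

open Finset Polynomial MeasureTheory Vale.Agent.P030

lemma nrm_integrable_sq (N c : ℕ) (hN : N < c) (A : ℝ[X]) :
    Integrable fun y : ℝ => lw N c y * ‖aeval (ltp c y ^ 2) A‖ ^ 2 := by
  have h := integrable_lw N c hN A A
  simpa only [← pow_two] using h

lemma nrm_lw_nonneg (N c : ℕ) (y : ℝ) : 0 ≤ lw N c y := by
  unfold lw
  have : 0 < Real.cosh (Real.pi * y) := Real.cosh_pos _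
  positivity

lemma nrm_aeval_om (M : ℕ) (z : ℂ) :
    aeval z (om M) = ∏ i ∈ range (3 * M), (z - ((Tn M i : ℝ) : ℂ)) := by
  unfold om
  rw [map_prod]
  refine prod_congr rfl fun i _ => ?_
  rw [map_sub, aeval_X, aeval_C]
  rfl

lemma nrm_aeval_lag (M a : ℕ) (z : ℂ) :
    aeval z (lag M a) = ∏ l ∈ (range (3 * M)).erase a,
      ((((Tn M a - Tn M l)⁻¹ : ℝ) : ℂ) * (z - ((Tn M l : ℝ) : ℂ))) := by
  unfold lag
  rw [map_prod]
  refine prod_congr rfl fun i _ => ?_
  rw [map_mul, map_sub, aeval_X, aeval_C, aeval_C]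
  rfl

lemma nrm_integral_scale (c : ℝ) (hc : 0 < c) :
    Integrable (fun y : ℝ => (1 + y ^ 2 / c ^ 2)⁻¹) ∧
      ∫ y : ℝ, (1 + y ^ 2 / c ^ 2)⁻¹ = c * Real.pi := by
  have e : (fun y : ℝ => (1 + y ^ 2 / c ^ 2)⁻¹) = fun y : ℝ => (fun x : ℝ => (1 + x ^ 2)⁻¹) (y / c) := by
    funext y
    simp only [div_pow]
  rw [e]
  constructor
  · exact integrable_inv_one_add_sq.comp_div hc.ne'
  · refine (Measure.integral_comp_div (fun x : ℝ => (1 + x ^ 2)⁻¹) c).trans ?_
    rw [integral_univ_inv_one_add_sq, smul_eq_mul, abs_of_pos hc]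

lemma nrm_om_eval (M i : ℕ) (hi : i < 3 * M) : (om M).eval (Tn M i) = 0 := by
  unfold om
  rw [eval_prod]
  exact prod_eq_zero (mem_range.2 hi) (by simp)

lemma nrm_sites (M : ℕ) : 5 * M - 2 * M = 3 * M := by omega

lemma nrm_om_eq (M j : ℕ) :
    nrm (2 * M) (5 * M) (om M * (X - C ((5 * (M : ℝ)) ^ 2)) ^ j) =
      ∫ y : ℝ, lw (2 * M) (5 * M) y *
        ‖aeval (ltp (5 * M) y ^ 2) (om M * (X - C ((5 * (M : ℝ)) ^ 2)) ^ j)‖ ^ 2 := by
  unfold nrm
  rw [nrm_sites, sum_eq_zero, zero_add]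
  intro i hi
  have h := nrm_om_eval M i (mem_range.1 hi)
  unfold Tn at h
  rw [eval_mul, h, zero_mul]
  simp

lemma nrm_om_integrand (M j : ℕ) (y : ℝ) :
    ‖aeval (ltp (5 * M) y ^ 2) (om M * (X - C ((5 * (M : ℝ)) ^ 2)) ^ j)‖ ^ 2 =
      ‖aeval (ltp (5 * M) y ^ 2) (om M)‖ ^ 2 *
        (‖ltp (5 * M) y ^ 2 - (((5 * (M : ℝ)) ^ 2 : ℝ) : ℂ)‖ ^ 2) ^ j := by
  rw [map_mul, map_pow, map_sub, aeval_X, aeval_C, norm_mul, norm_pow, mul_pow, ← pow_mul,
    ← pow_mul, mul_comm j 2]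
  rfl

theorem nrm_om_le (M j : ℕ) (hM : 1 ≤ M) (hj : j ≤ 2 * M) :
    nrm (2 * M) (5 * M) (om M * (X - C ((5 * (M : ℝ)) ^ 2)) ^ j) ≤
      5 * Real.pi * M * F0 M * (4 * (5 * (M : ℝ)) ^ 4) ^ j / ((14 * M).choose j : ℝ) := by
  have hM0 : (0 : ℝ) < M := by exact_mod_cast hM
  have hc : (0 : ℝ) < 5 * M := by positivity
  obtain ⟨h1, h2⟩ := nrm_integral_scale (5 * (M : ℝ)) hc
  rw [nrm_om_eq]
  have h3 : ∫ y : ℝ, lw (2 * M) (5 * M) y *
        ‖aeval (ltp (5 * M) y ^ 2) (om M * (X - C ((5 * (M : ℝ)) ^ 2)) ^ j)‖ ^ 2 ≤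
      ∫ y : ℝ, F0 M * (4 * (5 * (M : ℝ)) ^ 4) ^ j / ((14 * M).choose j : ℝ) *
        (1 + y ^ 2 / (5 * (M : ℝ)) ^ 2)⁻¹ := by
    refine integral_mono (nrm_integrable_sq _ _ (by omega) _) (h1.const_mul _) fun y => ?_
    simp only
    rw [nrm_om_integrand]
    exact line_pointwise M j hM hj y
  refine h3.trans (le_of_eq ?_)
  rw [integral_const_mul, h2]
  ring

lemma nrm_Tn_ne {M a l : ℕ} (h : a ≠ l) : Tn M a - Tn M l ≠ 0 := by
  unfold Tn
  intro h0
  have h1 : (((2 * M : ℕ) : ℝ) + a + 1 / 2) ^ 2 = (((2 * M : ℕ) : ℝ) + l + 1 / 2) ^ 2 := by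
    linarith
  have h2 := (pow_left_inj₀ (by positivity) (by (clear * -; positivity)) two_ne_zero).1 h1
  have h3 : (a : ℝ) = l := by linarith only [h2]
  exact h (by exact_mod_cast h3)

lemma nrm_omp_pos (M a : ℕ) : 0 < omp M a := by
  unfold omp
  refine prod_pos fun l hl => abs_pos.2 (nrm_Tn_ne ?_)
  exact (ne_of_mem_erase hl).symm

lemma nrm_lag_eval (M a i : ℕ) (hi : i < 3 * M) :
    (lag M a).eval (Tn M i) = if i = a then 1 else 0 := by
  unfold lag
  rw [eval_prod]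
  split_ifs with h
  · subst h
    refine prod_eq_one fun l hl => ?_
    rw [eval_mul, eval_C, eval_sub, eval_X, eval_C]
    exact inv_mul_cancel₀ (nrm_Tn_ne (ne_of_mem_erase hl).symm)
  · exact prod_eq_zero (mem_erase.2 ⟨h, mem_range.2 hi⟩) (by simp)

lemma nrm_Den_pos (N : ℕ) {t : ℝ} (ht : (N : ℝ) < t) : 0 < Den N t := by
  unfold Den
  refine prod_pos fun j hj => ?_
  have h1 : (j : ℝ) ≤ N := by exact_mod_cast (mem_Icc.1 hj).2
  linarith

lemma nrm_f5_pos (N : ℕ) {t : ℝ} (ht : (N : ℝ) < t) : 0 < f5 N t := by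
  unfold f5
  have h0 : (0 : ℝ) ≤ N := Nat.cast_nonneg N
  have h1 : 0 < t := by linarith
  have := nrm_Den_pos N ht
  (clear * - h1 this; positivity)

lemma nrm_ws_pos (M a : ℕ) : 0 < ws M a := by
  unfold ws
  refine nrm_f5_pos _ ?_
  have : (0 : ℝ) ≤ a := Nat.cast_nonneg a
  linarith

lemma nrm_lag_eq (M a : ℕ) (ha : a < 3 * M) :
    nrm (2 * M) (5 * M) (lag M a) = ws M a +
      ∫ y : ℝ, lw (2 * M) (5 * M) y * ‖aeval (ltp (5 * M) y ^ 2) (lag M a)‖ ^ 2 := by
  unfold nrm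
  rw [nrm_sites, sum_eq_single_of_mem a (mem_range.2 ha)]
  · have h := nrm_lag_eval M a a ha
    have h1 := nrm_ws_pos M a
    unfold Tn at h
    unfold ws at h1 ⊢
    rw [h, abs_of_pos h1]
    simp
  · intro i hi hne
    have h := nrm_lag_eval M a i (mem_range.1 hi)
    unfold Tn at h
    rw [h, if_neg hne]
    simp

lemma nrm_dist_ge (M a : ℕ) (hM : 1 ≤ M) (ha : a < 3 * M) (y : ℝ) :
    1 ≤ ‖ltp (5 * M) y ^ 2 - ((Tn M a : ℝ) : ℂ)‖ := by
  have hM1 : (1 : ℝ) ≤ M := by exact_mod_cast hM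
  have ha1 : (a : ℝ) + 1 ≤ 3 * M := by exact_mod_cast ha
  have ha0 : (0 : ℝ) ≤ a := Nat.cast_nonneg a
  have e : ltp (5 * M) y ^ 2 - ((Tn M a : ℝ) : ℂ) =
      (ltp (5 * M) y - (((2 * M : ℕ) : ℝ) + a + 1 / 2 : ℝ)) *
        (ltp (5 * M) y + (((2 * M : ℕ) : ℝ) + a + 1 / 2 : ℝ)) := by
    unfold Tn
    push_cast
    ring
  rw [e, norm_mul]
  have h1 : (1 : ℝ) / 2 ≤ ‖ltp (5 * M) y - (((2 * M : ℕ) : ℝ) + a + 1 / 2 : ℝ)‖ := by
    refine le_trans ?_ (Complex.abs_re_le_norm _)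
    refine le_trans ?_ (le_abs_self _)
    unfold ltp
    simp
    linarith only [ha1]
  have h2 : (2 : ℝ) ≤ ‖ltp (5 * M) y + (((2 * M : ℕ) : ℝ) + a + 1 / 2 : ℝ)‖ := by
    refine le_trans ?_ (Complex.abs_re_le_norm _)
    refine le_trans ?_ (le_abs_self _)
    unfold ltp
    simp
    linarith only [hM1]
  nlinarith only [h1, h2]

lemma nrm_lag_norm_le (M a : ℕ) (hM : 1 ≤ M) (ha : a < 3 * M) (y : ℝ) :
    ‖aeval (ltp (5 * M) y ^ 2) (lag M a)‖ ≤ ‖aeval (ltp (5 * M) y ^ 2) (om M)‖ / omp M a := by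
  have hp := nrm_omp_pos M a
  rw [nrm_aeval_lag, nrm_aeval_om, norm_prod, norm_prod,
    ← mul_prod_erase (range (3 * M)) _ (mem_range.2 ha), le_div_iff₀ hp]
  unfold omp
  rw [← prod_mul_distrib]
  have e : ∏ l ∈ (range (3 * M)).erase a,
      (‖(((Tn M a - Tn M l)⁻¹ : ℝ) : ℂ) * (ltp (5 * M) y ^ 2 - ((Tn M l : ℝ) : ℂ))‖ *
        |Tn M a - Tn M l|) =
      ∏ l ∈ (range (3 * M)).erase a, ‖ltp (5 * M) y ^ 2 - ((Tn M l : ℝ) : ℂ)‖ := by
    refine prod_congr rfl fun l hl => ?_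
    have h := nrm_Tn_ne (M := M) (ne_of_mem_erase hl).symm
    rw [norm_mul, Complex.norm_real, Real.norm_eq_abs, abs_inv, mul_comm, ← mul_assoc,
      mul_inv_cancel₀ (abs_ne_zero.2 h), one_mul]
  rw [e]
  exact le_mul_of_one_le_left (prod_nonneg fun _ _ => norm_nonneg _) (nrm_dist_ge M a hM ha y)

theorem nrm_lag_le (M a : ℕ) (hM : 1 ≤ M) (ha : a < 3 * M) :
    nrm (2 * M) (5 * M) (lag M a) ≤ ws M a + 5 * Real.pi * M * F0 M / omp M a ^ 2 := by
  have hM0 : (0 : ℝ) < M := by exact_mod_cast hM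
  have hc : (0 : ℝ) < 5 * M := by positivity
  have hp := nrm_omp_pos M a
  obtain ⟨h1, h2⟩ := nrm_integral_scale (5 * (M : ℝ)) hc
  rw [nrm_lag_eq M a ha]
  have h3 : ∫ y : ℝ, lw (2 * M) (5 * M) y * ‖aeval (ltp (5 * M) y ^ 2) (lag M a)‖ ^ 2 ≤
      ∫ y : ℝ, F0 M / omp M a ^ 2 * (1 + y ^ 2 / (5 * (M : ℝ)) ^ 2)⁻¹ := by
    refine integral_mono (nrm_integrable_sq _ _ (by omega) _) (h1.const_mul _) fun y => ?_
    simp only
    have h4 := line_pointwise M 0 hM (Nat.zero_le _) y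
    simp only [pow_zero, mul_one, Nat.choose_zero_right, Nat.cast_one, div_one] at h4
    have h5 := nrm_lag_norm_le M a hM ha y
    have h6 : ‖aeval (ltp (5 * M) y ^ 2) (lag M a)‖ ^ 2 ≤
        ‖aeval (ltp (5 * M) y ^ 2) (om M)‖ ^ 2 / omp M a ^ 2 := by
      rw [← div_pow]
      exact pow_le_pow_left₀ (norm_nonneg _) h5 2
    calc lw (2 * M) (5 * M) y * ‖aeval (ltp (5 * M) y ^ 2) (lag M a)‖ ^ 2
        ≤ lw (2 * M) (5 * M) y * (‖aeval (ltp (5 * M) y ^ 2) (om M)‖ ^ 2 / omp M a ^ 2) :=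
          mul_le_mul_of_nonneg_left h6 (nrm_lw_nonneg _ _ _)
      _ = (lw (2 * M) (5 * M) y * ‖aeval (ltp (5 * M) y ^ 2) (om M)‖ ^ 2) / omp M a ^ 2 := by
          ring
      _ ≤ (F0 M * (1 + y ^ 2 / (5 * (M : ℝ)) ^ 2)⁻¹) / omp M a ^ 2 := by
          gcongr
      _ = F0 M / omp M a ^ 2 * (1 + y ^ 2 / (5 * (M : ℝ)) ^ 2)⁻¹ := by ring
  have h7 : ∫ y : ℝ, F0 M / omp M a ^ 2 * (1 + y ^ 2 / (5 * (M : ℝ)) ^ 2)⁻¹ =
      5 * Real.pi * M * F0 M / omp M a ^ 2 := by
    rw [integral_const_mul, h2]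
    ring
  linarith only [h3, h7]

lemma nrm_ltp_re (c : ℕ) (y : ℝ) : (ltp c y).re = c := by
  unfold ltp
  simp

lemma nrm_ltp_im (c : ℕ) (y : ℝ) : (ltp c y).im = y := by
  unfold ltp
  simp

lemma nrm_lw_pos (M : ℕ) (hM : 1 ≤ M) (y : ℝ) : 0 < lw (2 * M) (5 * M) y := by
  unfold lw
  have h1 : 0 < Real.cosh (Real.pi * y) := Real.cosh_pos _
  have h2 : fC (2 * M) (ltp (5 * M) y) ≠ 0 := by
    unfold fC
    refine div_ne_zero ?_ (pow_ne_zero _ (prod_ne_zero_iff.2 fun j hj => ?_))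
    · intro h
      have := congrArg Complex.re h
      rw [nrm_ltp_re] at this
      simp at this
      omega
    · intro h
      have h3 := congrArg Complex.re (sub_eq_zero.1 h)
      rw [nrm_ltp_re] at h3
      simp at h3
      have h4 : ((5 * M : ℕ) : ℤ) = j := by exact_mod_cast h3
      have h5 := (mem_Icc.1 hj).2
      push_cast at h4 h5
      omega
  have h3 : 0 < ‖fC (2 * M) (ltp (5 * M) y)‖ := norm_pos_iff.2 h2
  positivity

lemma nrm_sq_sub_ne (c : ℕ) {y : ℝ} (hy : y ≠ 0) (r : ℝ) :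
    ltp c y ^ 2 - ((r ^ 2 : ℝ) : ℂ) ≠ 0 := by
  have e : ltp c y ^ 2 - ((r ^ 2 : ℝ) : ℂ) = (ltp c y - (r : ℂ)) * (ltp c y + (r : ℂ)) := by
    push_cast
    ring
  rw [e]
  refine mul_ne_zero (fun h => hy ?_) (fun h => hy ?_)
  · have := congrArg Complex.im h
    simpa [nrm_ltp_im] using this
  · have := congrArg Complex.im h
    simpa [nrm_ltp_im] using this

theorem nrm_om_pos (M j : ℕ) (hM : 1 ≤ M) :
    0 < nrm (2 * M) (5 * M) (om M * (X - C ((5 * (M : ℝ)) ^ 2)) ^ j) := by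
  rw [nrm_om_eq, integral_pos_iff_support_of_nonneg]
  · have hsub : Set.Ioi (0 : ℝ) ⊆ Function.support fun y : ℝ => lw (2 * M) (5 * M) y *
        ‖aeval (ltp (5 * M) y ^ 2) (om M * (X - C ((5 * (M : ℝ)) ^ 2)) ^ j)‖ ^ 2 := by
      intro y hy
      have hy0 : y ≠ 0 := ne_of_gt hy
      rw [Function.mem_support]
      refine mul_ne_zero (nrm_lw_pos M hM y).ne' (pow_ne_zero _ (norm_ne_zero_iff.2 ?_))
      rw [map_mul, map_pow, map_sub, aeval_X, aeval_C, nrm_aeval_om]
      refine mul_ne_zero (prod_ne_zero_iff.2 fun i _ => ?_) (pow_ne_zero _ ?_)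
      · unfold Tn
        exact nrm_sq_sub_ne _ hy0 _
      · exact nrm_sq_sub_ne _ hy0 _
    refine lt_of_lt_of_le ?_ (measure_mono hsub)
    simp
  · intro y
    exact mul_nonneg (nrm_lw_nonneg _ _ _) (by positivity)
  · exact nrm_integrable_sq _ _ (by omega) _

theorem nrm_lag_pos (M a : ℕ) (hM : 1 ≤ M) (ha : a < 3 * M) :
    0 < nrm (2 * M) (5 * M) (lag M a) := by
  rw [nrm_lag_eq M a ha]
  have h1 := nrm_ws_pos M a
  have h2 : 0 ≤ ∫ y : ℝ, lw (2 * M) (5 * M) y *
      ‖aeval (ltp (5 * M) y ^ 2) (lag M a)‖ ^ 2 :=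
    integral_nonneg fun y => mul_nonneg (nrm_lw_nonneg _ _ _) (by positivity)
  linarith only [h1, h2]

end Vale.Agent.P030.Five
end
end

section

section

/-! Explicit values of the products `Vn`, `omp`, and bounds for `ws`, `F0`. -/

namespace Vale.Agent.P030.Five

open Finset Polynomial MeasureTheory Vale.Agent.P030

theorem Fact_Tn_sub (M a l : ℕ) :
    Tn M a - Tn M l = ((a : ℝ) - l) * (4 * M + a + l + 1) := by
  unfold Tn
  push_cast
  ring

/-- `∏_{l<a} (a - l) = a!`. -/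
theorem Fact_prod_sub (a : ℕ) : ∏ l ∈ range a, ((a : ℝ) - l) = a.factorial := by
  rw [← Nat.descFactorial_self a, Nat.descFactorial_eq_prod_range]
  push_cast
  refine Finset.prod_congr rfl fun i hi => ?_
  rw [Nat.cast_sub (Finset.mem_range.1 hi).le]

/-- `∏_{l<k} (n + 1 + l) = (n+k)!/n!`. -/
theorem Fact_prod_asc (n k : ℕ) :
    ∏ l ∈ range k, ((n : ℝ) + 1 + l) = ((n + k).factorial : ℝ) / n.factorial := by
  rw [eq_div_iff (by positivity), ← Nat.factorial_mul_ascFactorial n k,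
    Nat.ascFactorial_eq_prod_range]
  push_cast
  ring

theorem Vn_eq (M a : ℕ) : Vn M a = (a.factorial : ℝ) * (4 * M + 2 * a).factorial /
    (4 * M + a).factorial := by
  unfold Vn
  simp only [Fact_Tn_sub, Finset.prod_mul_distrib]
  rw [Fact_prod_sub]
  have h := Fact_prod_asc (4 * M + a) a
  have e : 4 * M + a + a = 4 * M + 2 * a := by ring
  rw [e] at h
  have h2 : ∏ l ∈ range a, (4 * (M : ℝ) + a + l + 1) =
      ∏ l ∈ range a, (((4 * M + a : ℕ) : ℝ) + 1 + l) := by
    refine Finset.prod_congr rfl fun i _ => ?_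
    push_cast
    ring
  rw [h2, h, mul_div_assoc]

theorem Fact_prod_erase (g : ℕ → ℝ) (a m : ℕ) :
    ∏ l ∈ (range (a + 1 + m)).erase a, g l =
      (∏ l ∈ range a, g l) * ∏ j ∈ range m, g (a + 1 + j) := by
  have h1 : ∏ l ∈ (range (a + 1 + m)).erase a, g l =
      ∏ l ∈ (range (a + 1 + m)).erase a, (if l = a then 1 else g l) := by
    refine Finset.prod_congr rfl fun l hl => ?_
    rw [if_neg (Finset.ne_of_mem_erase hl)]
  rw [h1, Finset.prod_erase (f := fun l => if l = a then 1 else g l) _ (if_pos rfl),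
    Finset.prod_range_add, Finset.prod_range_succ, if_pos rfl, mul_one]
  congr 1
  · refine Finset.prod_congr rfl fun l hl => ?_
    rw [if_neg (Finset.mem_range.1 hl).ne]
  · refine Finset.prod_congr rfl fun l _ => ?_
    rw [if_neg (by omega)]

theorem Fact_prod_abs (a n : ℕ) (ha : a < n) :
    ∏ l ∈ (range n).erase a, |(a : ℝ) - l| = (a.factorial : ℝ) * (n - 1 - a).factorial := by
  obtain ⟨m, rfl⟩ : ∃ m, n = a + 1 + m := ⟨n - 1 - a, by omega⟩
  rw [Fact_prod_erase (fun l => |(a : ℝ) - l|) a m]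
  have e : a + 1 + m - 1 - a = m := by omega
  rw [e, ← Fact_prod_sub a]
  congr 1
  · refine Finset.prod_congr rfl fun l hl => ?_
    have : (l : ℝ) < a := by exact_mod_cast Finset.mem_range.1 hl
    rw [abs_of_pos (by linarith only [this])]
  · have h := Fact_prod_asc 0 m
    rw [Nat.factorial_zero, Nat.cast_one, div_one, zero_add] at h
    rw [← h]
    refine Finset.prod_congr rfl fun l _ => ?_
    have h2 : (0 : ℝ) ≤ l := Nat.cast_nonneg l
    push_cast
    rw [abs_of_neg (by linarith only [])]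
    ring

theorem omp_eq (M a : ℕ) (hM : 1 ≤ M) (ha : a < 3 * M) :
    omp M a = (a.factorial : ℝ) * (3 * M - 1 - a).factorial * (7 * M + a).factorial /
      ((4 * M + a).factorial * (4 * M + 2 * a + 1)) := by
  unfold omp
  simp only [Fact_Tn_sub, abs_mul, Finset.prod_mul_distrib]
  rw [Fact_prod_abs a (3 * M) ha]
  have h := Fact_prod_asc (4 * M + a) (3 * M)
  have e : 4 * M + a + 3 * M = 7 * M + a := by ring
  rw [e] at h
  have h2 : ∏ l ∈ range (3 * M), (((4 * M + a : ℕ) : ℝ) + 1 + l) =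
      (4 * (M : ℝ) + 2 * a + 1) * ∏ l ∈ (range (3 * M)).erase a, |4 * (M : ℝ) + a + l + 1| := by
    rw [← Finset.mul_prod_erase _ _ (Finset.mem_range.2 ha)]
    congr 1
    · push_cast
      ring
    · refine Finset.prod_congr rfl fun i _ => ?_
      rw [abs_of_nonneg (by positivity)]
      push_cast
      ring
  rw [h2] at h
  have h3 : (0 : ℝ) < 4 * (M : ℝ) + 2 * a + 1 := by positivity
  have h4 : (0 : ℝ) < ((4 * M + a).factorial : ℝ) := by positivity
  rw [eq_div_iff h4.ne'] at h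
  rw [eq_div_iff (by positivity), ← h]
  ring

theorem Fact_Den (N : ℕ) (x : ℝ) :
    Den N ((N : ℝ) + x) = ∏ m ∈ range (2 * N + 1), (x + m) := by
  unfold Den
  symm
  refine Finset.prod_nbij' (fun m : ℕ => (N : ℤ) - m) (fun j : ℤ => ((N : ℤ) - j).toNat)
    ?_ ?_ ?_ ?_ ?_
  · intro m hm
    rw [Finset.mem_range] at hm
    rw [Finset.mem_Icc]
    constructor <;> omega
  · intro j hj
    rw [Finset.mem_Icc] at hj
    rw [Finset.mem_range]
    omega
  · intro m hm
    simp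
  · intro j hj
    rw [Finset.mem_Icc] at hj
    rw [Int.toNat_of_nonneg (by omega)]
    ring
  · intro m hm
    push_cast
    ring

theorem Fact_DenLower (M a : ℕ) :
    ((4 * M + a).factorial : ℝ) / (2 * a.factorial) ≤
      Den (2 * M) (((2 * M : ℕ) : ℝ) + (a + 1 / 2)) := by
  rw [Fact_Den, Finset.prod_range_succ', show 2 * (2 * M) = 4 * M by ring]
  have h := Fact_prod_asc a (4 * M)
  rw [show a + 4 * M = 4 * M + a by ring] at h
  have h1 : ∏ l ∈ range (4 * M), ((a : ℝ) + 1 + l) ≤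
      ∏ k ∈ range (4 * M), ((a : ℝ) + 1 / 2 + ((k + 1 : ℕ) : ℝ)) := by
    refine Finset.prod_le_prod (fun i _ => by positivity) fun i _ => ?_
    push_cast
    linarith only []
  rw [h] at h1
  have h2 : (0 : ℝ) ≤ a := Nat.cast_nonneg a
  have h3 : ((4 * M + a).factorial : ℝ) / (2 * a.factorial) =
      ((4 * M + a).factorial : ℝ) / a.factorial * (1 / 2) := by
    field_simp
  rw [h3]
  refine mul_le_mul h1 ?_ (by norm_num) (Finset.prod_nonneg fun i _ => by (clear * -; positivity))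
  push_cast
  linarith only []

theorem Fact_DenUpper (M a : ℕ) :
    Den (2 * M) (((2 * M : ℕ) : ℝ) + (a + 1 / 2)) ≤
      ((4 * M + a + 1).factorial : ℝ) / a.factorial := by
  rw [Fact_Den, show 2 * (2 * M) + 1 = 4 * M + 1 by ring]
  have h := Fact_prod_asc a (4 * M + 1)
  rw [show a + (4 * M + 1) = 4 * M + a + 1 by ring] at h
  rw [← h]
  refine Finset.prod_le_prod (fun i _ => by (clear * -; positivity)) fun i _ => ?_
  linarith only []

theorem Fact_ws (M a : ℕ) : ws M a = (2 * (M : ℝ) + a + 1 / 2) /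
    Den (2 * M) (((2 * M : ℕ) : ℝ) + (a + 1 / 2)) ^ 5 := by
  unfold ws f5
  rw [add_assoc]
  push_cast
  ring

theorem ws_le (M a : ℕ) : ws M a ≤ 32 * (2 * (M : ℝ) + a + 1 / 2) *
    ((a.factorial : ℝ) / (4 * M + a).factorial) ^ 5 := by
  rw [Fact_ws]
  have h := Fact_DenLower M a
  have h0 : (0 : ℝ) < ((4 * M + a).factorial : ℝ) / (2 * a.factorial) := by positivity
  have h5 := pow_le_pow_left₀ h0.le h 5
  have h6 : 32 * (2 * (M : ℝ) + a + 1 / 2) * ((a.factorial : ℝ) / (4 * M + a).factorial) ^ 5 =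
      (2 * (M : ℝ) + a + 1 / 2) / (((4 * M + a).factorial : ℝ) / (2 * a.factorial)) ^ 5 := by
    rw [eq_div_iff (by positivity), mul_assoc, ← mul_pow]
    have e : (a.factorial : ℝ) / (4 * M + a).factorial *
        (((4 * M + a).factorial : ℝ) / (2 * a.factorial)) = 1 / 2 := by
      field_simp
    rw [e]
    ring
  rw [h6]
  exact div_le_div_of_nonneg_left (by (clear * -; positivity)) (by positivity) h5

theorem ws_ge (M a : ℕ) : (2 * (M : ℝ) + a + 1 / 2) *
    ((a.factorial : ℝ) / (4 * M + a + 1).factorial) ^ 5 ≤ ws M a := by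
  rw [Fact_ws]
  have h := Fact_DenUpper M a
  have h0 : (0 : ℝ) < ((4 * M + a).factorial : ℝ) / (2 * a.factorial) := by positivity
  have h1 := h0.trans_le (Fact_DenLower M a)
  have h5 := pow_le_pow_left₀ h1.le h 5
  have h6 : (2 * (M : ℝ) + a + 1 / 2) * ((a.factorial : ℝ) / (4 * M + a + 1).factorial) ^ 5 =
      (2 * (M : ℝ) + a + 1 / 2) / (((4 * M + a + 1).factorial : ℝ) / a.factorial) ^ 5 := by
    rw [div_eq_mul_inv _ ((((4 * M + a + 1).factorial : ℝ) / a.factorial) ^ 5), ← inv_pow,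
      inv_div]
  rw [h6]
  exact div_le_div_of_nonneg_left (by (clear * -; positivity)) (by positivity) h5

theorem Fact_DenC (M : ℕ) : Den (2 * M) (5 * (M : ℝ)) =
    ∏ m ∈ range (4 * M + 1), (3 * (M : ℝ) + m) := by
  have h := Fact_Den (2 * M) (3 * (M : ℝ))
  rw [show ((2 * M : ℕ) : ℝ) + 3 * (M : ℝ) = 5 * (M : ℝ) by push_cast; ring,
    show 2 * (2 * M) + 1 = 4 * M + 1 by ring] at h
  exact h

theorem Fact_DenC_ge (M : ℕ) (hM : 1 ≤ M) :
    ((7 * M).factorial : ℝ) / (3 * M).factorial ≤ Den (2 * M) (5 * (M : ℝ)) := by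
  rw [Fact_DenC, Finset.prod_range_succ']
  have h := Fact_prod_asc (3 * M) (4 * M)
  rw [show 3 * M + 4 * M = 7 * M by ring] at h
  have h1 : (1 : ℝ) ≤ M := by exact_mod_cast hM
  have h2 : ∏ k ∈ range (4 * M), (3 * (M : ℝ) + ((k + 1 : ℕ) : ℝ)) =
      ((7 * M).factorial : ℝ) / (3 * M).factorial := by
    rw [← h]
    refine Finset.prod_congr rfl fun i _ => ?_
    push_cast
    ring
  rw [h2]
  refine le_mul_of_one_le_right (by positivity) ?_
  push_cast
  linarith only [h1]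

theorem Fact_om (M : ℕ) : (om M).eval ((5 * (M : ℝ)) ^ 2) =
    ∏ i ∈ range (3 * M), ((3 * (M : ℝ) - i - 1 / 2) * (7 * (M : ℝ) + i + 1 / 2)) := by
  unfold om Tn
  rw [Polynomial.eval_prod]
  refine Finset.prod_congr rfl fun i _ => ?_
  simp only [Polynomial.eval_sub, Polynomial.eval_X, Polynomial.eval_C]
  push_cast
  ring

theorem Fact_om_factor (M i : ℕ) (hi : i ∈ range (3 * M)) :
    (1 / 2 : ℝ) ≤ 3 * (M : ℝ) - i - 1 / 2 := by
  have h : ((i + 1 : ℕ) : ℝ) ≤ ((3 * M : ℕ) : ℝ) := by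
    exact_mod_cast Finset.mem_range.1 hi
  push_cast at h
  linarith only [h]

theorem Fact_om_pos (M : ℕ) : 0 < (om M).eval ((5 * (M : ℝ)) ^ 2) := by
  rw [Fact_om]
  refine Finset.prod_pos fun i hi => ?_
  have := Fact_om_factor M i hi
  have h2 : (0 : ℝ) < 3 * (M : ℝ) - i - 1 / 2 := by linarith
  positivity

theorem Fact_om_le (M : ℕ) : (om M).eval ((5 * (M : ℝ)) ^ 2) ≤
    ((3 * M).factorial : ℝ) * (10 * M).factorial / (7 * M).factorial := by
  rw [Fact_om, Finset.prod_mul_distrib, mul_div_assoc]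
  have h1 := Fact_prod_sub (3 * M)
  have h2 := Fact_prod_asc (7 * M) (3 * M)
  rw [show 7 * M + 3 * M = 10 * M by ring] at h2
  rw [← h1, ← h2]
  refine mul_le_mul ?_ ?_ (Finset.prod_nonneg fun i _ => by (clear * -; positivity))
    (Finset.prod_nonneg fun i hi => ?_)
  · refine Finset.prod_le_prod (fun i hi => ?_) fun i _ => ?_
    · have := Fact_om_factor M i hi
      linarith only [this]
    · push_cast
      linarith only []
  · refine Finset.prod_le_prod (fun i _ => by (clear * -; positivity)) fun i _ => ?_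
    push_cast
    linarith only []
  · have := Fact_om_factor M i hi
    push_cast
    linarith only [this]

theorem F0_pos (M : ℕ) (hM : 1 ≤ M) : 0 < F0 M := by
  unfold F0 f5
  have h1 : (1 : ℝ) ≤ M := by exact_mod_cast hM
  have h0 : (0 : ℝ) < ((7 * M).factorial : ℝ) / (3 * M).factorial := by positivity
  have h2 := h0.trans_le (Fact_DenC_ge M hM)
  have h3 := Fact_om_pos M
  (clear * - hM h2 h3; positivity)

theorem F0_le (M : ℕ) (hM : 1 ≤ M) : F0 M ≤ 5 * (M : ℝ) *
    (((3 * M).factorial : ℝ) / (7 * M).factorial) ^ 5 *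
      (((3 * M).factorial : ℝ) * (10 * M).factorial / (7 * M).factorial) ^ 2 := by
  have hp := F0_pos M hM
  have h0 : (0 : ℝ) < ((7 * M).factorial : ℝ) / (3 * M).factorial := by positivity
  have h1 : f5 (2 * M) (5 * (M : ℝ)) ≤ 5 * (M : ℝ) *
      (((3 * M).factorial : ℝ) / (7 * M).factorial) ^ 5 := by
    unfold f5
    rw [← inv_div ((7 * M).factorial : ℝ), inv_pow, ← div_eq_mul_inv]
    exact div_le_div_of_nonneg_left (by positivity) (by positivity)
      (pow_le_pow_left₀ h0.le (Fact_DenC_ge M hM) 5)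
  have h2 := pow_le_pow_left₀ (Fact_om_pos M).le (Fact_om_le M) 2
  have h3 := mul_le_mul h1 h2 (by positivity) (by positivity)
  unfold F0 at hp ⊢
  linarith only [h3, hp]

end Vale.Agent.P030.Five
end
end

section

section

/-! A9: comparison of the dual weights `W_a = w_a ω'(T_a)²`. -/

namespace Vale.Agent.P030.Five

open Finset Polynomial MeasureTheory Vale.Agent.P030

/-! ### The ratio of consecutive weights -/

/-- `Den` at the shifted site. -/
theorem wcomp_Den_eq (M a : ℕ) : Den (2 * M) (((2 * M : ℕ) : ℝ) + a + 1 / 2) =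
    ∏ m ∈ range (4 * M + 1), ((a : ℝ) + 1 / 2 + m) := by
  unfold Den
  symm
  refine Finset.prod_bij (fun m _ => (2 * M : ℤ) - m) ?_ ?_ ?_ ?_
  · intro m hm
    rw [Finset.mem_range] at hm
    rw [Finset.mem_Icc]
    push_cast
    omega
  · intro m _ n _ h
    simpa using h
  · intro j hj
    rw [Finset.mem_Icc] at hj
    push_cast at hj
    refine ⟨((2 * M : ℤ) - j).toNat, ?_, ?_⟩
    · rw [Finset.mem_range]
      omega
    · rw [Int.toNat_of_nonneg (by omega)]
      ring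
  · intro m _
    push_cast
    ring

theorem wcomp_Den_pos (M a : ℕ) : 0 < Den (2 * M) (((2 * M : ℕ) : ℝ) + a + 1 / 2) := by
  rw [wcomp_Den_eq]
  exact Finset.prod_pos fun m _ => by positivity

theorem wcomp_Den_succ (M a : ℕ) :
    Den (2 * M) (((2 * M : ℕ) : ℝ) + (a + 1 : ℕ) + 1 / 2) * ((a : ℝ) + 1 / 2) =
      Den (2 * M) (((2 * M : ℕ) : ℝ) + a + 1 / 2) * ((a : ℝ) + 4 * M + 3 / 2) := by
  rw [wcomp_Den_eq, wcomp_Den_eq]
  have h1 : (∏ m ∈ range (4 * M + 1), (((a + 1 : ℕ) : ℝ) + 1 / 2 + m)) * ((a : ℝ) + 1 / 2) =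
      ∏ m ∈ range (4 * M + 2), ((a : ℝ) + 1 / 2 + m) := by
    rw [Finset.prod_range_succ' _ (4 * M + 1)]
    congr 1
    · refine Finset.prod_congr rfl fun m _ => ?_
      push_cast
      ring
    · push_cast
      ring
  rw [h1, Finset.prod_range_succ _ (4 * M + 1)]
  push_cast
  ring

/-- the ratio of consecutive dual weights. -/
noncomputable def wcompR (M a : ℕ) : ℝ :=
  ((2 * (M : ℝ) + a + 1 / 2) / (2 * M + a + 3 / 2)) *
    (((a : ℝ) + 1 / 2) / (a + 4 * M + 3 / 2)) ^ 5 *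
    ((((a : ℝ) + 1) / (4 * M + a + 1)) * ((7 * (M : ℝ) + a + 1) / (3 * M - 1 - a))) ^ 2

theorem wcomp_ws_eq (M a : ℕ) : ws M a = (2 * (M : ℝ) + a + 1 / 2) /
    Den (2 * M) (((2 * M : ℕ) : ℝ) + a + 1 / 2) ^ 5 := by
  unfold ws f5
  push_cast
  rfl

theorem wcomp_ws_pos (M a : ℕ) : 0 < ws M a := by
  rw [wcomp_ws_eq]
  have := wcomp_Den_pos M a
  positivity

theorem wcomp_ws_succ (M a : ℕ) : ws M (a + 1) =
    ws M a * (((2 * (M : ℝ) + a + 3 / 2) / (2 * M + a + 1 / 2)) *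
      (((a : ℝ) + 1 / 2) / (a + 4 * M + 3 / 2)) ^ 5) := by
  have h := wcomp_Den_succ M a
  have hp := wcomp_Den_pos M a
  have hp1 := wcomp_Den_pos M (a + 1)
  rw [wcomp_ws_eq, wcomp_ws_eq]
  have h2 : Den (2 * M) (((2 * M : ℕ) : ℝ) + (a + 1 : ℕ) + 1 / 2) =
      Den (2 * M) (((2 * M : ℕ) : ℝ) + a + 1 / 2) * (((a : ℝ) + 4 * M + 3 / 2) / (a + 1 / 2)) := by
    field_simp
    field_simp at h
    linarith only [h]
  rw [h2]
  push_cast
  field_simp
  ring

theorem wcomp_omp_succ (M a : ℕ) (hM : 1 ≤ M) (ha : a + 1 < 3 * M) : omp M (a + 1) =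
    omp M a * (((2 * (M : ℝ) + a + 1 / 2) / (2 * M + a + 3 / 2)) *
      ((((a : ℝ) + 1) / (4 * M + a + 1)) * ((7 * (M : ℝ) + a + 1) / (3 * M - 1 - a)))) := by
  rw [omp_eq M a hM (by omega), omp_eq M (a + 1) hM ha]
  obtain ⟨k, hk⟩ : ∃ k, 3 * M - 1 - a = k + 1 := ⟨3 * M - 1 - a - 1, by omega⟩
  have hk2 : 3 * M - 1 - (a + 1) = k := by omega
  have hk3 : (3 * (M : ℝ) - 1 - a) = k + 1 := by
    have : 3 * M = k + 1 + 1 + a := by omega
    have h' : (3 * (M : ℝ)) = k + 1 + 1 + a := by exact_mod_cast this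
    linarith only [h']
  rw [hk, hk2, hk3, show 7 * M + (a + 1) = (7 * M + a) + 1 by ring,
    show 4 * M + (a + 1) = (4 * M + a) + 1 by ring, Nat.factorial_succ, Nat.factorial_succ,
    Nat.factorial_succ, Nat.factorial_succ]
  push_cast
  have e1 : (2 * (M : ℝ) + a + 1 / 2) = (4 * M + 2 * a + 1) / 2 := by ring
  have e2 : (2 * (M : ℝ) + a + 3 / 2) = (4 * M + 2 * (a + 1) + 1) / 2 := by ring
  rw [e1, e2]
  have f1 : (Nat.factorial (4 * M + a) : ℝ) ≠ 0 := by positivity
  field_simp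

theorem wcomp_succ (M a : ℕ) (hM : 1 ≤ M) (ha : a + 1 < 3 * M) :
    ws M (a + 1) * omp M (a + 1) ^ 2 = ws M a * omp M a ^ 2 * wcompR M a := by
  rw [wcomp_ws_succ, wcomp_omp_succ M a hM ha]
  unfold wcompR
  have h1 : (2 * (M : ℝ) + a + 1 / 2) ≠ 0 := by positivity
  have h2 : (2 * (M : ℝ) + a + 3 / 2) ≠ 0 := by positivity
  field_simp

theorem wcompR_le_one (M a : ℕ) (hM : 1 ≤ M) (ha : a < 2 * M) : wcompR M a ≤ 1 := by
  have ha' : (a : ℝ) + 1 ≤ 2 * M := by exact_mod_cast ha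
  have hM' : (1 : ℝ) ≤ M := by exact_mod_cast hM
  have h1 : (2 * (M : ℝ) + a + 1 / 2) / (2 * M + a + 3 / 2) ≤ 1 := by
    rw [div_le_one (by positivity)]
    linarith only []
  have h2 : ((a : ℝ) + 1 / 2) / (a + 4 * M + 3 / 2) ≤ 1 / 3 := by
    rw [div_le_div_iff₀ (by positivity) (by norm_num)]
    linarith only [ha']
  have h3 : (((a : ℝ) + 1) / (4 * M + a + 1)) ≤ 1 / 3 := by
    rw [div_le_div_iff₀ (by positivity) (by norm_num)]
    linarith only [ha']
  have hd : (0 : ℝ) < 3 * M - 1 - a := by linarith only [ha', hM']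
  have h4 : ((7 * (M : ℝ) + a + 1) / (3 * M - 1 - a)) ≤ 9 := by
    rw [div_le_iff₀ hd]
    linarith only [ha']
  unfold wcompR
  calc _ ≤ 1 * (1 / 3 : ℝ) ^ 5 * ((1 / 3) * 9) ^ 2 := by
        gcongr
    _ ≤ 1 := by norm_num

theorem wcompR_mono (M a : ℕ) (ha : a + 2 < 3 * M) : wcompR M a ≤ wcompR M (a + 1) := by
  have ha' : (a : ℝ) + 3 ≤ 3 * M := by
    have : a + 3 ≤ 3 * M := by omega
    exact_mod_cast this
  have h1 : (2 * (M : ℝ) + a + 1 / 2) / (2 * M + a + 3 / 2) ≤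
      (2 * (M : ℝ) + ((a + 1 : ℕ) : ℝ) + 1 / 2) / (2 * M + ((a + 1 : ℕ) : ℝ) + 3 / 2) := by
    push_cast
    rw [div_le_div_iff₀ (by positivity) (by positivity)]
    linarith only []
  have h2 : ((a : ℝ) + 1 / 2) / (a + 4 * M + 3 / 2) ≤
      (((a + 1 : ℕ) : ℝ) + 1 / 2) / (((a + 1 : ℕ) : ℝ) + 4 * M + 3 / 2) := by
    push_cast
    rw [div_le_div_iff₀ (by positivity) (by positivity)]
    have : (0 : ℝ) ≤ M := by positivity
    linarith only [ha']
  have h3 : (((a : ℝ) + 1) / (4 * M + a + 1)) ≤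
      (((a + 1 : ℕ) : ℝ) + 1) / (4 * M + ((a + 1 : ℕ) : ℝ) + 1) := by
    push_cast
    rw [div_le_div_iff₀ (by positivity) (by positivity)]
    have : (0 : ℝ) ≤ M := by positivity
    nlinarith only [ha']
  have hd : (0 : ℝ) < 3 * M - 1 - a := by linarith only [ha']
  have hd' : (0 : ℝ) < 3 * M - 1 - ((a + 1 : ℕ) : ℝ) := by push_cast; linarith only [ha']
  have h4 : ((7 * (M : ℝ) + a + 1) / (3 * M - 1 - a)) ≤
      (7 * (M : ℝ) + ((a + 1 : ℕ) : ℝ) + 1) / (3 * M - 1 - ((a + 1 : ℕ) : ℝ)) := by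
    rw [div_le_div_iff₀ hd hd']
    push_cast
    have : (0 : ℝ) ≤ M := by positivity
    linarith only [ha']
  have p4 : 0 ≤ (7 * (M : ℝ) + a + 1) / (3 * M - 1 - a) := by positivity
  unfold wcompR
  gcongr

theorem W_anti (M a : ℕ) (hM : 1 ≤ M) (ha : a < 2 * M) :
    ws M (a + 1) * omp M (a + 1) ^ 2 ≤ ws M a * omp M a ^ 2 := by
  rw [wcomp_succ M a hM (by omega)]
  have h := wcomp_ws_pos M a
  exact mul_le_of_le_one_right (by positivity) (wcompR_le_one M a hM ha)

/-- a sequence that stays nondecreasing once it is nondecreasing. -/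
theorem wcomp_quasi (W : ℕ → ℝ) (m n : ℕ)
    (h : ∀ b, m ≤ b → b + 2 ≤ n → W b ≤ W (b + 1) → W (b + 1) ≤ W (b + 2)) (a : ℕ) (hm : m ≤ a)
    (hn : a ≤ n) : W a ≤ max (W m) (W n) := by
  by_cases h0 : ∃ b, m ≤ b ∧ b < a ∧ W b ≤ W (b + 1)
  · obtain ⟨b, hmb, hba, hb⟩ := h0
    have h1 : ∀ c, b ≤ c → c + 1 ≤ n → W c ≤ W (c + 1) := by
      intro c hc
      induction c, hc using Nat.le_induction with
      | base => exact fun _ => hb
      | succ c hc ih => exact fun hcn => h c (by omega) hcn (ih (by omega))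
    have h2 : ∀ c, a ≤ c → c ≤ n → W a ≤ W c := by
      intro c hc
      induction c, hc using Nat.le_induction with
      | base => exact fun _ => le_rfl
      | succ c hc ih => exact fun hcn => (ih (by omega)).trans (h1 c (by omega) hcn)
    exact le_max_of_le_right (h2 n hn le_rfl)
  · push Not at h0
    have h2 : ∀ c, m ≤ c → c ≤ a → W c ≤ W m := by
      intro c hc
      induction c, hc using Nat.le_induction with
      | base => exact fun _ => le_rfl
      | succ c hc ih => exact fun hcn => (h0 c hc (by omega)).le.trans (ih (by omega))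
    exact le_max_of_le_left (h2 a hm le_rfl)

theorem wcomp_omp_pos (M a : ℕ) (hM : 1 ≤ M) (ha : a < 3 * M) : 0 < omp M a := by
  rw [omp_eq M a hM ha]
  positivity

theorem wcomp_W_pos (M a : ℕ) (hM : 1 ≤ M) (ha : a < 3 * M) : 0 < ws M a * omp M a ^ 2 := by
  have h1 := wcomp_omp_pos M a hM ha
  have h2 := wcomp_ws_pos M a
  positivity

theorem W_quasi (M a : ℕ) (hM : 1 ≤ M) (ha : 2 * M ≤ a) (ha' : a < 3 * M) :
    ws M a * omp M a ^ 2 ≤ max (ws M (2 * M) * omp M (2 * M) ^ 2)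
      (ws M (3 * M - 1) * omp M (3 * M - 1) ^ 2) := by
  refine wcomp_quasi (fun a => ws M a * omp M a ^ 2) (2 * M) (3 * M - 1) ?_ a ha (by omega)
  intro b hb hb' h
  have hp := wcomp_W_pos M b hM (by omega)
  have hp1 := wcomp_W_pos M (b + 1) hM (by omega)
  rw [wcomp_succ M b hM (by omega)] at h
  have h1 : 1 ≤ wcompR M b := by
    by_contra hc
    push Not at hc
    linarith only [mul_pos (sub_pos.2 hp) (sub_pos.2 hc), h]
  rw [show b + 2 = (b + 1) + 1 by ring, wcomp_succ M (b + 1) hM (by omega)]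
  exact le_mul_of_one_le_right hp1.le (h1.trans (wcompR_mono M b (by omega)))

/-! ### Stirling -/

/-- `log n! = n log n - n + O(log n)`. -/
theorem log_factorial_bounds (n : ℕ) : (n : ℝ) * Real.log n - n ≤ Real.log n.factorial ∧
    Real.log n.factorial ≤ (n : ℝ) * Real.log n - n + Real.log (n + 1) + 1 := by
  constructor
  · rcases Nat.eq_zero_or_pos n with rfl | hn
    · simp
    have hn' : (0 : ℝ) < n := by exact_mod_cast hn
    have h := Real.pow_div_factorial_le_exp (n : ℝ) hn'.le n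
    have h2 := Real.log_le_log (by positivity) h
    rw [Real.log_exp, Real.log_div (by positivity) (by positivity), Real.log_pow] at h2
    linarith only [h2]
  · induction n with
    | zero => simp
    | succ n ih =>
      rcases Nat.eq_zero_or_pos n with rfl | hn
      · simp
        have : (0 : ℝ) ≤ Real.log (1 + 1) := Real.log_nonneg (by norm_num)
        linarith
      have hn' : (0 : ℝ) < n := by exact_mod_cast hn
      have h1 := Real.le_log_one_add_of_nonneg (x := 1 / (n : ℝ)) (by positivity)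
      have h2 := Real.le_log_one_add_of_nonneg (x := 1 / ((n : ℝ) + 1)) (by positivity)
      have e1 : Real.log (1 + 1 / (n : ℝ)) = Real.log (n + 1) - Real.log n := by
        rw [← Real.log_div (by positivity) (by positivity)]
        congr 1
        field_simp
      have e2 : Real.log (1 + 1 / ((n : ℝ) + 1)) = Real.log (n + 1 + 1) - Real.log (n + 1) := by
        rw [← Real.log_div (by positivity) (by positivity)]
        congr 1
        field_simp
        try ring
      have g1 : 2 * (1 / (n : ℝ)) / (1 / n + 2) = 2 / (2 * n + 1) := by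
        field_simp
        try ring
      have g2 : 2 * (1 / ((n : ℝ) + 1)) / (1 / (n + 1) + 2) = 2 / (2 * n + 3) := by
        field_simp
        try ring
      rw [e1, g1] at h1
      rw [e2, g2] at h2
      rw [Nat.factorial_succ]
      push_cast
      rw [Real.log_mul (by positivity) (by positivity)]
      have h3 : (n : ℝ) * (2 / (2 * n + 1)) ≤ n * (Real.log (n + 1) - Real.log n) :=
        mul_le_mul_of_nonneg_left h1 hn'.le
      have h4 : 1 ≤ (n : ℝ) * (2 / (2 * n + 1)) + 2 / (2 * n + 3) := by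
        have hn1 : (1 : ℝ) ≤ n := by exact_mod_cast hn
        rw [← sub_nonneg]
        have : (n : ℝ) * (2 / (2 * n + 1)) + 2 / (2 * n + 3) - 1 =
            (2 * n - 1) / ((2 * n + 1) * (2 * n + 3)) := by
          field_simp
          ring
        rw [this]
        apply div_nonneg
        · linarith only [hn', hn1]
        · positivity
      linarith only [h4, h3, h2, ih]

theorem wcomp_log_fact_le (c M : ℕ) (hc : 1 ≤ c) (hM : 1 ≤ M) :
    Real.log (c * M).factorial ≤ (c : ℝ) * M * (Real.log c + Real.log M) - c * M +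
      Real.log (c + 1) + Real.log M + 1 := by
  have h := (log_factorial_bounds (c * M)).2
  have hc' : (1 : ℝ) ≤ c := by exact_mod_cast hc
  have hM' : (1 : ℝ) ≤ M := by exact_mod_cast hM
  push_cast at h
  rw [Real.log_mul (by positivity) (by positivity)] at h
  have h2 : Real.log ((c : ℝ) * M + 1) ≤ Real.log (c + 1) + Real.log M := by
    rw [← Real.log_mul (by positivity) (by positivity)]
    apply Real.log_le_log (by positivity)
    linarith only [hM']
  linarith only [h, h2]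

theorem wcomp_log_fact_ge (c M : ℕ) (hc : 1 ≤ c) (hM : 1 ≤ M) :
    (c : ℝ) * M * (Real.log c + Real.log M) - c * M ≤ Real.log (c * M).factorial := by
  have h := (log_factorial_bounds (c * M)).1
  have hc' : (1 : ℝ) ≤ c := by exact_mod_cast hc
  have hM' : (1 : ℝ) ≤ M := by exact_mod_cast hM
  push_cast at h
  rw [Real.log_mul (by positivity) (by positivity)] at h
  linarith only [h]

theorem wcomp_log_num : 48 * Real.log 2 + 27 * Real.log 3 + 20 * Real.log 5 ≤
    49 * Real.log 7 := by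
  have h : Real.log ((2 : ℝ) ^ 48 * 3 ^ 27 * 5 ^ 20) ≤ Real.log ((7 : ℝ) ^ 49) :=
    Real.log_le_log (by positivity) (by norm_num)
  rw [Real.log_mul (by positivity) (by positivity), Real.log_mul (by positivity) (by positivity),
    Real.log_pow, Real.log_pow, Real.log_pow, Real.log_pow] at h
  push_cast at h
  exact h

/-- the main term: `LF - LW` is at most `O(log M)`. -/
theorem wcomp_LF_le (M : ℕ) (hM : 1 ≤ M) :
    7 * Real.log (3 * M).factorial - 7 * Real.log (7 * M).factorial +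
      2 * Real.log (10 * M).factorial ≤
    7 * Real.log (2 * M).factorial - 7 * Real.log (6 * M).factorial +
      2 * Real.log M.factorial + 2 * Real.log (9 * M).factorial + 16 * Real.log M + 16 +
      (14 * Real.log 2 + 7 * Real.log 7 + 2 * Real.log 11) := by
  have h3 := wcomp_log_fact_le 3 M (by norm_num) hM
  have h7 := wcomp_log_fact_ge 7 M (by norm_num) hM
  have h10 := wcomp_log_fact_le 10 M (by norm_num) hM
  have h2 := wcomp_log_fact_ge 2 M (by norm_num) hM
  have h6 := wcomp_log_fact_le 6 M (by norm_num) hM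
  have h1 := wcomp_log_fact_ge 1 M (by norm_num) hM
  have h9 := wcomp_log_fact_ge 9 M (by norm_num) hM
  rw [one_mul] at h1
  push_cast at h3 h7 h10 h2 h6 h1 h9
  rw [Real.log_one] at h1
  have e4 : Real.log ((3 : ℝ) + 1) = 2 * Real.log 2 := by
    rw [show (3 : ℝ) + 1 = 2 ^ 2 by norm_num, Real.log_pow]
    push_cast
    ring
  have e7 : Real.log ((6 : ℝ) + 1) = Real.log 7 := by norm_num
  have e11 : Real.log ((10 : ℝ) + 1) = Real.log 11 := by norm_num
  have e10 : Real.log (10 : ℝ) = Real.log 2 + Real.log 5 := by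
    rw [← Real.log_mul (by norm_num) (by norm_num)]
    norm_num
  have e6 : Real.log (6 : ℝ) = Real.log 2 + Real.log 3 := by
    rw [← Real.log_mul (by norm_num) (by norm_num)]
    norm_num
  have e9 : Real.log (9 : ℝ) = 2 * Real.log 3 := by
    rw [show (9 : ℝ) = 3 ^ 2 by norm_num, Real.log_pow]
    push_cast
    ring
  rw [e4] at h3
  rw [e11, e10] at h10
  rw [e7, e6] at h6
  rw [e9] at h9
  have hk := mul_le_mul_of_nonneg_left wcomp_log_num (Nat.cast_nonneg (α := ℝ) M)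
  linarith only [hk, h1, h9, h6, h2, h10, h7, h3]

theorem wcomp_log_aux (c M : ℕ) (hc : 1 ≤ c) (hM : 1 ≤ M) :
    Real.log ((c : ℝ) * M + 1) ≤ Real.log (c + 1) + Real.log M := by
  have hc' : (1 : ℝ) ≤ c := by exact_mod_cast hc
  have hM' : (1 : ℝ) ≤ M := by exact_mod_cast hM
  rw [← Real.log_mul (by positivity) (by positivity)]
  apply Real.log_le_log (by positivity)
  nlinarith only [hM']

theorem wcomp_log_F (M : ℕ) : Real.log ((((3 * M).factorial : ℝ) / (7 * M).factorial) ^ 5 *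
      (((3 * M).factorial : ℝ) * (10 * M).factorial / (7 * M).factorial) ^ 2) =
    7 * Real.log (3 * M).factorial - 7 * Real.log (7 * M).factorial +
      2 * Real.log (10 * M).factorial := by
  rw [Real.log_mul (by positivity) (by positivity), Real.log_pow, Real.log_pow,
    Real.log_div (by positivity) (by positivity), Real.log_div (by positivity) (by positivity),
    Real.log_mul (by positivity) (by positivity)]
  push_cast
  ring

theorem wcomp_log_F0_le (M : ℕ) (hM : 1 ≤ M) : Real.log (F0 M) ≤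
    7 * Real.log (3 * M).factorial - 7 * Real.log (7 * M).factorial +
      2 * Real.log (10 * M).factorial + Real.log M + Real.log 5 := by
  have hM' : (1 : ℝ) ≤ M := by exact_mod_cast hM
  have h := Real.log_le_log (F0_pos M hM) (F0_le M hM)
  rw [mul_assoc, Real.log_mul (by positivity) (by positivity), wcomp_log_F,
    Real.log_mul (by positivity) (by positivity)] at h
  linarith only [h]

theorem wcomp_log_last_le (M : ℕ) (hM : 1 ≤ M) :
    Real.log (ws M (3 * M - 1) * omp M (3 * M - 1) ^ 2) ≤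
    7 * Real.log (3 * M).factorial - 7 * Real.log (7 * M).factorial +
      2 * Real.log (10 * M).factorial + Real.log M + Real.log (160 * (7 / 3) ^ 7) := by
  have hM' : (1 : ℝ) ≤ M := by exact_mod_cast hM
  obtain ⟨k, hk⟩ : ∃ k, 3 * M = k + 1 := ⟨3 * M - 1, by omega⟩
  have hk' : (3 : ℝ) * M = k + 1 := by exact_mod_cast hk
  have e1 : 3 * M - 1 = k := by omega
  have f3 : ((3 * M).factorial : ℝ) = 3 * M * (k.factorial : ℝ) := by
    rw [hk, Nat.factorial_succ, hk']
    push_cast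
    ring
  have f7 : ((7 * M).factorial : ℝ) = 7 * M * ((4 * M + k).factorial : ℝ) := by
    rw [show 7 * M = (4 * M + k) + 1 by omega, Nat.factorial_succ]
    push_cast
    linear_combination (-(4 * M + k).factorial : ℝ) * hk'
  have hfr : ((k.factorial : ℝ) / (4 * M + k).factorial) =
      (7 / 3) * (((3 * M).factorial : ℝ) / (7 * M).factorial) := by
    rw [f3, f7]
    field_simp
  have hws : ws M k ≤ 160 * M * ((7 / 3) * (((3 * M).factorial : ℝ) / (7 * M).factorial)) ^ 5 := by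
    rw [← hfr]
    refine (ws_le M k).trans ?_
    apply mul_le_mul_of_nonneg_right _ (by positivity)
    linarith only [hk']
  have homp : omp M k ≤
      (7 / 3) * (((3 * M).factorial : ℝ) * (10 * M).factorial / (7 * M).factorial) := by
    rw [omp_eq M k hM (by omega)]
    have e0 : 3 * M - 1 - k = 0 := by omega
    rw [e0, Nat.factorial_zero, Nat.cast_one, mul_one]
    have g1 : ((7 * M + k).factorial : ℝ) ≤ (10 * M).factorial := by
      exact_mod_cast Nat.factorial_le (by omega)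
    calc (k.factorial : ℝ) * (7 * M + k).factorial / ((4 * M + k).factorial * (4 * M + 2 * k + 1))
        ≤ (k.factorial : ℝ) * (10 * M).factorial / ((4 * M + k).factorial * 1) := by
          gcongr
          linarith only [hk', hM']
      _ = ((k.factorial : ℝ) / (4 * M + k).factorial) * (10 * M).factorial := by
          field_simp
      _ = _ := by
          rw [hfr]
          ring
  have hp1 := wcomp_ws_pos M k
  have hp2 := wcomp_omp_pos M k hM (by omega)
  rw [e1]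
  have hW : ws M k * omp M k ^ 2 ≤ ((M : ℝ) * (160 * (7 / 3) ^ 7)) *
      ((((3 * M).factorial : ℝ) / (7 * M).factorial) ^ 5 *
      (((3 * M).factorial : ℝ) * (10 * M).factorial / (7 * M).factorial) ^ 2) := by
    calc ws M k * omp M k ^ 2 ≤
        (160 * M * ((7 / 3) * (((3 * M).factorial : ℝ) / (7 * M).factorial)) ^ 5) *
        ((7 / 3) * (((3 * M).factorial : ℝ) * (10 * M).factorial / (7 * M).factorial)) ^ 2 := by
          gcongr
      _ = _ := by ring
  have h := Real.log_le_log (by positivity) hW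
  have h5 : Real.log ((M : ℝ) * (160 * (7 / 3) ^ 7) *
      ((((3 * M).factorial : ℝ) / (7 * M).factorial) ^ 5 *
      (((3 * M).factorial : ℝ) * (10 * M).factorial / (7 * M).factorial) ^ 2)) =
      (Real.log M + Real.log (160 * (7 / 3) ^ 7)) +
      (7 * Real.log (3 * M).factorial - 7 * Real.log (7 * M).factorial +
        2 * Real.log (10 * M).factorial) := by
    rw [Real.log_mul (by positivity) (by positivity), wcomp_log_F,
      Real.log_mul (by positivity) (by positivity)]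
  rw [h5] at h
  linarith only [h]

theorem wcomp_log_mid_ge (M : ℕ) (hM : 1 ≤ M) :
    7 * Real.log (2 * M).factorial - 7 * Real.log (6 * M).factorial +
      2 * Real.log M.factorial + 2 * Real.log (9 * M).factorial - 9 * Real.log M -
      (5 * Real.log 7 + 2 * Real.log 9) ≤
    Real.log (ws M (2 * M) * omp M (2 * M) ^ 2) := by
  have hM' : (1 : ℝ) ≤ M := by exact_mod_cast hM
  obtain ⟨k, hk⟩ : ∃ k, M = k + 1 := ⟨M - 1, by omega⟩
  have hws : (((2 * M).factorial : ℝ) / ((6 * M).factorial * (6 * M + 1))) ^ 5 ≤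
      ws M (2 * M) := by
    refine le_trans ?_ (ws_ge M (2 * M))
    rw [show 4 * M + 2 * M + 1 = 6 * M + 1 by ring, Nat.factorial_succ]
    push_cast
    rw [mul_comm (6 * (M : ℝ) + 1)]
    apply le_mul_of_one_le_left (by positivity)
    linarith only [hM']
  have homp : omp M (2 * M) = ((2 * M).factorial : ℝ) * M.factorial * (9 * M).factorial /
      ((6 * M).factorial * (M * (8 * M + 1))) := by
    rw [omp_eq M (2 * M) hM (by omega), show 7 * M + 2 * M = 9 * M by ring,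
      show 4 * M + 2 * M = 6 * M by ring, show 3 * M - 1 - 2 * M = k by omega]
    have : (M.factorial : ℝ) = M * k.factorial := by
      rw [hk, Nat.factorial_succ]
      push_cast
      ring
    rw [this]
    push_cast
    field_simp
    ring
  have h1 : Real.log ((((2 * M).factorial : ℝ) / ((6 * M).factorial * (6 * M + 1))) ^ 5 *
      (((2 * M).factorial : ℝ) * M.factorial * (9 * M).factorial /
      ((6 * M).factorial * (M * (8 * M + 1)))) ^ 2) ≤
      Real.log (ws M (2 * M) * omp M (2 * M) ^ 2) := by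
    apply Real.log_le_log (by positivity)
    rw [homp]
    gcongr
  rw [Real.log_mul (by positivity) (by positivity), Real.log_pow, Real.log_pow,
    Real.log_div (by positivity) (by positivity), Real.log_div (by positivity) (by positivity),
    Real.log_mul (by positivity) (by positivity), Real.log_mul (by positivity) (by positivity),
    Real.log_mul (by positivity) (by positivity), Real.log_mul (by positivity) (by positivity),
    Real.log_mul (by positivity) (by positivity)] at h1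
  have a1 := wcomp_log_aux 6 M (by norm_num) hM
  have a2 := wcomp_log_aux 8 M (by norm_num) hM
  push_cast at h1 a1 a2
  rw [show (6 : ℝ) + 1 = 7 by norm_num] at a1
  rw [show (8 : ℝ) + 1 = 9 by norm_num] at a2
  linarith only [h1, a1, a2]

theorem log_W_mid : ∃ κ : ℝ, ∀ M : ℕ, 1 ≤ M →
    Real.log (F0 M) ≤ Real.log (ws M (2 * M) * omp M (2 * M) ^ 2) + κ * Real.log M + κ ∧
    Real.log (ws M (3 * M - 1) * omp M (3 * M - 1) ^ 2) ≤
      Real.log (ws M (2 * M) * omp M (2 * M) ^ 2) + κ * Real.log M + κ := by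
  refine ⟨26 + (16 + (14 * Real.log 2 + 12 * Real.log 7 + 2 * Real.log 11 + 2 * Real.log 9) +
    Real.log 5 + Real.log (160 * (7 / 3) ^ 7)), fun M hM => ?_⟩
  have h1 := wcomp_LF_le M hM
  have h2 := wcomp_log_F0_le M hM
  have h3 := wcomp_log_last_le M hM
  have h4 := wcomp_log_mid_ge M hM
  have l2 : 0 ≤ Real.log 2 := Real.log_nonneg (by norm_num)
  have l7 : 0 ≤ Real.log 7 := Real.log_nonneg (by norm_num)
  have l11 : 0 ≤ Real.log 11 := Real.log_nonneg (by norm_num)
  have l9 : 0 ≤ Real.log 9 := Real.log_nonneg (by norm_num)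
  have l5 : 0 ≤ Real.log 5 := Real.log_nonneg (by norm_num)
  have l160 : 0 ≤ Real.log (160 * (7 / 3) ^ 7) := Real.log_nonneg (by norm_num)
  have lM : 0 ≤ Real.log M := Real.log_nonneg (by exact_mod_cast hM)
  set S : ℝ := 16 + (14 * Real.log 2 + 12 * Real.log 7 + 2 * Real.log 11 + 2 * Real.log 9) +
    Real.log 5 + Real.log (160 * (7 / 3) ^ 7) with hS
  have hS0 : 0 ≤ S := by positivity
  have hSM : 0 ≤ S * Real.log M := mul_nonneg hS0 lM
  constructor
  · rw [add_mul]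
    linarith only [h1, h2, h4, l160, hS, hSM]
  · rw [add_mul]
    linarith only [h1, h3, h4, l5, hS, hSM]

end Vale.Agent.P030.Five
end
end

section

section

/-! The logarithms of the factors. -/

namespace Vale.Agent.P030.Five

open Finset Polynomial MeasureTheory Vale.Agent.P030

theorem rows_ws_pos (M a : ℕ) : 0 < ws M a := by
  refine lt_of_lt_of_le ?_ (ws_ge M a)
  positivity

theorem rows_omp_pos (M a : ℕ) (hM : 1 ≤ M) (ha : a < 3 * M) : 0 < omp M a := by
  rw [omp_eq M a hM ha]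
  positivity

theorem rows_Vn_pos (M a : ℕ) : 0 < Vn M a := by
  rw [Vn_eq M a]
  positivity

theorem rows_log_Vn (M a : ℕ) : Real.log (Vn M a) = Real.log a.factorial +
    Real.log (4 * M + 2 * a).factorial - Real.log (4 * M + a).factorial := by
  rw [Vn_eq, Real.log_div (by positivity) (by positivity), Real.log_mul (by positivity)
    (by positivity)]

theorem rows_log_omp (M a : ℕ) (hM : 1 ≤ M) (ha : a < 3 * M) :
    Real.log (omp M a) = Real.log a.factorial + Real.log (3 * M - 1 - a).factorial +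
      Real.log (7 * M + a).factorial - Real.log (4 * M + a).factorial -
      Real.log (4 * M + 2 * a + 1) := by
  rw [omp_eq M a hM ha, Real.log_div (by positivity) (by positivity),
    Real.log_mul (by positivity) (by positivity), Real.log_mul (by positivity) (by positivity),
    Real.log_mul (by positivity) (by positivity)]
  ring

theorem rows_log_ws (M a : ℕ) : Real.log (ws M a) ≤ Real.log 32 +
    Real.log (2 * (M : ℝ) + a + 1 / 2) + 5 * (Real.log a.factorial -
      Real.log (4 * M + a).factorial) := by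
  refine (Real.log_le_log (rows_ws_pos M a) (ws_le M a)).trans (le_of_eq ?_)
  rw [Real.log_mul (by positivity) (by positivity), Real.log_mul (by positivity) (by positivity),
    Real.log_pow, Real.log_div (by positivity) (by positivity)]
  norm_num

theorem rows_log_F0 (M : ℕ) (hM : 1 ≤ M) : Real.log (F0 M) ≤ Real.log 5 + Real.log M +
    7 * Real.log (3 * M).factorial - 7 * Real.log (7 * M).factorial +
    2 * Real.log (10 * M).factorial := by
  have hM' : (0 : ℝ) < M := by exact_mod_cast hM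
  refine (Real.log_le_log (F0_pos M hM) (F0_le M hM)).trans (le_of_eq ?_)
  rw [Real.log_mul (by positivity) (by positivity), Real.log_mul (by positivity) (by positivity),
    Real.log_mul (by positivity) (by positivity), Real.log_pow, Real.log_pow,
    Real.log_div (by positivity) (by positivity), Real.log_div (by positivity) (by positivity),
    Real.log_mul (by positivity) (by positivity)]
  push_cast
  ring

/-- logarithm of a quantity at most linear in `M`. -/
theorem rows_log_lin {M : ℕ} (hM : 1 ≤ M) {x c : ℝ} (hx : 0 < x) (hc : 0 < c)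
    (h : x ≤ c * M) : Real.log x ≤ Real.log c + Real.log M := by
  have hM' : (0 : ℝ) < M := by exact_mod_cast hM
  rw [← Real.log_mul hc.ne' hM'.ne']
  exact Real.log_le_log hx h

/-- antitone iteration -/
theorem rows_W_anti (M a : ℕ) (hM : 1 ≤ M) (ha : a ≤ 2 * M) :
    ws M (2 * M) * omp M (2 * M) ^ 2 ≤ ws M a * omp M a ^ 2 := by
  obtain ⟨d, hd⟩ := Nat.exists_eq_add_of_le ha
  induction d generalizing a with
  | zero => rw [hd, add_zero]
  | succ d ih =>
    refine le_trans ?_ (W_anti M a hM (by omega))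
    exact ih (a + 1) (by omega) (by omega)

/-- comparison of the weights with the middle one. -/
theorem rows_mid : ∃ κ : ℝ, 0 ≤ κ ∧ ∀ M : ℕ, 1 ≤ M →
    1 ≤ Real.exp (κ * (Real.log M + 1)) ∧
    F0 M ≤ Real.exp (κ * (Real.log M + 1)) * (ws M (2 * M) * omp M (2 * M) ^ 2) ∧
    ∀ a, 2 * M ≤ a → a < 3 * M → ws M a * omp M a ^ 2 ≤
      Real.exp (κ * (Real.log M + 1)) * (ws M (2 * M) * omp M (2 * M) ^ 2) := by
  obtain ⟨κ, hκ⟩ := log_W_mid
  refine ⟨|κ|, abs_nonneg κ, fun M hM => ?_⟩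
  have hlog : 0 ≤ Real.log M := Real.log_natCast_nonneg M
  have h1 : 1 ≤ Real.exp (|κ| * (Real.log M + 1)) := by
    rw [← Real.exp_zero]
    exact Real.exp_le_exp.2 (by positivity)
  have hW : 0 < ws M (2 * M) * omp M (2 * M) ^ 2 :=
    mul_pos (rows_ws_pos M _) (pow_pos (rows_omp_pos M _ hM (by omega)) 2)
  have hW' : 0 < ws M (3 * M - 1) * omp M (3 * M - 1) ^ 2 :=
    mul_pos (rows_ws_pos M _) (pow_pos (rows_omp_pos M _ hM (by omega)) 2)
  have hgen : ∀ x : ℝ, 0 < x → Real.log x ≤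
      Real.log (ws M (2 * M) * omp M (2 * M) ^ 2) + κ * Real.log M + κ →
      x ≤ Real.exp (|κ| * (Real.log M + 1)) * (ws M (2 * M) * omp M (2 * M) ^ 2) := by
    intro x hx hle
    have h2 : Real.log x ≤ |κ| * (Real.log M + 1) +
        Real.log (ws M (2 * M) * omp M (2 * M) ^ 2) := by
      have h3 : κ * (Real.log M + 1) ≤ |κ| * (Real.log M + 1) :=
        mul_le_mul_of_nonneg_right (le_abs_self κ) (by positivity)
      linarith only [hle, h3]
    calc x = Real.exp (Real.log x) := (Real.exp_log hx).symm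
      _ ≤ Real.exp (|κ| * (Real.log M + 1) +
          Real.log (ws M (2 * M) * omp M (2 * M) ^ 2)) := Real.exp_le_exp.2 h2
      _ = _ := by rw [Real.exp_add, Real.exp_log hW]
  refine ⟨h1, hgen _ (F0_pos M hM) (hκ M hM).1, fun a ha ha' => ?_⟩
  refine (W_quasi M a hM ha ha').trans (max_le ?_ (hgen _ hW' (hκ M hM).2))
  exact le_mul_of_one_le_left hW.le h1

theorem row_small : ∃ κ : ℝ, ∀ M a : ℕ, 1 ≤ M → a < 2 * M →
    Real.log (Vn M a ^ 2 * nrm (2 * M) (5 * M) (lag M a)) ≤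
      7 * Real.log a.factorial - 7 * Real.log (4 * M + a).factorial +
      2 * Real.log (4 * M + 2 * a).factorial + κ * Real.log M + κ := by
  obtain ⟨κ, hκ0, hκ⟩ := rows_mid
  refine ⟨κ + 2 + Real.log 32 + Real.log 5 + Real.log (1 + 5 * Real.pi), fun M a hM ha => ?_⟩
  obtain ⟨h1, h2, -⟩ := hκ M hM
  have hM' : (1 : ℝ) ≤ M := by exact_mod_cast hM
  have hMp : (0 : ℝ) < M := by linarith only [hM']
  have hlog : 0 ≤ Real.log M := Real.log_natCast_nonneg M
  have hws := rows_ws_pos M a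
  have homp := rows_omp_pos M a hM (by omega)
  have hWa : 0 < ws M a * omp M a ^ 2 := by positivity
  set E := Real.exp (κ * (Real.log M + 1)) with hE
  have hpi := Real.pi_pos
  -- the norm
  have h3 : nrm (2 * M) (5 * M) (lag M a) ≤ (1 + 5 * Real.pi) * (M * (E * ws M a)) := by
    refine (nrm_lag_le M a hM (by omega)).trans ?_
    have h4 : F0 M / omp M a ^ 2 ≤ E * ws M a := by
      rw [div_le_iff₀ (by positivity)]
      refine h2.trans ?_
      rw [mul_assoc]
      exact mul_le_mul_of_nonneg_left (rows_W_anti M a hM ha.le) (by positivity)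
    have h5 : ws M a ≤ M * (E * ws M a) := by
      have h6 : ws M a ≤ E * ws M a := le_mul_of_one_le_left hws.le h1
      exact h6.trans (le_mul_of_one_le_left (by positivity) hM')
    have h6 : 5 * Real.pi * M * F0 M / omp M a ^ 2 = 5 * Real.pi * (M * (F0 M / omp M a ^ 2)) := by
      ring
    rw [h6, add_mul, one_mul]
    gcongr
  have hV := rows_Vn_pos M a
  have hn := nrm_lag_pos M a hM (by omega)
  rw [Real.log_mul (by positivity) hn.ne', Real.log_pow, rows_log_Vn]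
  have h7 := Real.log_le_log hn h3
  rw [Real.log_mul (by positivity) (by positivity), Real.log_mul (by positivity) (by positivity),
    Real.log_mul (by positivity) (by positivity), hE, Real.log_exp] at h7
  have h8 := rows_log_ws M a
  have h9 : Real.log (2 * (M : ℝ) + a + 1 / 2) ≤ Real.log 5 + Real.log M := by
    refine rows_log_lin hM (by positivity) (by norm_num) ?_
    have : (a : ℝ) + 1 ≤ 2 * M := by exact_mod_cast ha
    linarith only [hM', this]
  have h10 : 0 ≤ Real.log 32 := Real.log_nonneg (by norm_num)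
  have h11 : 0 ≤ Real.log 5 := Real.log_nonneg (by norm_num)
  have h12 : 0 ≤ Real.log (1 + 5 * Real.pi) := Real.log_nonneg (by linarith only [hpi])
  have h13 : 0 ≤ (Real.log 32 + Real.log 5 + Real.log (1 + 5 * Real.pi)) * Real.log M := by
    positivity
  push_cast
  linarith only [h7, h8, h9, h13]

theorem row_mid : ∃ κ : ℝ, ∀ M a : ℕ, 1 ≤ M → 2 * M ≤ a → a < 3 * M →
    Real.log (Vn M a ^ 2 * nrm (2 * M) (5 * M) (lag M a)) ≤
      2 * Real.log (4 * M + 2 * a).factorial - 2 * Real.log (3 * M - 1 - a).factorial -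
      2 * Real.log (7 * M + a).factorial + 7 * Real.log (2 * M).factorial -
      7 * Real.log (6 * M).factorial + 2 * Real.log M.factorial +
      2 * Real.log (9 * M).factorial + κ * Real.log M + κ := by
  obtain ⟨κ, hκ0, hκ⟩ := rows_mid
  refine ⟨κ + 4 + Real.log 32 + Real.log 5 + 2 * Real.log 11 + Real.log (1 + 5 * Real.pi),
    fun M a hM ha ha' => ?_⟩
  obtain ⟨h1, h2, h2'⟩ := hκ M hM
  have hM' : (1 : ℝ) ≤ M := by exact_mod_cast hM
  have hMp : (0 : ℝ) < M := by linarith only [hM']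
  have hlog : 0 ≤ Real.log M := Real.log_natCast_nonneg M
  have hws := rows_ws_pos M a
  have homp := rows_omp_pos M a hM ha'
  have hws2 := rows_ws_pos M (2 * M)
  have homp2 := rows_omp_pos M (2 * M) hM (by omega)
  have hF := F0_pos M hM
  set E := Real.exp (κ * (Real.log M + 1)) with hE
  set W := ws M (2 * M) * omp M (2 * M) ^ 2 with hW
  have hWp : 0 < W := by positivity
  have hpi := Real.pi_pos
  have h3 : nrm (2 * M) (5 * M) (lag M a) ≤
      (1 + 5 * Real.pi) * (M * (E * W)) / omp M a ^ 2 := by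
    refine (nrm_lag_le M a hM ha').trans ?_
    rw [le_div_iff₀ (by positivity), add_mul, div_mul_cancel₀ _ (by positivity)]
    have h4 : ws M a * omp M a ^ 2 ≤ M * (E * W) :=
      (h2' a ha ha').trans (le_mul_of_one_le_left (by positivity) hM')
    have h5 : 5 * Real.pi * M * F0 M ≤ 5 * Real.pi * (M * (E * W)) := by
      rw [mul_assoc (5 * Real.pi)]
      gcongr
    rw [add_mul (1 : ℝ), one_mul]
    exact add_le_add h4 h5
  have hV := rows_Vn_pos M a
  have hn := nrm_lag_pos M a hM ha'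
  rw [Real.log_mul (by positivity) hn.ne', Real.log_pow, rows_log_Vn]
  have h7 := Real.log_le_log hn h3
  rw [Real.log_div (by positivity) (by positivity), Real.log_mul (by positivity) (by positivity),
    Real.log_mul (by positivity) (by positivity), Real.log_mul (by positivity) (by positivity),
    hE, Real.log_exp, hW, Real.log_mul (by positivity) (by positivity), Real.log_pow,
    Real.log_pow, rows_log_omp M a hM ha', rows_log_omp M (2 * M) hM (by omega)] at h7
  have h8 := rows_log_ws M (2 * M)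
  have h9 : Real.log (2 * (M : ℝ) + ((2 * M : ℕ) : ℝ) + 1 / 2) ≤ Real.log 5 + Real.log M := by
    refine rows_log_lin hM (by positivity) (by norm_num) ?_
    push_cast
    linarith only [hM']
  have h14 : Real.log (4 * (M : ℝ) + 2 * a + 1) ≤ Real.log 11 + Real.log M := by
    refine rows_log_lin hM (by positivity) (by norm_num) ?_
    have : (a : ℝ) + 1 ≤ 3 * M := by exact_mod_cast ha'
    linarith only [hM', this]
  have h15 : 0 ≤ Real.log (4 * (M : ℝ) + 2 * ((2 * M : ℕ) : ℝ) + 1) :=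
    Real.log_nonneg (by push_cast; linarith only [hM'])
  have e1 : 3 * M - 1 - 2 * M = M - 1 := by omega
  have e2 : 4 * M + 2 * M = 6 * M := by ring
  have e3 : 7 * M + 2 * M = 9 * M := by ring
  rw [e1, e2, e3] at h7
  rw [e2] at h8
  have h16 : Real.log (M - 1).factorial ≤ Real.log M.factorial := by
    refine Real.log_le_log (by positivity) ?_
    exact_mod_cast Nat.factorial_le (Nat.sub_le M 1)
  have h10 : 0 ≤ Real.log 32 := Real.log_nonneg (by norm_num)
  have h11 : 0 ≤ Real.log 5 := Real.log_nonneg (by norm_num)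
  have h11' : 0 ≤ Real.log 11 := Real.log_nonneg (by norm_num)
  have h12 : 0 ≤ Real.log (1 + 5 * Real.pi) := Real.log_nonneg (by linarith only [hpi])
  have h13 : 0 ≤ (Real.log 32 + Real.log 5 + 2 * Real.log 11 + Real.log (1 + 5 * Real.pi)) *
      Real.log M := by
    positivity
  push_cast at h7 h8 h9 h14 h15 ⊢
  linarith only [h14, h16, h13, h7, h8, h9, h15]

theorem row_large : ∃ κ : ℝ, ∀ M j : ℕ, 1 ≤ M → j < 2 * M →
    Real.log (nrm (2 * M) (5 * M) (om M * (X - C ((5 * (M : ℝ)) ^ 2)) ^ j)) ≤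
      7 * Real.log (3 * M).factorial - 7 * Real.log (7 * M).factorial +
      2 * Real.log (10 * M).factorial + j * (4 * Real.log M + Real.log 2500) -
      Real.log (14 * M).factorial + Real.log j.factorial + Real.log (14 * M - j).factorial +
      κ * Real.log M + κ := by
  refine ⟨2 + Real.log (5 * Real.pi) + Real.log 5, fun M j hM hj => ?_⟩
  have hM' : (1 : ℝ) ≤ M := by exact_mod_cast hM
  have hMp : (0 : ℝ) < M := by linarith only [hM']
  have hlog : 0 ≤ Real.log M := Real.log_natCast_nonneg M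
  have hpi := Real.pi_pos
  have hF := F0_pos M hM
  have h1 := Real.log_le_log (nrm_om_pos M j hM) (nrm_om_le M j hM hj.le)
  have h2 : ((14 * M).choose j : ℝ) = ((14 * M).factorial : ℝ) /
      ((j.factorial : ℝ) * ((14 * M - j).factorial : ℝ)) := Nat.cast_choose ℝ (by omega)
  have e4 : (4 * (5 * (M : ℝ)) ^ 4) = 2500 * (M : ℝ) ^ 4 := by ring
  rw [h2, e4, Real.log_div (by positivity) (by positivity),
    Real.log_div (by positivity) (by positivity), Real.log_mul (by positivity) (by positivity),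
    Real.log_mul (by positivity) (by positivity), Real.log_mul (by positivity) (by positivity),
    Real.log_mul (by positivity) (by positivity), Real.log_pow,
    Real.log_mul (by positivity) (by positivity), Real.log_pow] at h1
  have h3 := rows_log_F0 M hM
  have h4 : Real.log ((j.factorial : ℝ) * ((14 * M - j).factorial : ℝ)) =
      Real.log j.factorial + Real.log (14 * M - j).factorial :=
    Real.log_mul (by positivity) (by positivity)
  rw [h4] at h1
  have h10 : 0 ≤ Real.log Real.pi := by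
    refine Real.log_nonneg ?_
    have := Real.pi_gt_three
    linarith only [this]
  have h11 : 0 ≤ Real.log 5 := Real.log_nonneg (by norm_num)
  have h12 : Real.log (5 * Real.pi) = Real.log 5 + Real.log Real.pi :=
    Real.log_mul (by norm_num) hpi.ne'
  rw [h12]
  have h13 : 0 ≤ (Real.log 5 + Real.log Real.pi + Real.log 5) * Real.log M := by
    positivity
  push_cast at h1 h3 ⊢
  linarith only [h13, h3, h1]

end Vale.Agent.P030.Five
end
end

section

section

/-! NV3: interchange of sum and integral. -/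

namespace Vale.Agent.P030

open Finset Polynomial MeasureTheory

/-- `g(s) = e^{-s/2}/(1+e^{-s})`. -/
noncomputable def gg (s : ℝ) : ℝ := Real.exp (-(s / 2)) / (1 + Real.exp (-s))

theorem NVSum_gg_pos (s : ℝ) : 0 < gg s := by unfold gg; positivity

theorem NVSum_gg_cont : Continuous gg := by
  unfold gg
  apply Continuous.div (by fun_prop) (by fun_prop)
  intro s
  positivity

theorem NVSum_gg_le (s : ℝ) : gg s ≤ Real.exp (-(s / 2)) := by
  unfold gg
  apply div_le_self (Real.exp_pos _).le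
  have := Real.exp_pos (-s)
  linarith

/-- `s^n e^{-cs}` is integrable on `(0,∞)` -/
theorem NVSum_int_pow (n : ℕ) {c : ℝ} (hc : 0 < c) :
    IntegrableOn (fun s : ℝ => s ^ n * Real.exp (-(c * s))) (Set.Ioi 0) := by
  have h := integrableOn_rpow_mul_exp_neg_mul_rpow (p := 1) (s := (n : ℝ)) (b := c)
    (by have : (0 : ℝ) ≤ n := Nat.cast_nonneg n
        linarith only []) one_pos hc
  refine h.congr_fun ?_ measurableSet_Ioi
  intro s _
  simp only [Real.rpow_natCast, Real.rpow_one, neg_mul]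

theorem NVSum_integral_pow (n : ℕ) {c : ℝ} (hc : 0 < c) :
    ∫ s in Set.Ioi (0 : ℝ), s ^ n * Real.exp (-(c * s)) = n.factorial / c ^ (n + 1) := by
  have h := Real.integral_rpow_mul_exp_neg_mul_Ioi (a := (n : ℝ) + 1) (r := c) (by positivity) hc
  rw [Real.Gamma_nat_eq_factorial] at h
  have e1 : (1 / c) ^ ((n : ℝ) + 1) = 1 / c ^ (n + 1) := by
    rw [← Nat.cast_succ, Real.rpow_natCast, one_div, inv_pow, one_div]
  rw [e1] at h
  have e2 : (n.factorial : ℝ) / c ^ (n + 1) = 1 / c ^ (n + 1) * n.factorial := by ring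
  rw [e2, ← h]
  apply setIntegral_congr_fun measurableSet_Ioi
  intro s _
  simp only [add_sub_cancel_right, Real.rpow_natCast]

/-- `∏_{i<B} (t²-(i+1/2)²) = (m+B)!/(m-B)!` at `t = m+1/2`, `m = n+B`. -/
theorem NVSum_Num (B n : ℕ) :
    Num B (((n + B : ℕ) : ℝ) + 1 / 2) = (2 * B).factorial * ((n + 2 * B).choose (2 * B) : ℝ) := by
  have h1 : ∀ b : ℕ, ∀ m : ℕ, b ≤ m →
      Num b ((m : ℝ) + 1 / 2) * (m - b).factorial = (m + b).factorial := by
    intro b
    induction b with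
    | zero => intro m _; simp [Num]
    | succ b ih =>
      intro m hm
      have h := ih m (by omega)
      have hN : Num (b + 1) ((m : ℝ) + 1 / 2) =
          Num b ((m : ℝ) + 1 / 2) * (((m : ℝ) + 1 / 2) ^ 2 - ((b : ℝ) + 1 / 2) ^ 2) := by
        unfold Num; rw [Finset.prod_range_succ]
      have hf : ((m - b).factorial : ℝ) = ((m : ℝ) - b) * (m - (b + 1)).factorial := by
        have e : m - b = (m - (b + 1)) + 1 := by omega
        rw [e, Nat.factorial_succ]
        push_cast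
        rw [Nat.cast_sub (by omega)]
        push_cast
        ring
      have hf2 : ((m + (b + 1)).factorial : ℝ) = ((m : ℝ) + b + 1) * (m + b).factorial := by
        rw [← add_assoc, Nat.factorial_succ]
        push_cast
        ring
      rw [hN, hf2, ← h, hf]
      ring
  have h2 := h1 B (n + B) (by omega)
  have h3 : ((n + 2 * B).choose (2 * B) : ℝ) * (2 * B).factorial * n.factorial =
      (n + 2 * B).factorial := by
    have := Nat.choose_mul_factorial_mul_factorial (n := n + 2 * B) (k := 2 * B) (by omega)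
    rw [Nat.add_sub_cancel] at this
    exact_mod_cast this
  have e1 : n + B - B = n := by omega
  have e2 : n + B + B = n + 2 * B := by ring
  rw [e1, e2, ← h3] at h2
  have hpos : (n.factorial : ℝ) ≠ 0 := by positivity
  have h4 := mul_right_cancel₀ hpos h2
  rw [h4]
  ring

theorem NVSum_Num_zero (B m : ℕ) (h : m < B) : Num B ((m : ℝ) + 1 / 2) = 0 := by
  unfold Num
  exact Finset.prod_eq_zero (Finset.mem_range.2 h) (by ring)

theorem NVSum_Num_mul (N l : ℕ) (t : ℝ) :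
    Num N t * (∏ i ∈ Ico N (N + l), (X - C (((i : ℝ) + 1 / 2) ^ 2)) : ℝ[X]).eval (t ^ 2) =
      Num (N + l) t := by
  unfold Num
  rw [Polynomial.eval_prod]
  simp only [Polynomial.eval_sub, Polynomial.eval_X, Polynomial.eval_C]
  rw [Finset.prod_range_mul_prod_Ico _ (Nat.le_add_right N l)]

end Vale.Agent.P030
end
end

section

section

/-! NV4: sign matching. -/

namespace Vale.Agent.P030

open Finset Polynomial MeasureTheory

theorem NVSign_const {D : Set ℝ} (hD : D.OrdConnected) {f : ℝ → ℝ} (hf : ContinuousOn f D)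
    (h0 : ∀ x ∈ D, f x ≠ 0) : (∀ x ∈ D, 0 < f x) ∨ (∀ x ∈ D, f x < 0) := by
  by_contra hcon
  push Not at hcon
  obtain ⟨⟨x, hx, hfx⟩, ⟨y, hy, hfy⟩⟩ := hcon
  have h := hD.isPreconnected.intermediate_value hx hy hf
  obtain ⟨z, hz, hfz⟩ := h ⟨hfx, hfy⟩
  exact h0 z hz hfz

theorem NVSign_aux (Φ : ℝ → ℝ) (hcont : Continuous Φ) : ∀ (n : ℕ) (Z : Finset ℝ), Z.card = n →
    ∀ D : Set ℝ, D.OrdConnected → (∀ x ∈ D, Φ x = 0 → x ∈ Z) →
    ∃ S ⊆ Z, (∀ s ∈ D, s ∉ Z → 0 < Φ s * ∏ w ∈ S, (w - s)) ∨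
      (∀ s ∈ D, s ∉ Z → Φ s * ∏ w ∈ S, (w - s) < 0) := by
  intro n
  induction n with
  | zero =>
    intro Z hZ D hD hzero
    have hZ0 : Z = ∅ := Finset.card_eq_zero.mp hZ
    subst hZ0
    refine ⟨∅, Finset.Subset.refl _, ?_⟩
    have hne : ∀ x ∈ D, Φ x ≠ 0 := fun x hx h => by simpa using hzero x hx h
    rcases NVSign_const hD hcont.continuousOn hne with h | h
    · left; intro s hs _; simpa using h s hs
    · right; intro s hs _; simpa using h s hs
  | succ n ih =>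
    intro Z hZ D hD hzero
    have hne : Z.Nonempty := by rw [← Finset.card_pos]; omega
    set w := Z.max' hne with hw
    have hwZ : w ∈ Z := Finset.max'_mem _ _
    have hmax : ∀ x ∈ Z, x ≤ w := fun x hx => Finset.le_max' _ _ hx
    have hc1 : (Z.erase w).card = n := by rw [Finset.card_erase_of_mem hwZ]; omega
    obtain ⟨S, hSZ, hS⟩ := ih (Z.erase w) hc1 (D ∩ Set.Iio w) (hD.inter Set.ordConnected_Iio)
      (fun x hx h => Finset.mem_erase.mpr ⟨ne_of_lt hx.2, hzero x hx.1 h⟩)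
    have hS' : S ⊆ Z := hSZ.trans (Finset.erase_subset _ _)
    have hwS : w ∉ S := fun h => (Finset.mem_erase.mp (hSZ h)).1 rfl
    -- sign on the right of `w`
    have hcont2 : ContinuousOn (fun s => Φ s * ∏ x ∈ S, (x - s)) (D ∩ Set.Ioi w) := by
      apply Continuous.continuousOn
      exact hcont.mul (continuous_finsetProd _ fun i _ => by fun_prop)
    have hne2 : ∀ s ∈ D ∩ Set.Ioi w, Φ s * ∏ x ∈ S, (x - s) ≠ 0 := by
      intro s hs
      apply mul_ne_zero
      · intro h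
        have := hmax s (hzero s hs.1 h)
        exact absurd hs.2 (not_lt.mpr this)
      · rw [Finset.prod_ne_zero_iff]
        intro x hx
        have h1 := hmax x (hS' hx)
        have h2 : w < s := hs.2
        intro h
        linarith only [h1, h2, h]
    have hcase : ∀ s ∈ D, s ∉ Z → (s ∈ D ∩ Set.Iio w ∧ s ∉ Z.erase w) ∨ s ∈ D ∩ Set.Ioi w := by
      intro s hs hsZ
      have hsw : s ≠ w := fun h => hsZ (h ▸ hwZ)
      rcases lt_or_gt_of_ne hsw with h | h
      · left; exact ⟨⟨hs, h⟩, fun h' => hsZ (Finset.erase_subset _ _ h')⟩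
      · right; exact ⟨hs, h⟩
    have hins : ∀ s, ∏ x ∈ insert w S, (x - s) = (w - s) * ∏ x ∈ S, (x - s) :=
      fun s => Finset.prod_insert hwS
    rcases hS with hS | hS <;>
      rcases NVSign_const (hD.inter Set.ordConnected_Ioi) hcont2 hne2 with h | h
    · refine ⟨S, hS', Or.inl ?_⟩
      intro s hs hsZ
      rcases hcase s hs hsZ with ⟨h1, h2⟩ | h1
      · exact hS s h1 h2
      · exact h s h1
    · refine ⟨insert w S, Finset.insert_subset hwZ hS', Or.inl ?_⟩
      intro s hs hsZ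
      rw [hins]
      rcases hcase s hs hsZ with ⟨h1, h2⟩ | h1
      · have h3 := hS s h1 h2
        have h4 : 0 < w - s := by have := h1.2; simp only [Set.mem_Iio] at this; linarith only [this]
        linarith only [mul_pos h4 h3]
      · have h3 := h s h1
        have h4 : w - s < 0 := by have := h1.2; simp only [Set.mem_Ioi] at this; linarith only [this]
        linarith only [mul_pos_of_neg_of_neg h4 h3]
    · refine ⟨insert w S, Finset.insert_subset hwZ hS', Or.inr ?_⟩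
      intro s hs hsZ
      rw [hins]
      rcases hcase s hs hsZ with ⟨h1, h2⟩ | h1
      · have h3 := hS s h1 h2
        have h4 : 0 < w - s := by have := h1.2; simp only [Set.mem_Iio] at this; linarith only [this]
        nlinarith only [mul_neg_of_pos_of_neg h4 h3, h4, h3]
      · have h3 := h s h1
        have h4 : w - s < 0 := by have := h1.2; simp only [Set.mem_Ioi] at this; linarith only [this]
        nlinarith only [mul_neg_of_neg_of_pos h4 h3, h4, h3]
    · refine ⟨S, hS', Or.inr ?_⟩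
      intro s hs hsZ
      rcases hcase s hs hsZ with ⟨h1, h2⟩ | h1
      · exact hS s h1 h2
      · exact h s h1

theorem NVSign_gg_eq (s : ℝ) : gg s = 1 / (2 * Real.cosh (s / 2)) := by
  unfold gg
  rw [Real.cosh_eq]
  have h1 : Real.exp (-s) = Real.exp (-(s / 2)) * Real.exp (-(s / 2)) := by
    rw [← Real.exp_add]; ring_nf
  have h2 : Real.exp (s / 2) * Real.exp (-(s / 2)) = 1 := by
    rw [← Real.exp_add]; simp
  have h3 : 0 < Real.exp (-(s / 2)) := Real.exp_pos _
  have h4 : 0 < Real.exp (s / 2) := Real.exp_pos _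
  rw [div_eq_div_iff (by positivity) (by positivity), h1]
  nlinarith only [h2]

theorem NVSign_gg_lt {s t : ℝ} (hs : 0 < s) (hst : s < t) : gg t < gg s := by
  rw [NVSign_gg_eq, NVSign_gg_eq]
  apply one_div_lt_one_div_of_lt
  · have := Real.cosh_pos (s / 2); linarith only [this]
  · have : Real.cosh (s / 2) < Real.cosh (t / 2) := by
      rw [Real.cosh_lt_cosh, abs_of_pos (by linarith), abs_of_pos (by linarith)]
      linarith
    linarith only [this]

/-- `gg(s)² - gg(w)² = c (w - s)` with `c > 0` for `s ≠ w`. -/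
theorem NVSign_gg_sub {s w : ℝ} (hs : 0 < s) (hw : 0 < w) (hne : s ≠ w) :
    0 < (gg s ^ 2 - gg w ^ 2) / (w - s) := by
  have h1 := NVSum_gg_pos s
  have h2 := NVSum_gg_pos w
  rcases lt_or_gt_of_ne hne with h | h
  · have h3 := NVSign_gg_lt hs h
    apply div_pos _ (by linarith only [h])
    linarith only [mul_pos (sub_pos.2 h3) (sub_pos.2 h2), mul_pos (sub_pos.2 h3) (sub_pos.2 h3)]
  · have h3 := NVSign_gg_lt hw h
    apply div_pos_of_neg_of_neg _ (by linarith)
    linarith only [mul_pos (sub_pos.2 h3) (sub_pos.2 h3), mul_pos (sub_pos.2 h1) (sub_pos.2 h3)]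

theorem exists_sign_poly (N z : ℕ) (Φ : ℝ → ℝ) (hcont : Continuous Φ)
    (hz : ∀ S : Finset ℝ, (∀ x ∈ S, 0 < x ∧ Φ x = 0) → S.card ≤ z)
    (hint : ∀ l ≤ z, IntegrableOn (fun s => Φ s * gg s ^ (2 * N + 2 * l + 1)) (Set.Ioi 0)) :
    ∃ q : ℝ[X], q.natDegree ≤ z ∧
      ∫ s in Set.Ioi (0 : ℝ), Φ s * (gg s ^ (2 * N + 1) * q.eval (gg s ^ 2)) ≠ 0 := by
  -- the zero set
  have hfin : {x : ℝ | 0 < x ∧ Φ x = 0}.Finite := by
    by_contra hinf
    obtain ⟨S, hS, hcard⟩ := Set.Infinite.exists_subset_card_eq hinf (z + 1)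
    have := hz S (fun x hx => hS hx)
    omega
  set Z := hfin.toFinset with hZ
  have hZmem : ∀ x, x ∈ Z ↔ 0 < x ∧ Φ x = 0 := by intro x; simp [hZ]
  obtain ⟨S, hSZ, hS⟩ := NVSign_aux Φ hcont Z.card Z rfl (Set.Ioi 0) Set.ordConnected_Ioi
    (fun x hx h => (hZmem x).mpr ⟨hx, h⟩)
  set q : ℝ[X] := ∏ w ∈ S, (X - C (gg w ^ 2)) with hq
  have hqdeg : q.natDegree ≤ z := by
    rw [hq, natDegree_prod_of_monic _ _ (fun i _ => monic_X_sub_C _)]
    simp only [natDegree_X_sub_C, sum_const, smul_eq_mul, mul_one]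
    exact (Finset.card_le_card hSZ).trans (hz Z (fun x hx => (hZmem x).mp hx))
  refine ⟨q, hqdeg, ?_⟩
  set h : ℝ → ℝ := fun s => Φ s * (gg s ^ (2 * N + 1) * q.eval (gg s ^ 2)) with hh
  have hhint : IntegrableOn h (Set.Ioi 0) := by
    have e1 : h = fun s => ∑ l ∈ range (q.natDegree + 1),
        q.coeff l * (Φ s * gg s ^ (2 * N + 2 * l + 1)) := by
      ext s
      simp only [hh]
      rw [eval_eq_sum_range, Finset.mul_sum, Finset.mul_sum]
      apply Finset.sum_congr rfl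
      intro l _
      ring
    rw [e1]
    apply integrable_finsetSum
    intro l hl
    apply Integrable.const_mul
    exact hint l (by have := Finset.mem_range.mp hl; omega)
  -- `h` in terms of the sign function
  have hfac : ∀ s : ℝ, 0 < s → s ∉ Z → ∃ c : ℝ, 0 < c ∧ h s = c * (Φ s * ∏ w ∈ S, (w - s)) := by
    intro s hs hsZ
    refine ⟨gg s ^ (2 * N + 1) * ∏ w ∈ S, ((gg s ^ 2 - gg w ^ 2) / (w - s)), ?_, ?_⟩
    · apply mul_pos (pow_pos (NVSum_gg_pos s) _)
      apply Finset.prod_pos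
      intro w hw
      have hwZ := hSZ hw
      exact NVSign_gg_sub hs ((hZmem w).mp hwZ).1 (fun e => hsZ (e ▸ hwZ))
    · simp only [hh, hq]
      rw [eval_prod]
      simp only [eval_sub, eval_X, eval_C]
      have e2 : ∏ w ∈ S, (gg s ^ 2 - gg w ^ 2) =
          (∏ w ∈ S, ((gg s ^ 2 - gg w ^ 2) / (w - s))) * ∏ w ∈ S, (w - s) := by
        rw [← Finset.prod_mul_distrib]
        apply Finset.prod_congr rfl
        intro w hw
        have hwZ := hSZ hw
        have : w - s ≠ 0 := by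
          intro e
          have : s = w := by linarith only [e]
          exact hsZ (this ▸ hwZ)
        field_simp
      rw [e2]; ring
  have hmeas : (volume.restrict (Set.Ioi (0 : ℝ))) ((Z : Set ℝ)ᶜ) ≠ 0 := by
    have h0 : volume (Z : Set ℝ) = 0 := (Finset.countable_toSet Z).measure_zero _
    have h1 : (volume.restrict (Set.Ioi (0 : ℝ))) ((Z : Set ℝ)) = 0 := by
      have := Measure.restrict_apply_le (μ := volume) (Set.Ioi (0 : ℝ)) (Z : Set ℝ)
      exact le_antisymm (this.trans h0.le) bot_le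
    intro h2
    have h3 := measure_union_le (μ := volume.restrict (Set.Ioi (0 : ℝ))) (Z : Set ℝ) ((Z : Set ℝ)ᶜ)
    rw [Set.union_compl_self, h1, h2, add_zero, Measure.restrict_apply_univ, Real.volume_Ioi] at h3
    exact absurd h3 (by simp)
  have key : ∀ f : ℝ → ℝ, IntegrableOn f (Set.Ioi 0) → (∀ s, 0 < s → 0 ≤ f s) →
      (∀ s, 0 < s → s ∉ Z → 0 < f s) → 0 < ∫ s in Set.Ioi (0 : ℝ), f s := by
    intro f hf h0 hpos
    rw [integral_pos_iff_support_of_nonneg_ae]
    · apply pos_iff_ne_zero.mpr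
      intro hzero
      apply hmeas
      rw [Measure.restrict_apply (by exact (Finset.measurableSet Z).compl)]
      refine measure_mono_null ?_ ((Measure.restrict_apply' measurableSet_Ioi).symm.trans hzero)
      rintro s ⟨hs1, hs2⟩
      exact ⟨(hpos s hs2 (by simpa using hs1)).ne', hs2⟩
    · refine (ae_restrict_iff' measurableSet_Ioi).mpr (Filter.Eventually.of_forall ?_)
      intro s hs
      exact h0 s hs
    · exact hf
  have hzeroZ : ∀ s ∈ Z, h s = 0 := by
    intro s hs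
    simp only [hh]
    rw [((hZmem s).mp hs).2, zero_mul]
  rcases hS with hS | hS
  · apply ne_of_gt
    apply key h hhint
    · intro s hs
      by_cases hsZ : s ∈ Z
      · rw [hzeroZ s hsZ]
      · obtain ⟨c, hc, e⟩ := hfac s hs hsZ
        rw [e]; exact (mul_pos hc (hS s hs hsZ)).le
    · intro s hs hsZ
      obtain ⟨c, hc, e⟩ := hfac s hs hsZ
      rw [e]; exact mul_pos hc (hS s hs hsZ)
  · have h2 := key (fun s => -h s) hhint.neg (by
      intro s hs
      by_cases hsZ : s ∈ Z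
      · rw [hzeroZ s hsZ]; simp
      · obtain ⟨c, hc, e⟩ := hfac s hs hsZ
        have := mul_neg_of_pos_of_neg hc (hS s hs hsZ)
        rw [e]; linarith only [this]) (by
      intro s hs hsZ
      obtain ⟨c, hc, e⟩ := hfac s hs hsZ
      have := mul_neg_of_pos_of_neg hc (hS s hs hsZ)
      rw [e]; linarith only [this])
    rw [integral_neg] at h2
    intro h3
    simp only [hh] at h2
    rw [h3] at h2
    simp at h2

end Vale.Agent.P030
end
end

section

section

/-! NV1: counting zeros of exponential polynomials with Rolle's theorem. -/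

namespace Vale.Agent.P030

/-- `Ann l f`: `f` is killed by the product of `D - a`, `a ∈ l`. -/
def Ann : List ℝ → (ℝ → ℝ) → Prop
  | [], f => f = 0
  | (a :: l), f => Ann l (fun x => deriv f x - a * f x)

theorem NVRolle_rolle (h : ℝ → ℝ) (hd : Differentiable ℝ h) (n : ℕ) :
    ∀ (S : Finset ℝ) (B : ℝ), S.card = n + 1 → (∀ x ∈ S, h x = 0) → (∀ x ∈ S, x ≤ B) →
      ∃ T : Finset ℝ, T.card = n ∧ Disjoint T S ∧ (∀ x ∈ T, deriv h x = 0 ∧ x < B) := by
  induction n with
  | zero =>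
    intro S B _ _ _
    exact ⟨∅, rfl, Finset.disjoint_empty_left _, by simp⟩
  | succ n ih =>
    intro S B hS hz hB
    have hne : S.Nonempty := by
      rw [← Finset.card_pos]; omega
    set M := S.max' hne with hM
    have hMS : M ∈ S := S.max'_mem hne
    have hcard : (S.erase M).card = n + 1 := by
      rw [Finset.card_erase_of_mem hMS, hS]; omega
    have hne' : (S.erase M).Nonempty := by
      rw [← Finset.card_pos]; omega
    set M' := (S.erase M).max' hne' with hM'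
    have hM'S : M' ∈ S.erase M := (S.erase M).max'_mem hne'
    have hlt : M' < M := by
      have h1 : M' ∈ S := Finset.mem_of_mem_erase hM'S
      have h2 : M' ≠ M := Finset.ne_of_mem_erase hM'S
      exact lt_of_le_of_ne (S.le_max' _ h1) h2
    obtain ⟨T, hT, hdis, hTz⟩ := ih (S.erase M) M' hcard
      (fun x hx => hz x (Finset.mem_of_mem_erase hx)) (fun x hx => (S.erase M).le_max' x hx)
    obtain ⟨c, hc, hc0⟩ := exists_deriv_eq_zero hlt (hd.continuous.continuousOn)
      (by rw [hz _ (Finset.mem_of_mem_erase hM'S), hz _ hMS])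
    have hcT : c ∉ T := fun hcT => by
      have := (hTz c hcT).2
      have := hc.1
      linarith
    refine ⟨insert c T, by rw [Finset.card_insert_of_notMem hcT, hT], ?_, ?_⟩
    · rw [Finset.disjoint_left]
      intro x hx hxS
      rcases Finset.mem_insert.mp hx with rfl | hx
      · by_cases hxM : x = M
        · have := hc.2; linarith only [hxM, this]
        · have : x ≤ M' := (S.erase M).le_max' x (Finset.mem_erase.mpr ⟨hxM, hxS⟩)
          have := hc.1; linarith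
      · by_cases hxM : x = M
        · have := (hTz x hx).2; linarith only [hlt, hxM, this]
        · exact (Finset.disjoint_left.mp hdis hx) (Finset.mem_erase.mpr ⟨hxM, hxS⟩)
    · intro x hx
      have hMB : M ≤ B := hB M hMS
      rcases Finset.mem_insert.mp hx with rfl | hx
      · exact ⟨hc0, by have := hc.2; linarith only [hMB, this]⟩
      · exact ⟨(hTz x hx).1, by have := (hTz x hx).2; linarith only [hlt, hMB, this]⟩

theorem NVRolle_hasDeriv (f : ℝ → ℝ) (hf : Differentiable ℝ f) (a x : ℝ) :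
    HasDerivAt (fun x => Real.exp (-(a * x)) * f x)
      (Real.exp (-(a * x)) * (deriv f x - a * f x)) x := by
  have h1 : HasDerivAt (fun x : ℝ => -(a * x)) (-a) x := by
    have h0 : HasDerivAt (fun x : ℝ => (-a) * x) (-a) x := by
      have := (hasDerivAt_id' x).const_mul (-a)
      rwa [mul_one] at this
    have he : (fun x : ℝ => -(a * x)) = fun x : ℝ => (-a) * x := by
      funext y; ring
    rw [he]; exact h0
  have h2 : HasDerivAt (fun x => Real.exp (-(a * x)) * f x)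
      (Real.exp (-(a * x)) * -a * f x + Real.exp (-(a * x)) * deriv f x) x :=
    h1.exp.mul (hf x).hasDerivAt
  have he : Real.exp (-(a * x)) * (deriv f x - a * f x) =
      Real.exp (-(a * x)) * -a * f x + Real.exp (-(a * x)) * deriv f x := by ring
  rw [he]; exact h2

/-- zeros of `f' - a f`. -/
theorem NVRolle_zeros (f : ℝ → ℝ) (hf : Differentiable ℝ f) (a : ℝ) (n : ℕ) (S : Finset ℝ)
    (hS : S.card = n + 1) (hz : ∀ x ∈ S, f x = 0) :
    ∃ T : Finset ℝ, T.card = n ∧ Disjoint T S ∧ (∀ x ∈ T, deriv f x - a * f x = 0) := by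
  have hd : Differentiable ℝ (fun x => Real.exp (-(a * x)) * f x) :=
    fun x => (NVRolle_hasDeriv f hf a x).differentiableAt
  obtain ⟨B, hB⟩ : ∃ B, ∀ x ∈ S, x ≤ B := S.bddAbove
  obtain ⟨T, hT, hdis, hTz⟩ := NVRolle_rolle _ hd n S B hS
    (fun x hx => by simp [hz x hx]) hB
  refine ⟨T, hT, hdis, fun x hx => ?_⟩
  have h1 := (hTz x hx).1
  rw [(NVRolle_hasDeriv f hf a x).deriv] at h1
  exact (mul_eq_zero.mp h1).resolve_left (Real.exp_ne_zero _)

theorem NVRolle_smooth (f : ℝ → ℝ) (hf : ContDiff ℝ ((⊤ : ℕ∞) : WithTop ℕ∞) f) (a : ℝ) :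
    ContDiff ℝ ((⊤ : ℕ∞) : WithTop ℕ∞) (fun x => deriv f x - a * f x) := by
  have h1 : ContDiff ℝ ((⊤ : ℕ∞) : WithTop ℕ∞) (deriv f) := (contDiff_infty_iff_deriv.mp hf).2
  exact h1.sub (contDiff_const.mul hf)

theorem NVRolle_iter (f : ℝ → ℝ) (hf : ContDiff ℝ ((⊤ : ℕ∞) : WithTop ℕ∞) f) (a : ℝ) (i : ℕ)
    (x : ℝ) : iteratedDeriv i (fun x => deriv f x - a * f x) x =
      iteratedDeriv (i + 1) f x - a * iteratedDeriv i f x := by
  have h1 : ContDiff ℝ ((⊤ : ℕ∞) : WithTop ℕ∞) (deriv f) := (contDiff_infty_iff_deriv.mp hf).2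
  have hi : ((i : ℕ∞) : WithTop ℕ∞) ≤ ((⊤ : ℕ∞) : WithTop ℕ∞) := by
    exact_mod_cast le_top
  have e1 : ContDiffAt ℝ i (deriv f) x := (h1.of_le hi).contDiffAt
  have e2 : ContDiffAt ℝ i (fun x => a * f x) x := (contDiff_const.mul (hf.of_le hi)).contDiffAt
  have := iteratedDeriv_fun_sub (n := i) e1 e2
  rw [this, iteratedDeriv_succ']
  congr 1
  exact iteratedDeriv_const_mul_field (n := i) a f

/-- NV1. -/
theorem rolle_count (l : List ℝ) (f : ℝ → ℝ) (hf : ContDiff ℝ ((⊤ : ℕ∞) : WithTop ℕ∞) f)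
    (hann : Ann l f) (hne : f ≠ 0) (S : Finset ℝ) (hS : ∀ x ∈ S, f x = 0 ∧ x ≠ 0) (m : ℕ)
    (hm : ∀ i < m, iteratedDeriv i f 0 = 0) : S.card + m + 1 ≤ l.length := by
  induction l generalizing f S m with
  | nil => exact absurd hann hne
  | cons a l ih =>
    have hdf : Differentiable ℝ f := hf.differentiable (by simp)
    by_cases hg : (fun x => deriv f x - a * f x) = 0
    · -- `f = c e^{a x}`
      have hconst : ∀ x, Real.exp (-(a * x)) * f x = Real.exp (-(a * 0)) * f 0 := by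
        intro x
        have hd : Differentiable ℝ (fun x => Real.exp (-(a * x)) * f x) :=
          fun x => (NVRolle_hasDeriv f hdf a x).differentiableAt
        have h0 : ∀ x, deriv (fun x => Real.exp (-(a * x)) * f x) x = 0 := by
          intro x
          rw [(NVRolle_hasDeriv f hdf a x).deriv]
          have : deriv f x - a * f x = 0 := congrFun hg x
          rw [this, mul_zero]
        exact is_const_of_deriv_eq_zero hd h0 x 0
      have hnz : ∀ x, f x ≠ 0 := by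
        obtain ⟨x0, hx0⟩ : ∃ x0, f x0 ≠ 0 := by
          by_contra hcon
          push Not at hcon
          exact hne (funext hcon)
        intro x hx
        have h1 := hconst x
        have h2 := hconst x0
        rw [hx, mul_zero] at h1
        rw [← h1] at h2
        exact (mul_ne_zero (Real.exp_ne_zero _) hx0) h2
      have hSe : S = ∅ := by
        rw [Finset.eq_empty_iff_forall_notMem]
        intro x hx
        exact hnz x (hS x hx).1
      have hm0 : m = 0 := by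
        by_contra hcon
        have := hm 0 (Nat.pos_of_ne_zero hcon)
        rw [iteratedDeriv_zero] at this
        exact hnz 0 this
      subst hSe hm0
      simp
    · have hgs := NVRolle_smooth f hf a
      have hann' : Ann l (fun x => deriv f x - a * f x) := hann
      rcases Nat.eq_zero_or_pos m with rfl | hmpos
      · rcases Nat.eq_zero_or_pos S.card with h0 | hpos
        · rw [h0]; simp
        · obtain ⟨n, hn⟩ : ∃ n, S.card = n + 1 := ⟨S.card - 1, by omega⟩
          obtain ⟨T, hT, -, hTz⟩ := NVRolle_zeros f hdf a n S hn (fun x hx => (hS x hx).1)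
          by_cases h0T : (0 : ℝ) ∈ T
          · have := ih _ hgs hann' hg (T.erase 0)
              (fun x hx => ⟨hTz x (Finset.mem_of_mem_erase hx), Finset.ne_of_mem_erase hx⟩) 1
              (by
                intro i hi
                have : i = 0 := by omega
                subst this
                rw [iteratedDeriv_zero]
                exact hTz 0 h0T)
            rw [Finset.card_erase_of_mem h0T, hT] at this
            have hTpos : 0 < T.card := Finset.card_pos.mpr ⟨0, h0T⟩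
            simp only [List.length_cons]
            omega
          · have := ih _ hgs hann' hg T
              (fun x hx => ⟨hTz x hx, fun h => h0T (h ▸ hx)⟩) 0 (by intro i hi; omega)
            simp only [List.length_cons]
            omega
      · have h0S : (0 : ℝ) ∉ S := fun h => (hS 0 h).2 rfl
        have hf0 : f 0 = 0 := by
          have := hm 0 hmpos
          rwa [iteratedDeriv_zero] at this
        obtain ⟨T, hT, hdis, hTz⟩ := NVRolle_zeros f hdf a S.card (insert 0 S)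
          (Finset.card_insert_of_notMem h0S)
          (fun x hx => by
            rcases Finset.mem_insert.mp hx with rfl | hx
            · exact hf0
            · exact (hS x hx).1)
        have := ih _ hgs hann' hg T
          (fun x hx => ⟨hTz x hx, fun h => (Finset.disjoint_left.mp hdis hx)
            (by rw [h]; exact Finset.mem_insert_self _ _)⟩) (m - 1)
          (by
            intro i hi
            rw [NVRolle_iter f hf a i 0, hm (i + 1) (by omega), hm i (by omega)]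
            ring)
        simp only [List.length_cons]
        omega

end Vale.Agent.P030
end
end

section

section

/-! NV2: the inverse Laplace transform of `t P(t²) / Den N t ^ 7`. -/

namespace Vale.Agent.P030

open Finset Polynomial MeasureTheory

/-! ### exponential generating functions -/

/-- exponential generating function. -/
noncomputable def NVPhi_F (c : ℕ → ℝ) (s : ℝ) : ℝ := ∑' r : ℕ, c r * s ^ r / (r.factorial : ℝ)

/-- exponentially bounded sequences. -/
def NVPhi_Bd (ρ : ℝ) (c : ℕ → ℝ) : Prop := ∃ C, 0 ≤ C ∧ ∀ r, |c r| ≤ C * ρ ^ r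

theorem NVPhi_Bd_shift {ρ : ℝ} (hρ : 0 ≤ ρ) {c : ℕ → ℝ} (hc : NVPhi_Bd ρ c) :
    NVPhi_Bd ρ (fun r => c (r + 1)) := by
  obtain ⟨C, hC0, hC⟩ := hc
  exact ⟨C * ρ, mul_nonneg hC0 hρ, fun r => (hC (r + 1)).trans (le_of_eq (by ring))⟩

theorem NVPhi_Bd_op {ρ : ℝ} (hρ : 0 ≤ ρ) {c : ℕ → ℝ} (hc : NVPhi_Bd ρ c) (a : ℝ) :
    NVPhi_Bd ρ (fun r => c (r + 1) - a * c r) := by
  obtain ⟨C, hC0, hC⟩ := hc
  refine ⟨C * ρ + |a| * C, by positivity, fun r => ?_⟩
  calc |c (r + 1) - a * c r| ≤ |c (r + 1)| + |a * c r| := abs_sub _ _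
    _ = |c (r + 1)| + |a| * |c r| := by rw [abs_mul]
    _ ≤ C * ρ ^ (r + 1) + |a| * (C * ρ ^ r) := by
        gcongr
        · exact hC _
        · exact hC _
    _ = (C * ρ + |a| * C) * ρ ^ r := by ring

theorem NVPhi_term_bound {ρ : ℝ} {c : ℕ → ℝ} {C : ℝ} (hC : ∀ r, |c r| ≤ C * ρ ^ r) (s : ℝ)
    (r : ℕ) : ‖c r * s ^ r / (r.factorial : ℝ)‖ ≤ C * ((ρ * |s|) ^ r / (r.factorial : ℝ)) := by
  have hf : (0 : ℝ) < (r.factorial : ℝ) := by exact_mod_cast r.factorial_pos
  rw [Real.norm_eq_abs, abs_div, abs_mul, abs_pow, abs_of_pos hf, mul_pow]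
  rw [← mul_div_assoc]
  apply div_le_div_of_nonneg_right _ hf.le
  calc |c r| * |s| ^ r ≤ (C * ρ ^ r) * |s| ^ r := by
        gcongr
        exact hC r
    _ = C * (ρ ^ r * |s| ^ r) := by ring

theorem NVPhi_summable {ρ : ℝ} {c : ℕ → ℝ} (hc : NVPhi_Bd ρ c) (s : ℝ) :
    Summable (fun r : ℕ => c r * s ^ r / (r.factorial : ℝ)) := by
  obtain ⟨C, hC0, hC⟩ := hc
  exact Summable.of_norm_bounded ((Real.summable_pow_div_factorial _).mul_left C)
    (NVPhi_term_bound hC s)

theorem NVPhi_hasDerivAt {ρ : ℝ} (hρ : 0 ≤ ρ) {c : ℕ → ℝ} (hc : NVPhi_Bd ρ c) (s : ℝ) :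
    HasDerivAt (NVPhi_F c) (NVPhi_F (fun r => c (r + 1)) s) s := by
  have hc' := hc
  obtain ⟨C, hC0, hC⟩ := hc
  set R : ℝ := |s| + 1 with hR
  have hR0 : 0 < R := by positivity
  set u : ℕ → ℝ := fun r => C * ρ ^ r * ((r : ℝ) * R ^ (r - 1)) / (r.factorial : ℝ) with hu
  have hfac : ∀ r : ℕ, ((r + 1).factorial : ℝ) = ((r : ℝ) + 1) * (r.factorial : ℝ) := by
    intro r
    rw [Nat.factorial_succ]
    push_cast
    ring
  have hsu : Summable u := by
    rw [← summable_nat_add_iff 1]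
    have he : (fun r => u (r + 1)) = fun r : ℕ => C * ρ * ((ρ * R) ^ r / (r.factorial : ℝ)) := by
      funext r
      have hf : (r.factorial : ℝ) ≠ 0 := by exact_mod_cast r.factorial_ne_zero
      have hr : ((r : ℝ) + 1) ≠ 0 := by positivity
      simp only [hu]
      rw [hfac, Nat.add_sub_cancel]
      push_cast
      field_simp
      ring_nf
    rw [he]
    exact (Real.summable_pow_div_factorial _).mul_left _
  have hg : ∀ (n : ℕ) (y : ℝ), y ∈ Metric.ball (0 : ℝ) R →
      HasDerivAt (fun y : ℝ => c n * y ^ n / (n.factorial : ℝ))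
        (c n * ((n : ℝ) * y ^ (n - 1)) / (n.factorial : ℝ)) y := by
    intro n y _
    exact ((hasDerivAt_pow n y).const_mul (c n)).div_const _
  have hg' : ∀ (n : ℕ) (y : ℝ), y ∈ Metric.ball (0 : ℝ) R →
      ‖c n * ((n : ℝ) * y ^ (n - 1)) / (n.factorial : ℝ)‖ ≤ u n := by
    intro n y hy
    have hf : (0 : ℝ) < (n.factorial : ℝ) := by exact_mod_cast n.factorial_pos
    have hy' : |y| ≤ R := by
      have := mem_ball_zero_iff.mp hy
      rw [Real.norm_eq_abs] at this
      exact this.le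
    rw [Real.norm_eq_abs, abs_div, abs_mul, abs_mul, abs_pow, abs_of_pos hf,
      abs_of_nonneg (Nat.cast_nonneg n : (0 : ℝ) ≤ (n : ℝ))]
    simp only [hu]
    gcongr
    exact hC n
  have hs : s ∈ Metric.ball (0 : ℝ) R := by
    rw [mem_ball_zero_iff, Real.norm_eq_abs]
    linarith only []
  have key := hasDerivAt_tsum_of_isPreconnected (g := fun n y => c n * y ^ n / (n.factorial : ℝ))
    (g' := fun n y => c n * ((n : ℝ) * y ^ (n - 1)) / (n.factorial : ℝ))
    hsu Metric.isOpen_ball (convex_ball (0 : ℝ) R).isPreconnected hg hg' hs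
    (NVPhi_summable hc' s) hs
  have hval : (∑' n : ℕ, c n * ((n : ℝ) * s ^ (n - 1)) / (n.factorial : ℝ)) =
      NVPhi_F (fun r => c (r + 1)) s := by
    have hsm : Summable (fun n : ℕ => c n * ((n : ℝ) * s ^ (n - 1)) / (n.factorial : ℝ)) :=
      Summable.of_norm_bounded hsu (fun n => hg' n s hs)
    rw [hsm.tsum_eq_zero_add]
    unfold NVPhi_F
    simp only [Nat.cast_zero, zero_mul, mul_zero, zero_div, zero_add]
    refine tsum_congr fun r => ?_
    have hf : (r.factorial : ℝ) ≠ 0 := by exact_mod_cast r.factorial_ne_zero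
    have hr : ((r : ℝ) + 1) ≠ 0 := by positivity
    rw [hfac, Nat.add_sub_cancel]
    push_cast
    field_simp
  rw [hval] at key
  exact key

theorem NVPhi_deriv {ρ : ℝ} (hρ : 0 ≤ ρ) {c : ℕ → ℝ} (hc : NVPhi_Bd ρ c) :
    deriv (NVPhi_F c) = NVPhi_F (fun r => c (r + 1)) :=
  funext fun s => (NVPhi_hasDerivAt hρ hc s).deriv

theorem NVPhi_iteratedDeriv {ρ : ℝ} (hρ : 0 ≤ ρ) (i : ℕ) : ∀ {c : ℕ → ℝ}, NVPhi_Bd ρ c →
    iteratedDeriv i (NVPhi_F c) = NVPhi_F (fun r => c (r + i)) := by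
  induction i with
  | zero => intro c _; rw [iteratedDeriv_zero]; simp
  | succ i ih =>
    intro c hc
    rw [iteratedDeriv_succ', NVPhi_deriv hρ hc, ih (NVPhi_Bd_shift hρ hc)]
    congr 1

theorem NVPhi_contDiff {ρ : ℝ} (hρ : 0 ≤ ρ) {c : ℕ → ℝ} (hc : NVPhi_Bd ρ c) :
    ContDiff ℝ ((⊤ : ℕ∞) : WithTop ℕ∞) (NVPhi_F c) := by
  apply contDiff_of_differentiable_iteratedDeriv
  intro m _
  have hsh : ∀ m : ℕ, NVPhi_Bd ρ (fun r => c (r + m)) := by
    intro m
    induction m with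
    | zero => simpa using hc
    | succ m ih => exact NVPhi_Bd_shift hρ ih |>.imp fun C h => ⟨h.1, fun r => by
        have := h.2 r
        simp only [show r + (m + 1) = r + 1 + m by ring]
        exact this⟩
  rw [NVPhi_iteratedDeriv hρ m hc]
  intro s
  exact (NVPhi_hasDerivAt hρ (hsh m) s).differentiableAt

theorem NVPhi_zero (c : ℕ → ℝ) : NVPhi_F c 0 = c 0 := by
  unfold NVPhi_F
  rw [tsum_eq_single 0]
  · simp
  · intro r hr
    rw [zero_pow hr]; simp

theorem NVPhi_iteratedDeriv_zero {ρ : ℝ} (hρ : 0 ≤ ρ) (i : ℕ) {c : ℕ → ℝ} (hc : NVPhi_Bd ρ c) :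
    iteratedDeriv i (NVPhi_F c) 0 = c i := by
  rw [NVPhi_iteratedDeriv hρ i hc, NVPhi_zero, zero_add]

theorem NVPhi_odd (c : ℕ → ℝ) (hc : ∀ r, Even r → c r = 0) (s : ℝ) :
    NVPhi_F c (-s) = -NVPhi_F c s := by
  unfold NVPhi_F
  rw [← tsum_neg]
  refine tsum_congr fun r => ?_
  rcases Nat.even_or_odd r with hr | hr
  · rw [hc r hr]; ring
  · rw [hr.neg_pow]; ring

theorem NVPhi_growth {ρ : ℝ} (hρ : 0 ≤ ρ) {c : ℕ → ℝ} {C : ℝ} (hC0 : 0 ≤ C)
    (hC : ∀ r, |c r| ≤ C * ρ ^ r) (μ : ℕ) (hμ : ∀ r < μ, c r = 0) (s : ℝ) (hs : 0 ≤ s) :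
    |NVPhi_F c s| ≤ C * ρ ^ μ * s ^ μ * Real.exp (ρ * s) := by
  have hsum := NVPhi_summable ⟨C, hC0, hC⟩ s
  have h1 : NVPhi_F c s = ∑' r : ℕ, c (r + μ) * s ^ (r + μ) / ((r + μ).factorial : ℝ) := by
    unfold NVPhi_F
    rw [← hsum.sum_add_tsum_nat_add μ, Finset.sum_eq_zero, zero_add]
    intro r hr
    rw [hμ r (Finset.mem_range.mp hr)]; simp
  have h2 : HasSum (fun r : ℕ => C * ρ ^ μ * s ^ μ * ((ρ * s) ^ r / (r.factorial : ℝ)))
      (C * ρ ^ μ * s ^ μ * Real.exp (ρ * s)) := by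
    have := NormedSpace.expSeries_div_hasSum_exp (ρ * s)
    rw [← Real.exp_eq_exp_ℝ] at this
    exact this.mul_left _
  rw [h1, ← Real.norm_eq_abs]
  refine tsum_of_norm_bounded h2 fun r => ?_
  have hf : (0 : ℝ) < (r.factorial : ℝ) := by exact_mod_cast r.factorial_pos
  have hf' : (0 : ℝ) < ((r + μ).factorial : ℝ) := by exact_mod_cast (r + μ).factorial_pos
  have hle : (r.factorial : ℝ) ≤ ((r + μ).factorial : ℝ) := by
    exact_mod_cast Nat.factorial_le (Nat.le_add_right r μ)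
  rw [Real.norm_eq_abs, abs_div, abs_mul, abs_pow, abs_of_pos hf', abs_of_nonneg hs]
  calc |c (r + μ)| * s ^ (r + μ) / ((r + μ).factorial : ℝ)
      ≤ (C * ρ ^ (r + μ)) * s ^ (r + μ) / (r.factorial : ℝ) := by
        gcongr
        exact hC _
    _ = C * ρ ^ μ * s ^ μ * ((ρ * s) ^ r / (r.factorial : ℝ)) := by
        rw [mul_pow, pow_add, pow_add]; ring

/-! ### Laplace transform -/

theorem NVPhi_gamma (i : ℕ) {t : ℝ} (ht : 0 < t) :
    ∫ s in Set.Ioi (0 : ℝ), s ^ i * Real.exp (-(t * s)) = (i.factorial : ℝ) / t ^ (i + 1) := by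
  have h := Real.integral_rpow_mul_exp_neg_mul_Ioi (a := (i : ℝ) + 1) (r := t) (by positivity) ht
  rw [Real.Gamma_nat_eq_factorial] at h
  have h1 : ∀ s : ℝ, s ^ ((i : ℝ) + 1 - 1) = s ^ i := by
    intro s
    rw [add_sub_cancel_right, Real.rpow_natCast]
  simp only [h1] at h
  rw [h]
  have h2 : ((1 : ℝ) / t) ^ ((i : ℝ) + 1) = 1 / t ^ (i + 1) := by
    rw [show ((i : ℝ) + 1) = ((i + 1 : ℕ) : ℝ) by push_cast; ring, Real.rpow_natCast, div_pow,
      one_pow]
  rw [h2]; ring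

theorem NVPhi_gamma_int (i : ℕ) {t : ℝ} (ht : 0 < t) :
    Integrable (fun s : ℝ => s ^ i * Real.exp (-(t * s))) (volume.restrict (Set.Ioi (0 : ℝ))) := by
  by_contra hcon
  have h1 := NVPhi_gamma i ht
  rw [integral_undef hcon] at h1
  have hf : (0 : ℝ) < (i.factorial : ℝ) := by exact_mod_cast i.factorial_pos
  have : (0 : ℝ) < (i.factorial : ℝ) / t ^ (i + 1) := by positivity
  linarith only [h1, this]

theorem NVPhi_laplace {ρ : ℝ} (hρ : 0 ≤ ρ) {c : ℕ → ℝ} (hc : NVPhi_Bd ρ c) {t : ℝ}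
    (ht : ρ < t) :
    ∫ s in Set.Ioi (0 : ℝ), NVPhi_F c s * Real.exp (-(t * s)) =
      ∑' r : ℕ, c r * (1 / t) ^ (r + 1) := by
  have ht0 : 0 < t := lt_of_le_of_lt hρ ht
  obtain ⟨C, hC0, hC⟩ := hc
  set G : ℕ → ℝ → ℝ := fun r s => c r / (r.factorial : ℝ) * (s ^ r * Real.exp (-(t * s))) with hG
  have hint : ∀ r, Integrable (G r) (volume.restrict (Set.Ioi (0 : ℝ))) := fun r =>
    (NVPhi_gamma_int r ht0).const_mul _
  have hnorm : ∀ r, ∫ s in Set.Ioi (0 : ℝ), ‖G r s‖ = |c r| * (1 / t) ^ (r + 1) := by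
    intro r
    have hf : (0 : ℝ) < (r.factorial : ℝ) := by exact_mod_cast r.factorial_pos
    have h1 : ∫ s in Set.Ioi (0 : ℝ), ‖G r s‖ =
        ∫ s in Set.Ioi (0 : ℝ), |c r| / (r.factorial : ℝ) * (s ^ r * Real.exp (-(t * s))) := by
      refine setIntegral_congr_fun measurableSet_Ioi fun s hs => ?_
      have hs' : (0 : ℝ) < s := hs
      simp only [hG]
      rw [Real.norm_eq_abs, abs_mul, abs_div, abs_of_pos hf,
        abs_of_pos (show 0 < s ^ r * Real.exp (-(t * s)) by positivity)]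
    rw [h1, integral_const_mul, NVPhi_gamma r ht0, div_pow, one_pow]
    field_simp
  have hval : ∀ r, ∫ s in Set.Ioi (0 : ℝ), G r s = c r * (1 / t) ^ (r + 1) := by
    intro r
    have hf : (0 : ℝ) < (r.factorial : ℝ) := by exact_mod_cast r.factorial_pos
    simp only [hG]
    rw [integral_const_mul, NVPhi_gamma r ht0, div_pow, one_pow]
    field_simp
  have hsum : Summable fun r => ∫ s in Set.Ioi (0 : ℝ), ‖G r s‖ := by
    simp only [hnorm]
    have hgeo : Summable fun r : ℕ => C * (1 / t) * (ρ / t) ^ r :=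
      (summable_geometric_of_lt_one (by positivity) ((div_lt_one ht0).mpr ht)).mul_left _
    refine Summable.of_nonneg_of_le (fun r => by positivity) (fun r => ?_) hgeo
    calc |c r| * (1 / t) ^ (r + 1) ≤ (C * ρ ^ r) * (1 / t) ^ (r + 1) := by
          gcongr
          exact hC r
      _ = C * (1 / t) * (ρ / t) ^ r := by
          rw [pow_succ, div_pow, div_pow, one_pow]; ring
  have key := hasSum_integral_of_summable_integral_norm hint hsum
  simp only [hval] at key
  rw [key.tsum_eq]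
  refine integral_congr_ae (Filter.Eventually.of_forall fun s => ?_)
  simp only [hG, NVPhi_F]
  rw [← tsum_mul_right]
  refine tsum_congr fun r => ?_
  ring

/-! ### evaluation of power series -/

/-- absolute convergence at `x`. -/
def NVPhi_Sm (x : ℝ) (f : PowerSeries ℝ) : Prop :=
  Summable fun r : ℕ => ‖PowerSeries.coeff r f * x ^ r‖

/-- evaluation at `x`. -/
noncomputable def NVPhi_ev (x : ℝ) (f : PowerSeries ℝ) : ℝ :=
  ∑' r : ℕ, PowerSeries.coeff r f * x ^ r

theorem NVPhi_mul_aux (x : ℝ) (f g : PowerSeries ℝ) :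
    (fun r : ℕ => PowerSeries.coeff r (f * g) * x ^ r) =
      fun r : ℕ => ∑ kl ∈ antidiagonal r,
        (PowerSeries.coeff kl.1 f * x ^ kl.1) * (PowerSeries.coeff kl.2 g * x ^ kl.2) := by
  funext r
  rw [PowerSeries.coeff_mul, Finset.sum_mul]
  refine Finset.sum_congr rfl fun kl hkl => ?_
  rw [← Finset.HasAntidiagonal.mem_antidiagonal.mp hkl, pow_add]
  ring

theorem NVPhi_Sm_mul {x : ℝ} {f g : PowerSeries ℝ} (hf : NVPhi_Sm x f) (hg : NVPhi_Sm x g) :
    NVPhi_Sm x (f * g) := by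
  unfold NVPhi_Sm
  have h := summable_norm_sum_mul_antidiagonal_of_summable_norm hf hg
  have h2 := NVPhi_mul_aux x f g
  have h3 : (fun r : ℕ => ‖PowerSeries.coeff r (f * g) * x ^ r‖) =
      fun r : ℕ => ‖∑ kl ∈ antidiagonal r,
        (PowerSeries.coeff kl.1 f * x ^ kl.1) * (PowerSeries.coeff kl.2 g * x ^ kl.2)‖ := by
    funext r
    exact congrArg _ (congrFun h2 r)
  rw [h3]
  exact h

theorem NVPhi_ev_mul {x : ℝ} {f g : PowerSeries ℝ} (hf : NVPhi_Sm x f) (hg : NVPhi_Sm x g) :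
    NVPhi_ev x (f * g) = NVPhi_ev x f * NVPhi_ev x g := by
  unfold NVPhi_ev
  rw [tsum_mul_tsum_eq_tsum_sum_antidiagonal_of_summable_norm hf hg, NVPhi_mul_aux]

theorem NVPhi_poly (x : ℝ) (p : ℝ[X]) :
    NVPhi_Sm x (p : PowerSeries ℝ) ∧ NVPhi_ev x (p : PowerSeries ℝ) = p.eval x := by
  have h0 : ∀ r ∉ range (p.natDegree + 1), PowerSeries.coeff r (p : PowerSeries ℝ) * x ^ r = 0 := by
    intro r hr
    rw [Finset.mem_range, not_lt] at hr
    rw [Polynomial.coeff_coe, Polynomial.coeff_eq_zero_of_natDegree_lt (by omega), zero_mul]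
  constructor
  · exact summable_of_ne_finset_zero (s := range (p.natDegree + 1)) (fun r hr => by
      rw [h0 r hr, norm_zero])
  · unfold NVPhi_ev
    rw [tsum_eq_sum h0, Polynomial.eval_eq_sum_range]
    refine Finset.sum_congr rfl fun r _ => ?_
    rw [Polynomial.coeff_coe]

/-- the geometric series `∑ (a X)^r`. -/
noncomputable def NVPhi_geo (a : ℝ) : PowerSeries ℝ := PowerSeries.mk fun r => a ^ r

theorem NVPhi_geo_mul (a : ℝ) :
    (1 - PowerSeries.C a * PowerSeries.X) * NVPhi_geo a = 1 := by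
  ext r
  rw [sub_mul, one_mul, map_sub, mul_assoc, PowerSeries.coeff_C_mul, NVPhi_geo,
    PowerSeries.coeff_mk, PowerSeries.coeff_one]
  cases r with
  | zero => simp
  | succ r =>
    rw [PowerSeries.coeff_succ_X_mul, PowerSeries.coeff_mk]
    simp [pow_succ']

theorem NVPhi_geo_ev {x a : ℝ} (h : |a * x| < 1) :
    NVPhi_Sm x (NVPhi_geo a) ∧ NVPhi_ev x (NVPhi_geo a) = (1 - a * x)⁻¹ := by
  have h1 : (fun r : ℕ => PowerSeries.coeff r (NVPhi_geo a) * x ^ r) =
      fun r : ℕ => (a * x) ^ r := by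
    funext r
    rw [NVPhi_geo, PowerSeries.coeff_mk, mul_pow]
  constructor
  · unfold NVPhi_Sm
    have h2 : (fun r : ℕ => ‖PowerSeries.coeff r (NVPhi_geo a) * x ^ r‖) =
        fun r : ℕ => |a * x| ^ r := by
      funext r
      have := congrFun h1 r
      rw [this, norm_pow, Real.norm_eq_abs]
    rw [h2]
    exact summable_geometric_of_lt_one (abs_nonneg _) h
  · unfold NVPhi_ev
    rw [h1]
    exact tsum_geometric_of_abs_lt_one h

theorem NVPhi_one (x : ℝ) : NVPhi_Sm x 1 ∧ NVPhi_ev x 1 = 1 := by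
  have := NVPhi_poly x 1
  rw [Polynomial.coe_one, Polynomial.eval_one] at this
  exact this

theorem NVPhi_pow_ev {x : ℝ} {f : PowerSeries ℝ} (hf : NVPhi_Sm x f) (n : ℕ) :
    NVPhi_Sm x (f ^ n) ∧ NVPhi_ev x (f ^ n) = NVPhi_ev x f ^ n := by
  induction n with
  | zero => simpa using NVPhi_one x
  | succ n ih =>
    rw [pow_succ, pow_succ]
    exact ⟨NVPhi_Sm_mul ih.1 hf, by rw [NVPhi_ev_mul ih.1 hf, ih.2]⟩

theorem NVPhi_prod_ev {ι : Type*} {x : ℝ} (s : Finset ι) (f : ι → PowerSeries ℝ)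
    (hf : ∀ i ∈ s, NVPhi_Sm x (f i)) :
    NVPhi_Sm x (∏ i ∈ s, f i) ∧ NVPhi_ev x (∏ i ∈ s, f i) = ∏ i ∈ s, NVPhi_ev x (f i) := by
  classical
  induction s using Finset.induction_on with
  | empty => simpa using NVPhi_one x
  | insert a s ha ih =>
    have h1 := ih (fun i hi => hf i (Finset.mem_insert_of_mem hi))
    have h2 := hf a (Finset.mem_insert_self _ _)
    rw [Finset.prod_insert ha, Finset.prod_insert ha]
    exact ⟨NVPhi_Sm_mul h2 h1.1, by rw [NVPhi_ev_mul h2 h1.1, h1.2]⟩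

theorem NVPhi_Bd_of_Sm {ρ : ℝ} (hρ : 0 < ρ) {f : PowerSeries ℝ} (hf : NVPhi_Sm (1 / ρ) f) :
    NVPhi_Bd ρ (fun r => PowerSeries.coeff r f) := by
  refine ⟨∑' r : ℕ, ‖PowerSeries.coeff r f * (1 / ρ) ^ r‖, tsum_nonneg fun _ => norm_nonneg _,
    fun r => ?_⟩
  have h1 : ‖PowerSeries.coeff r f * (1 / ρ) ^ r‖ ≤
      ∑' r : ℕ, ‖PowerSeries.coeff r f * (1 / ρ) ^ r‖ :=
    Summable.le_tsum hf r (fun _ _ => norm_nonneg _)
  rw [norm_mul, norm_pow, Real.norm_eq_abs, Real.norm_eq_abs, abs_of_pos (by positivity : 0 < 1 / ρ),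
    div_pow, one_pow, mul_one_div, div_le_iff₀ (by positivity)] at h1
  exact h1

/-! ### annihilation -/

theorem NVPhi_ann {ρ : ℝ} (hρ : 0 ≤ ρ) (l : List ℝ) : ∀ (c : ℕ → ℝ), NVPhi_Bd ρ c →
    ∀ (H : PowerSeries ℝ) (n : ℕ), (∀ r, c r = PowerSeries.coeff (r + n) H) →
    (∀ r, PowerSeries.coeff (r + n + l.length)
      ((l.map fun a => 1 - PowerSeries.C a * PowerSeries.X).prod * H) = 0) →
    Ann l (NVPhi_F c) := by
  induction l with
  | nil =>
    intro c _ H n hcH h0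
    have : c = fun _ => 0 := by
      funext r
      have := h0 r
      simp only [List.length_nil, add_zero, List.map_nil, List.prod_nil, one_mul] at this
      rw [hcH, this]
    show NVPhi_F c = 0
    funext s
    rw [this]
    simp [NVPhi_F]
  | cons a l ih =>
    intro c hc H n hcH h0
    show Ann l (fun x => deriv (NVPhi_F c) x - a * NVPhi_F c x)
    have he : (fun x => deriv (NVPhi_F c) x - a * NVPhi_F c x) =
        NVPhi_F (fun r => c (r + 1) - a * c r) := by
      funext s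
      rw [NVPhi_deriv hρ hc]
      unfold NVPhi_F
      rw [← tsum_mul_left, ← Summable.tsum_sub (NVPhi_summable (NVPhi_Bd_shift hρ hc) s)
        ((NVPhi_summable hc s).mul_left a)]
      refine tsum_congr fun r => ?_
      ring
    rw [he]
    refine ih _ (NVPhi_Bd_op hρ hc a) ((1 - PowerSeries.C a * PowerSeries.X) * H) (n + 1) ?_ ?_
    · intro r
      rw [hcH, hcH, sub_mul, one_mul, map_sub, mul_assoc, PowerSeries.coeff_C_mul,
        show r + (n + 1) = (r + n) + 1 by ring, PowerSeries.coeff_succ_X_mul,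
        show r + 1 + n = r + n + 1 by ring]
    · intro r
      have := h0 r
      rw [List.length_cons, List.map_cons, List.prod_cons] at this
      rw [show r + (n + 1) + l.length = r + n + (l.length + 1) by ring,
        show (l.map fun a => 1 - PowerSeries.C a * PowerSeries.X).prod *
          ((1 - PowerSeries.C a * PowerSeries.X) * H) =
          (1 - PowerSeries.C a * PowerSeries.X) *
            (l.map fun a => 1 - PowerSeries.C a * PowerSeries.X).prod * H by ring]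
      exact this

/-! ### the series -/

/-- `X^μ P*(X²)`. -/
noncomputable def NVPhi_A (μ : ℕ) (P : ℝ[X]) : ℝ[X] := X ^ μ * expand ℝ 2 P.reverse

theorem NVPhi_A_ne (μ : ℕ) {P : ℝ[X]} (hP : P ≠ 0) : NVPhi_A μ P ≠ 0 := by
  unfold NVPhi_A
  refine mul_ne_zero (pow_ne_zero _ X_ne_zero) ?_
  rw [Ne, Polynomial.expand_eq_zero (by norm_num)]
  rwa [Polynomial.reverse_eq_zero]

theorem NVPhi_A_coeff (μ : ℕ) (P : ℝ[X]) (r : ℕ) : (NVPhi_A μ P).coeff r =
    if μ ≤ r then (if 2 ∣ r - μ then P.reverse.coeff ((r - μ) / 2) else 0) else 0 := by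
  unfold NVPhi_A
  rw [Polynomial.coeff_X_pow_mul']
  split_ifs with h1 h2
  · rw [Polynomial.coeff_expand (by norm_num), if_pos h2]
  · rw [Polynomial.coeff_expand (by norm_num), if_neg h2]
  · rfl

theorem NVPhi_A_odd {μ : ℕ} (hμ : Odd μ) (P : ℝ[X]) {r : ℕ} (hr : Even r) :
    (NVPhi_A μ P).coeff r = 0 := by
  rw [NVPhi_A_coeff]
  split_ifs with h1 h2
  · exfalso
    obtain ⟨a, ha⟩ := hμ
    obtain ⟨b, hb⟩ := hr
    obtain ⟨d, hd⟩ := h2
    omega
  · rfl
  · rfl

theorem NVPhi_A_natDegree (μ : ℕ) (P : ℝ[X]) : (NVPhi_A μ P).natDegree ≤ μ + 2 * P.natDegree := by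
  unfold NVPhi_A
  refine (Polynomial.natDegree_mul_le).trans ?_
  rw [Polynomial.natDegree_X_pow, Polynomial.natDegree_expand]
  have := Polynomial.reverse_natDegree_le P
  omega

end Vale.Agent.P030
end
end

section

section

/-! NVa: the inverse Laplace transform of `t P(t²) / (Den N t ^ 5 * Num N t)`. -/

namespace Vale.Agent.P030.Five

open Finset Polynomial MeasureTheory Vale.Agent.P030

/-- the roots: the integers `-N..N`, each five times, and `±(k+1/2)`, `k < N`. -/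
noncomputable def NVPhi_list (N : ℕ) : List ℝ :=
  ((Icc (-(N : ℤ)) N).toList.flatMap fun j : ℤ => List.replicate 5 (j : ℝ)) ++
    ((range N).toList.flatMap fun k : ℕ => [(k : ℝ) + 1 / 2, -((k : ℝ) + 1 / 2)])

theorem NVPhi_list_aux (L : List ℤ) :
    (L.flatMap fun j : ℤ => List.replicate 5 (j : ℝ)).length = 5 * L.length ∧
    ((L.flatMap fun j : ℤ => List.replicate 5 (j : ℝ)).map
      fun a => 1 - PowerSeries.C a * PowerSeries.X).prod =
      (L.map fun j : ℤ => (1 - PowerSeries.C (j : ℝ) * PowerSeries.X) ^ 5).prod := by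
  induction L with
  | nil => simp
  | cons a L ih =>
    rw [List.flatMap_cons, List.length_append, ih.1, List.map_append, List.prod_append, ih.2,
      List.map_cons, List.prod_cons, List.map_replicate, List.prod_replicate, List.length_replicate,
      List.length_cons]
    exact ⟨by ring, rfl⟩

theorem NVPhi_list_aux2 (L : List ℕ) :
    (L.flatMap fun k : ℕ => [(k : ℝ) + 1 / 2, -((k : ℝ) + 1 / 2)]).length = 2 * L.length ∧
    ((L.flatMap fun k : ℕ => [(k : ℝ) + 1 / 2, -((k : ℝ) + 1 / 2)]).map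
      fun a => 1 - PowerSeries.C a * PowerSeries.X).prod =
      (L.map fun k : ℕ => (1 - PowerSeries.C ((k : ℝ) + 1 / 2) * PowerSeries.X) *
        (1 - PowerSeries.C (-((k : ℝ) + 1 / 2)) * PowerSeries.X)).prod := by
  induction L with
  | nil => simp
  | cons a L ih =>
    rw [List.flatMap_cons, List.length_append, ih.1, List.map_append, List.prod_append, ih.2,
      List.map_cons, List.prod_cons, List.length_cons]
    refine ⟨?_, ?_⟩
    · simp only [List.length_cons, List.length_nil]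
      ring
    · simp only [List.map_cons, List.map_nil, List.prod_cons, List.prod_nil, mul_one]

theorem NVPhi_list_length (N : ℕ) : (NVPhi_list N).length = 12 * N + 5 := by
  rw [NVPhi_list, List.length_append, (NVPhi_list_aux _).1, (NVPhi_list_aux2 _).1,
    Finset.length_toList, Finset.length_toList, Int.card_Icc, Finset.card_range]
  omega

theorem NVPhi_list_prod (N : ℕ) :
    ((NVPhi_list N).map fun a => 1 - PowerSeries.C a * PowerSeries.X).prod =
      (∏ j ∈ Icc (-(N : ℤ)) N, (1 - PowerSeries.C (j : ℝ) * PowerSeries.X) ^ 5) *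
      ∏ k ∈ range N, ((1 - PowerSeries.C ((k : ℝ) + 1 / 2) * PowerSeries.X) *
        (1 - PowerSeries.C (-((k : ℝ) + 1 / 2)) * PowerSeries.X)) := by
  rw [NVPhi_list, List.map_append, List.prod_append, (NVPhi_list_aux _).2, (NVPhi_list_aux2 _).2,
    Finset.prod_map_toList, Finset.prod_map_toList]

/-- `∏ (1 - j X)^{-5} ∏ (1 - (k+1/2)X)^{-1} (1 + (k+1/2)X)^{-1}`. -/
noncomputable def NVPhi_B (N : ℕ) : PowerSeries ℝ :=
  (∏ j ∈ Icc (-(N : ℤ)) N, NVPhi_geo (j : ℝ) ^ 5) *
    ∏ k ∈ range N, (NVPhi_geo ((k : ℝ) + 1 / 2) * NVPhi_geo (-((k : ℝ) + 1 / 2)))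

theorem NVPhi_geo_ne (a : ℝ) : NVPhi_geo a ≠ 0 := fun h => by
  have := NVPhi_geo_mul a
  rw [h, mul_zero] at this
  exact zero_ne_one this

theorem NVPhi_B_ne (N : ℕ) : NVPhi_B N ≠ 0 := by
  unfold NVPhi_B
  refine mul_ne_zero (Finset.prod_ne_zero_iff.mpr fun j _ => pow_ne_zero _ (NVPhi_geo_ne _))
    (Finset.prod_ne_zero_iff.mpr fun k _ => mul_ne_zero (NVPhi_geo_ne _) (NVPhi_geo_ne _))

theorem NVPhi_list_mul_B (N : ℕ) :
    ((NVPhi_list N).map fun a => 1 - PowerSeries.C a * PowerSeries.X).prod * NVPhi_B N = 1 := by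
  rw [NVPhi_list_prod, NVPhi_B, mul_mul_mul_comm, ← Finset.prod_mul_distrib,
    ← Finset.prod_mul_distrib, Finset.prod_eq_one, Finset.prod_eq_one, one_mul]
  · intro k _
    rw [mul_mul_mul_comm, NVPhi_geo_mul, NVPhi_geo_mul, one_mul]
  · intro j _
    rw [← mul_pow, NVPhi_geo_mul, one_pow]

theorem NVPhi_rescale_geo (a : ℝ) :
    PowerSeries.rescale (-1 : ℝ) (NVPhi_geo a) = NVPhi_geo (-a) := by
  ext r
  rw [PowerSeries.coeff_rescale, NVPhi_geo, NVPhi_geo, PowerSeries.coeff_mk,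
    PowerSeries.coeff_mk, ← mul_pow, neg_one_mul]

theorem NVPhi_G_odd (N : ℕ) {μ : ℕ} (hμ : Odd μ) (P : ℝ[X]) {r : ℕ} (hr : Even r) :
    PowerSeries.coeff r ((NVPhi_A μ P : PowerSeries ℝ) * NVPhi_B N) = 0 := by
  have h1 : PowerSeries.rescale (-1 : ℝ) (NVPhi_A μ P : PowerSeries ℝ) =
      -(NVPhi_A μ P : PowerSeries ℝ) := by
    ext r
    rw [PowerSeries.coeff_rescale, map_neg, Polynomial.coeff_coe]
    rcases Nat.even_or_odd r with h | h
    · rw [NVPhi_A_odd hμ P h]; simp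
    · rw [h.neg_one_pow]; ring
  have h2 : PowerSeries.rescale (-1 : ℝ) (NVPhi_B N) = NVPhi_B N := by
    unfold NVPhi_B
    rw [map_mul, map_prod, map_prod]
    congr 1
    · refine Finset.prod_equiv (Equiv.neg ℤ) (fun j => ?_) (fun j _ => ?_)
      · rw [Finset.mem_Icc, Finset.mem_Icc, Equiv.neg_apply]
        constructor <;> rintro ⟨h1, h2⟩ <;> constructor <;> omega
      · rw [map_pow, NVPhi_rescale_geo, Equiv.neg_apply]
        push_cast
        rfl
    · refine Finset.prod_congr rfl fun k _ => ?_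
      rw [map_mul, NVPhi_rescale_geo, NVPhi_rescale_geo, neg_neg, mul_comm]
  have h3 : PowerSeries.rescale (-1 : ℝ) ((NVPhi_A μ P : PowerSeries ℝ) * NVPhi_B N) =
      -((NVPhi_A μ P : PowerSeries ℝ) * NVPhi_B N) := by
    rw [map_mul, h1, h2, neg_mul]
  have h4 := congrArg (PowerSeries.coeff r) h3
  rw [PowerSeries.coeff_rescale, hr.neg_one_pow, one_mul, map_neg] at h4
  linarith only [h4]

theorem NVPhi_G_ev (N μ : ℕ) (P : ℝ[X]) {x : ℝ} (hx : (N : ℝ) * |x| < 1) :
    NVPhi_Sm x ((NVPhi_A μ P : PowerSeries ℝ) * NVPhi_B N) ∧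
    NVPhi_ev x ((NVPhi_A μ P : PowerSeries ℝ) * NVPhi_B N) =
      (x ^ μ * P.reverse.eval (x ^ 2)) * ((∏ j ∈ Icc (-(N : ℤ)) N, ((1 - (j : ℝ) * x)⁻¹) ^ 5) *
        ∏ k ∈ range N, ((1 - ((k : ℝ) + 1 / 2) * x)⁻¹ * (1 - -((k : ℝ) + 1 / 2) * x)⁻¹)) := by
  have h1 := NVPhi_poly x (NVPhi_A μ P)
  have hle : ∀ a : ℝ, |a| ≤ N → |a * x| < 1 := by
    intro a ha
    rw [abs_mul]
    exact lt_of_le_of_lt (mul_le_mul_of_nonneg_right ha (abs_nonneg _)) hx
  have hj : ∀ j ∈ Icc (-(N : ℤ)) N, |(j : ℝ) * x| < 1 := by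
    intro j hj
    rw [Finset.mem_Icc] at hj
    refine hle _ ?_
    rw [abs_le]
    constructor
    · have : ((-(N : ℤ) : ℤ) : ℝ) ≤ (j : ℝ) := by exact_mod_cast hj.1
      push_cast at this
      exact this
    · exact_mod_cast hj.2
  have hk : ∀ k ∈ range N, |((k : ℝ) + 1 / 2) * x| < 1 ∧ |-((k : ℝ) + 1 / 2) * x| < 1 := by
    intro k hk
    rw [Finset.mem_range] at hk
    have hkN : (k : ℝ) + 1 ≤ N := by exact_mod_cast hk
    have h0 : |(k : ℝ) + 1 / 2| ≤ N := by
      rw [abs_of_pos (by positivity)]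
      linarith only [hkN]
    refine ⟨hle _ h0, hle _ ?_⟩
    rwa [abs_neg]
  have h2 := NVPhi_prod_ev (x := x) (Icc (-(N : ℤ)) N) (fun j => NVPhi_geo (j : ℝ) ^ 5)
    (fun j h => (NVPhi_pow_ev (NVPhi_geo_ev (hj j h)).1 5).1)
  have h3 := NVPhi_prod_ev (x := x) (range N)
    (fun k => NVPhi_geo ((k : ℝ) + 1 / 2) * NVPhi_geo (-((k : ℝ) + 1 / 2)))
    (fun k h => NVPhi_Sm_mul (NVPhi_geo_ev (hk k h).1).1 (NVPhi_geo_ev (hk k h).2).1)
  have h4 := NVPhi_Sm_mul h2.1 h3.1
  unfold NVPhi_B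
  refine ⟨NVPhi_Sm_mul h1.1 h4, ?_⟩
  rw [NVPhi_ev_mul h1.1 h4, NVPhi_ev_mul h2.1 h3.1, h1.2, h2.2, h3.2]
  congr 1
  · unfold NVPhi_A
    rw [Polynomial.eval_mul, Polynomial.eval_pow, Polynomial.eval_X, Polynomial.expand_eval]
  · congr 1
    · refine Finset.prod_congr rfl fun j h => ?_
      rw [(NVPhi_pow_ev (NVPhi_geo_ev (hj j h)).1 5).2, (NVPhi_geo_ev (hj j h)).2]
    · refine Finset.prod_congr rfl fun k h => ?_
      rw [NVPhi_ev_mul (NVPhi_geo_ev (hk k h).1).1 (NVPhi_geo_ev (hk k h).2).1,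
        (NVPhi_geo_ev (hk k h).1).2, (NVPhi_geo_ev (hk k h).2).2]

/-- NVa: the inverse Laplace transform of `t P(t²) / (Den N t ^ 5 * Num N t)`. -/
theorem exists_Phi5 (N k : ℕ) (hN : 1 ≤ N) (P : ℝ[X]) (hP : P ≠ 0) (hk : P.natDegree = k)
    (hkN : 2 * k < 5 * N) :
    ∃ Φ : ℝ → ℝ, ContDiff ℝ ((⊤ : ℕ∞) : WithTop ℕ∞) Φ ∧ Φ ≠ 0 ∧ (∀ x, Φ (-x) = -Φ x) ∧
      (∃ l : List ℝ, l.length = 12 * N + 5 ∧ Ann l Φ) ∧
      (∀ i < 12 * N + 3 - 2 * k, iteratedDeriv i Φ 0 = 0) ∧
      (∃ C : ℝ, ∀ s : ℝ, 0 ≤ s →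
        |Φ s| ≤ C * s ^ (12 * N + 3 - 2 * k) * Real.exp (((N : ℝ) + 1 / 4) * s)) ∧
      (∀ t : ℝ, (N : ℝ) + 1 / 4 < t →
        ∫ s in Set.Ioi (0 : ℝ), Φ s * Real.exp (-(t * s)) =
          t * P.eval (t ^ 2) / (Den N t ^ 5 * Num N t)) := by
  have _hN := hN
  obtain ⟨μ, hμ⟩ : ∃ μ, μ = 12 * N + 3 - 2 * k := ⟨_, rfl⟩
  have hμ' : μ + 2 * k = 12 * N + 3 := by omega
  have hμodd : Odd μ := ⟨6 * N + 1 - k, by (clear * - hμ hμ'; omega)⟩
  rw [← hμ]
  set ρ : ℝ := (N : ℝ) + 1 / 4 with hρdef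
  have hρ : 0 < ρ := by positivity
  have hNρ : (N : ℝ) < ρ := by rw [hρdef]; linarith only []
  set G : PowerSeries ℝ := (NVPhi_A μ P : PowerSeries ℝ) * NVPhi_B N with hG
  have hGne : G ≠ 0 := by
    refine mul_ne_zero ?_ (NVPhi_B_ne N)
    rw [Ne, Polynomial.coe_eq_zero_iff]
    exact NVPhi_A_ne μ hP
  have hev : ∀ t : ℝ, (N : ℝ) < t → (N : ℝ) * |1 / t| < 1 := by
    intro t ht
    have ht0 : 0 < t := lt_of_le_of_lt (Nat.cast_nonneg N) ht
    rw [abs_of_pos (by positivity), mul_one_div, div_lt_one ht0]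
    exact ht
  have hBd : NVPhi_Bd ρ (fun r => PowerSeries.coeff r G) :=
    NVPhi_Bd_of_Sm hρ (NVPhi_G_ev N μ P (hev ρ hNρ)).1
  set c : ℕ → ℝ := fun r => PowerSeries.coeff r G with hc
  have hcμ : ∀ r < μ, c r = 0 := by
    intro r hr
    simp only [hc, hG]
    rw [NVPhi_A, Polynomial.coe_mul, Polynomial.coe_pow, Polynomial.coe_X, mul_assoc,
      PowerSeries.coeff_X_pow_mul', if_neg (by omega)]
  refine ⟨NVPhi_F c, NVPhi_contDiff hρ.le hBd, ?_, ?_, ⟨NVPhi_list N, NVPhi_list_length N, ?_⟩,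
    ?_, ?_, ?_⟩
  · intro h0
    apply hGne
    ext r
    have h1 := NVPhi_iteratedDeriv_zero hρ.le r hBd
    rw [h0] at h1
    have h2 : iteratedDeriv r (0 : ℝ → ℝ) 0 = 0 := by
      have : (0 : ℝ → ℝ) = fun _ => (0 : ℝ) := rfl
      rw [this]
      simp
    rw [h2] at h1
    rw [map_zero]
    exact h1.symm
  · exact NVPhi_odd c (fun r hr => NVPhi_G_odd N hμodd P hr)
  · refine NVPhi_ann hρ.le _ c hBd G 0 (fun r => rfl) (fun r => ?_)
    rw [NVPhi_list_length, hG, mul_left_comm, NVPhi_list_mul_B, mul_one, Polynomial.coeff_coe]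
    refine Polynomial.coeff_eq_zero_of_natDegree_lt (lt_of_le_of_lt (NVPhi_A_natDegree μ P) ?_)
    omega
  · intro i hi
    rw [NVPhi_iteratedDeriv_zero hρ.le i hBd]
    exact hcμ i hi
  · obtain ⟨C, hC0, hC⟩ := hBd
    exact ⟨C * ρ ^ μ, fun s hs => NVPhi_growth hρ.le hC0 hC μ hcμ s hs⟩
  · intro t ht
    have ht0 : 0 < t := lt_trans hρ ht
    have htN : (N : ℝ) < t := lt_trans hNρ ht
    rw [NVPhi_laplace hρ.le hBd ht]
    have h1 : (∑' r : ℕ, c r * (1 / t) ^ (r + 1)) = NVPhi_ev (1 / t) G * (1 / t) := by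
      unfold NVPhi_ev
      rw [← tsum_mul_right]
      refine tsum_congr fun r => ?_
      simp only [hc]
      ring
    rw [h1, hG, (NVPhi_G_ev N μ P (hev t htN)).2]
    have : Invertible (t ^ 2) := invertibleOfNonzero (by positivity)
    have h2 := Polynomial.eval₂_reverse_mul_pow (RingHom.id ℝ) (t ^ 2) P
    rw [Polynomial.eval₂_id, Polynomial.eval₂_id, invOf_eq_inv, hk] at h2
    have h3 : (1 / t) ^ 2 = (t ^ 2)⁻¹ := by rw [div_pow, one_pow, one_div]
    have h4 : Den N t = t ^ (2 * N + 1) * ∏ j ∈ Icc (-(N : ℤ)) N, (1 - (j : ℝ) * (1 / t)) := by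
      unfold Den
      have hcard : (Icc (-(N : ℤ)) N).card = 2 * N + 1 := by
        rw [Int.card_Icc]; omega
      rw [← hcard, ← Finset.prod_const, ← Finset.prod_mul_distrib]
      refine Finset.prod_congr rfl fun j _ => ?_
      field_simp
    have h4' : Num N t = t ^ (2 * N) * ∏ k ∈ range N, ((1 - ((k : ℝ) + 1 / 2) * (1 / t)) *
        (1 - -((k : ℝ) + 1 / 2) * (1 / t))) := by
      unfold Num
      rw [pow_mul]
      nth_rewrite 2 [← Finset.card_range N]
      rw [← Finset.prod_const, ← Finset.prod_mul_distrib]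
      refine Finset.prod_congr rfl fun j _ => ?_
      field_simp
      ring
    have h5 : ∏ j ∈ Icc (-(N : ℤ)) N, ((1 - (j : ℝ) * (1 / t))⁻¹) ^ 5 =
        ((∏ j ∈ Icc (-(N : ℤ)) N, (1 - (j : ℝ) * (1 / t))) ^ 5)⁻¹ := by
      rw [Finset.prod_pow, Finset.prod_inv_distrib, inv_pow]
    have h5' : ∏ k ∈ range N, ((1 - ((k : ℝ) + 1 / 2) * (1 / t))⁻¹ *
        (1 - -((k : ℝ) + 1 / 2) * (1 / t))⁻¹) =
        (∏ k ∈ range N, ((1 - ((k : ℝ) + 1 / 2) * (1 / t)) *
          (1 - -((k : ℝ) + 1 / 2) * (1 / t))))⁻¹ := by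
      rw [← Finset.prod_inv_distrib]
      refine Finset.prod_congr rfl fun k _ => ?_
      rw [mul_inv]
    have h6 : ∏ j ∈ Icc (-(N : ℤ)) N, (1 - (j : ℝ) * (1 / t)) ≠ 0 := by
      refine Finset.prod_ne_zero_iff.mpr fun j hj h => ?_
      rw [Finset.mem_Icc] at hj
      have hjN : (j : ℝ) ≤ N := by exact_mod_cast hj.2
      have : (j : ℝ) * (1 / t) = 1 := by linarith only [h]
      rw [mul_one_div, div_eq_one_iff_eq ht0.ne'] at this
      linarith only [hρdef, ht, hjN, this]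
    have h6' : ∏ k ∈ range N, ((1 - ((k : ℝ) + 1 / 2) * (1 / t)) *
        (1 - -((k : ℝ) + 1 / 2) * (1 / t))) ≠ 0 := by
      refine Finset.prod_ne_zero_iff.mpr fun k hk => ?_
      rw [Finset.mem_range] at hk
      have hkN : (k : ℝ) + 1 ≤ N := by exact_mod_cast hk
      have ht1 : 0 < 1 / t := by positivity
      refine mul_ne_zero ?_ ?_
      · have : ((k : ℝ) + 1 / 2) * (1 / t) < 1 := by
          rw [mul_one_div, div_lt_one ht0]
          linarith only [hNρ, ht, hkN]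
        linarith only [this]
      · have : 0 ≤ ((k : ℝ) + 1 / 2) * (1 / t) := by (clear * - ht0; positivity)
        linarith only [this]
    rw [← h2, h3, h4, h4', h5, h5']
    set D := ∏ j ∈ Icc (-(N : ℤ)) N, (1 - (j : ℝ) * (1 / t)) with hD
    set D' := ∏ k ∈ range N, ((1 - ((k : ℝ) + 1 / 2) * (1 / t)) *
        (1 - -((k : ℝ) + 1 / 2) * (1 / t))) with hD'
    set E := Polynomial.eval ((t ^ 2)⁻¹) P.reverse with hE
    have h7 : (t ^ (2 * N + 1) * D) ^ 5 * (t ^ (2 * N) * D') =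
        (t ^ μ * t) * (t * (t ^ 2) ^ k) * (D ^ 5 * D') := by
      have e1 : (t ^ (2 * N + 1) * D) ^ 5 * (t ^ (2 * N) * D') =
        (t ^ ((2 * N + 1) * 5) * t ^ (2 * N)) * (D ^ 5 * D') := by
        rw [mul_pow, ← pow_mul]; ring
      have e2 : (t ^ μ * t) * (t * (t ^ 2) ^ k) = t ^ ((2 * N + 1) * 5) * t ^ (2 * N) := by
        rw [← pow_mul, ← pow_succ, ← pow_succ', ← pow_add, ← pow_add]
        congr 1
        (clear * - hμ hμ'; omega)
      rw [e1, e2]
    rw [h7, div_pow, one_pow]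
    have htμ : t ^ μ ≠ 0 := pow_ne_zero _ ht0.ne'
    have htk : (t ^ 2) ^ k ≠ 0 := pow_ne_zero _ (pow_ne_zero _ ht0.ne')
    have hD7 : D ^ 5 ≠ 0 := pow_ne_zero _ h6
    field_simp

end Vale.Agent.P030.Five
end
end

section

section

/-! NVb: interchange of sum and integral for `psi5`. -/

namespace Vale.Agent.P030.Five

open Finset Polynomial MeasureTheory Vale.Agent.P030

theorem F5NVSum_Num_ne (N i : ℕ) : Num N ((N : ℝ) + i + 1 / 2) ≠ 0 := by
  unfold Num
  refine Finset.prod_ne_zero_iff.2 fun k hk => ?_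
  have h1 : (k : ℝ) + 1 ≤ N := by exact_mod_cast Finset.mem_range.1 hk
  have h2 : (0 : ℝ) ≤ k := Nat.cast_nonneg k
  have h3 : (0 : ℝ) ≤ i := Nat.cast_nonneg i
  have h4 : ((N : ℝ) + i + 1 / 2) ^ 2 - ((k : ℝ) + 1 / 2) ^ 2 =
      ((N : ℝ) + i - k) * ((N : ℝ) + i + k + 1) := by ring
  rw [h4]
  exact mul_ne_zero (by linarith only [h1]) (by linarith only [h1])

theorem psi5_mul_Qt (N k l : ℕ) (hN : 1 ≤ N) (P : ℝ[X]) (hk : P.natDegree = k)
    (hkN : 2 * k < 5 * N) (hl : 2 * l < 5 * N) (Φ : ℝ → ℝ) (hcont : Continuous Φ)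
    (hgrow : ∃ C : ℝ, ∀ s : ℝ, 0 ≤ s →
        |Φ s| ≤ C * s ^ (12 * N + 3 - 2 * k) * Real.exp (((N : ℝ) + 1 / 4) * s))
    (hlap : ∀ t : ℝ, (N : ℝ) + 1 / 4 < t →
        ∫ s in Set.Ioi (0 : ℝ), Φ s * Real.exp (-(t * s)) =
          t * P.eval (t ^ 2) / (Den N t ^ 5 * Num N t))
    (Q : ℝ[X]) (hQ : Q = ∏ i ∈ Ico N (N + l), (X - C (((i : ℝ) + 1 / 2) ^ 2))) :
    IntegrableOn (fun s => Φ s * gg s ^ (2 * N + 2 * l + 1)) (Set.Ioi 0) ∧
    psi5 N (P * Q) = (-1) ^ (N + l) * (2 * N + 2 * l).factorial *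
      ∫ s in Set.Ioi (0 : ℝ), Φ s * gg s ^ (2 * N + 2 * l + 1) := by
  obtain ⟨C, hC⟩ := hgrow
  set μ := 12 * N + 3 - 2 * k with hμ
  have hC0 : 0 ≤ C := by
    have h1 := hC 1 zero_le_one
    have h2 : 0 ≤ |Φ 1| := abs_nonneg _
    rw [one_pow, mul_one, mul_one] at h1
    by_contra hneg
    push Not at hneg
    have : C * Real.exp ((N : ℝ) + 1 / 4) < 0 := mul_neg_of_neg_of_pos hneg (Real.exp_pos _)
    linarith only [h1, h2, this]
  -- integrability of `Φ e^{-ts}`
  have hdom : ∀ c : ℝ, 0 < c → ∀ s ∈ Set.Ioi (0 : ℝ),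
      ‖Φ s * Real.exp (-(((N : ℝ) + 1 / 4 + c) * s))‖ ≤ C * (s ^ μ * Real.exp (-(c * s))) := by
    intro c hc s hs
    have hs0 : 0 ≤ s := le_of_lt hs
    rw [norm_mul, Real.norm_eq_abs, Real.norm_eq_abs, abs_of_pos (Real.exp_pos _)]
    have h1 := hC s hs0
    have e1 : Real.exp (-(((N : ℝ) + 1 / 4 + c) * s)) =
        Real.exp (-(((N : ℝ) + 1 / 4) * s)) * Real.exp (-(c * s)) := by
      rw [← Real.exp_add]; ring_nf
    have e2 : Real.exp (((N : ℝ) + 1 / 4) * s) * Real.exp (-(((N : ℝ) + 1 / 4) * s)) = 1 := by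
      rw [← Real.exp_add]; simp
    rw [e1]
    calc |Φ s| * (Real.exp (-(((N : ℝ) + 1 / 4) * s)) * Real.exp (-(c * s)))
        ≤ (C * s ^ μ * Real.exp (((N : ℝ) + 1 / 4) * s)) *
          (Real.exp (-(((N : ℝ) + 1 / 4) * s)) * Real.exp (-(c * s))) := by
          apply mul_le_mul_of_nonneg_right h1 (by positivity)
      _ = C * s ^ μ * (Real.exp (((N : ℝ) + 1 / 4) * s) * Real.exp (-(((N : ℝ) + 1 / 4) * s))) *
          Real.exp (-(c * s)) := by ring
      _ = C * (s ^ μ * Real.exp (-(c * s))) := by rw [e2]; ring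
  have hintexp : ∀ c : ℝ, 0 < c →
      IntegrableOn (fun s => Φ s * Real.exp (-(((N : ℝ) + 1 / 4 + c) * s))) (Set.Ioi 0) := by
    intro c hc
    apply Integrable.mono' ((NVSum_int_pow μ hc).const_mul C)
    · exact (by fun_prop : Continuous fun s => Φ s * Real.exp (-(((N : ℝ) + 1 / 4 + c) * s))).aestronglyMeasurable
    · exact (ae_restrict_iff' measurableSet_Ioi).mpr (Filter.Eventually.of_forall (hdom c hc))
  have hintnorm : ∀ c : ℝ, 0 < c →
      ∫ s in Set.Ioi (0 : ℝ), ‖Φ s * Real.exp (-(((N : ℝ) + 1 / 4 + c) * s))‖ ≤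
        C * (μ.factorial / c ^ (μ + 1)) := by
    intro c hc
    rw [← NVSum_integral_pow μ hc, ← integral_const_mul]
    apply setIntegral_mono_on (hintexp c hc).norm ((NVSum_int_pow μ hc).const_mul C)
      measurableSet_Ioi (hdom c hc)
  constructor
  · -- integrability of `Φ g^{2N+2l+1}`
    have hc : (0 : ℝ) < (l : ℝ) + 1 / 4 := by positivity
    apply Integrable.mono' ((NVSum_int_pow μ hc).const_mul C)
    · exact (hcont.mul (NVSum_gg_cont.pow _)).aestronglyMeasurable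
    · refine (ae_restrict_iff' measurableSet_Ioi).mpr (Filter.Eventually.of_forall ?_)
      intro s hs
      refine le_trans ?_ (hdom _ hc s hs)
      rw [norm_mul, norm_mul]
      apply mul_le_mul_of_nonneg_left _ (norm_nonneg _)
      rw [Real.norm_eq_abs, Real.norm_eq_abs, abs_of_pos (Real.exp_pos _),
        abs_of_pos (pow_pos (NVSum_gg_pos s) _)]
      calc gg s ^ (2 * N + 2 * l + 1) ≤ Real.exp (-(s / 2)) ^ (2 * N + 2 * l + 1) :=
            pow_le_pow_left₀ (NVSum_gg_pos s).le (NVSum_gg_le s) _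
        _ = Real.exp (-(((N : ℝ) + 1 / 4 + ((l : ℝ) + 1 / 4)) * s)) := by
            rw [← Real.exp_nat_mul]
            congr 1
            push_cast
            ring
  · -- the formula
    set B := N + l with hB
    have hdegQ : Q.natDegree = l := by
      rw [hQ, natDegree_prod_of_monic _ _ (fun i _ => monic_X_sub_C _)]
      simp only [natDegree_X_sub_C, sum_const, Nat.card_Ico, smul_eq_mul, mul_one]
      omega
    have hdeg : (P * Q).natDegree ≤ 5 * N := by
      refine natDegree_mul_le.trans ?_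
      rw [hk, hdegQ]; omega
    rw [psi5_apply N (P * Q) hdeg]
    have hsum := (summable_wt5 N (P * Q) hdeg).of_abs
    -- terms
    have hterm : ∀ i : ℕ, wt5 N i * (P * Q).eval (((N : ℝ) + i + 1 / 2) ^ 2) =
        (-1) ^ (N + i) * Num B ((N : ℝ) + i + 1 / 2) *
          (((N : ℝ) + i + 1 / 2) * P.eval (((N : ℝ) + i + 1 / 2) ^ 2) /
            (Den N ((N : ℝ) + i + 1 / 2) ^ 5 * Num N ((N : ℝ) + i + 1 / 2))) := by
      intro i
      have hne := F5NVSum_Num_ne N i
      have hE := NVSum_Num_mul N l ((N : ℝ) + i + 1 / 2)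
      rw [← hB, ← hQ] at hE
      rw [eval_mul, ← hE]
      unfold wt5 f5
      generalize Num N ((N : ℝ) + i + 1 / 2) = a at hne ⊢
      generalize Den N ((N : ℝ) + i + 1 / 2) ^ 5 = d
      generalize eval (((N : ℝ) + i + 1 / 2) ^ 2) P = p
      generalize eval (((N : ℝ) + i + 1 / 2) ^ 2) Q = e
      generalize (N : ℝ) + i + 1 / 2 = t
      have h1 : t * p / (d * a) * a = t * p / d := by
        rw [← div_div, div_mul_cancel₀ _ hne]
      calc (-1) ^ (N + i) * (t / d) * (p * e) = (-1) ^ (N + i) * e * (t * p / d) := by ring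
        _ = (-1) ^ (N + i) * e * (t * p / (d * a) * a) := by rw [h1]
        _ = (-1) ^ (N + i) * (a * e) * (t * p / (d * a)) := by ring
    rw [← hsum.sum_add_tsum_nat_add l]
    rw [Finset.sum_eq_zero, zero_add]
    swap
    · intro i hi
      have e0 : (N : ℝ) + i + 1 / 2 = ((N + i : ℕ) : ℝ) + 1 / 2 := by push_cast; ring
      have e1 : Num B ((N : ℝ) + i + 1 / 2) = 0 := by
        rw [e0]
        exact NVSum_Num_zero B (N + i) (by have := Finset.mem_range.mp hi; omega)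
      rw [hterm, e1]
      ring
    -- the functions
    set F : ℕ → ℝ → ℝ := fun n s => ((-1) ^ (n + B) *
      ((2 * B).factorial * ((n + 2 * B).choose (2 * B) : ℝ))) *
        (Φ s * Real.exp (-(((N : ℝ) + 1 / 4 + ((n : ℝ) + l + 1 / 4)) * s))) with hF
    have hcn : ∀ n : ℕ, (0 : ℝ) < (n : ℝ) + l + 1 / 4 := fun n => by (clear * -; positivity)
    have hFint : ∀ n, Integrable (F n) (volume.restrict (Set.Ioi 0)) := fun n =>
      (hintexp _ (hcn n)).const_mul _
    have hFval : ∀ n, ∫ s in Set.Ioi (0 : ℝ), F n s =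
        wt5 N (n + l) * (P * Q).eval (((N : ℝ) + ((n + l : ℕ) : ℝ) + 1 / 2) ^ 2) := by
      intro n
      have e0 : (N : ℝ) + ((n + l : ℕ) : ℝ) + 1 / 2 = ((n + B : ℕ) : ℝ) + 1 / 2 := by
        rw [hB]; push_cast; ring
      rw [hterm, e0, NVSum_Num, hF]
      simp only
      rw [integral_const_mul, show N + (n + l) = n + B by omega]
      have e1 : (N : ℝ) + 1 / 4 + ((n : ℝ) + l + 1 / 4) = ((n + B : ℕ) : ℝ) + 1 / 2 := by
        rw [hB]; push_cast; ring
      rw [e1, hlap]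
      rw [← e1]
      have := hcn n
      linarith only []
    have hFsum : Summable fun n => ∫ s in Set.Ioi (0 : ℝ), ‖F n s‖ := by
      -- bound by `const / (n+1/4)^2`
      have hs2 : Summable fun n : ℕ => 1 / |(n : ℝ) + 1 / 4| ^ (2 : ℝ) :=
        (Real.summable_one_div_nat_add_rpow (1 / 4) 2).mpr (by norm_num)
      obtain ⟨D, hD⟩ : ∃ D : ℝ, ∀ n : ℕ, ∫ s in Set.Ioi (0 : ℝ), ‖F n s‖ ≤
          D * (1 / |(n : ℝ) + 1 / 4| ^ (2 : ℝ)) := by
        set κ : ℝ := 8 * B + 1 with hκ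
        refine ⟨(2 * B).factorial * κ ^ (2 * B) * (C * μ.factorial) * 4 ^ (μ - 2 * B - 1), ?_⟩
        intro n
        have hx : (0 : ℝ) < (n : ℝ) + 1 / 4 := by positivity
        have hnorm : ∀ s, ‖F n s‖ = ((2 * B).factorial * ((n + 2 * B).choose (2 * B) : ℝ)) *
            ‖Φ s * Real.exp (-(((N : ℝ) + 1 / 4 + ((n : ℝ) + l + 1 / 4)) * s))‖ := by
          intro s
          rw [hF]
          simp only
          rw [norm_mul, norm_mul ((-1 : ℝ) ^ (n + B)), norm_pow, norm_neg, norm_one, one_pow,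
            one_mul, Real.norm_of_nonneg (by positivity :
              (0 : ℝ) ≤ (2 * B).factorial * ((n + 2 * B).choose (2 * B) : ℝ))]
        simp_rw [hnorm]
        rw [integral_const_mul]
        have h1 := hintnorm _ (hcn n)
        have hch : ((n + 2 * B).choose (2 * B) : ℝ) ≤ κ ^ (2 * B) * ((n : ℝ) + 1 / 4) ^ (2 * B) := by
          have h2 : ((n + 2 * B).choose (2 * B) : ℝ) ≤ ((n + 2 * B : ℕ) : ℝ) ^ (2 * B) := by
            exact_mod_cast Nat.choose_le_pow _ _
          refine h2.trans ?_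
          rw [← mul_pow]
          apply pow_le_pow_left₀ (by positivity)
          rw [hκ]; push_cast
          have hn : (0 : ℝ) ≤ n := Nat.cast_nonneg n
          have hBn : (0 : ℝ) ≤ B := Nat.cast_nonneg B
          linarith only [mul_nonneg hBn hn]
        have hden : (μ.factorial : ℝ) / ((n : ℝ) + l + 1 / 4) ^ (μ + 1) ≤
            μ.factorial / ((n : ℝ) + 1 / 4) ^ (μ + 1) := by
          apply div_le_div_of_nonneg_left (by positivity) (by positivity)
          apply pow_le_pow_left₀ hx.le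
          have : (0 : ℝ) ≤ l := Nat.cast_nonneg l
          linarith only []
        have hμB : μ + 1 = 2 * B + 2 + (μ - 2 * B - 1) := by (clear * - hk hkN hl hdegQ; omega)
        have hpow4 : 1 / ((n : ℝ) + 1 / 4) ^ (μ - 2 * B - 1) ≤ 4 ^ (μ - 2 * B - 1) := by
          rw [one_div, ← inv_pow]
          apply pow_le_pow_left₀ (by positivity)
          rw [inv_le_comm₀ hx (by norm_num)]
          have hn : (0 : ℝ) ≤ n := Nat.cast_nonneg n
          linarith only []
        have habs : |(n : ℝ) + 1 / 4| ^ (2 : ℝ) = ((n : ℝ) + 1 / 4) ^ 2 := by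
          rw [abs_of_pos hx]
          exact_mod_cast Real.rpow_natCast ((n : ℝ) + 1 / 4) 2
        rw [habs]
        calc ((2 * B).factorial : ℝ) * ((n + 2 * B).choose (2 * B) : ℝ) *
              ∫ s in Set.Ioi (0 : ℝ), ‖Φ s * Real.exp (-(((N : ℝ) + 1 / 4 + ((n : ℝ) + l + 1 / 4)) * s))‖
            ≤ ((2 * B).factorial * (κ ^ (2 * B) * ((n : ℝ) + 1 / 4) ^ (2 * B))) *
              (C * (μ.factorial / ((n : ℝ) + 1 / 4) ^ (μ + 1))) := by
              apply mul_le_mul
              · exact mul_le_mul_of_nonneg_left hch (by positivity)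
              · exact h1.trans (mul_le_mul_of_nonneg_left hden hC0)
              · exact integral_nonneg fun s => norm_nonneg _
              · have : 0 ≤ κ := by rw [hκ]; positivity
                (clear * - hN; positivity)
          _ = (2 * B).factorial * κ ^ (2 * B) * (C * μ.factorial) *
              (1 / ((n : ℝ) + 1 / 4) ^ (μ - 2 * B - 1)) * (1 / ((n : ℝ) + 1 / 4) ^ 2) := by
              rw [hμB, pow_add, pow_add]
              field_simp
          _ ≤ (2 * B).factorial * κ ^ (2 * B) * (C * μ.factorial) *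
              4 ^ (μ - 2 * B - 1) * (1 / ((n : ℝ) + 1 / 4) ^ 2) := by
              apply mul_le_mul_of_nonneg_right _ (by positivity)
              apply mul_le_mul_of_nonneg_left hpow4
              have : 0 ≤ κ := by rw [hκ]; positivity
              positivity
      exact Summable.of_nonneg_of_le (fun n => integral_nonneg fun s => norm_nonneg _) hD
        (hs2.mul_left D)
    have hmain := hasSum_integral_of_summable_integral_norm hFint hFsum
    have h3 : ∑' n, (wt5 N (n + l) *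
        (P * Q).eval (((N : ℝ) + ((n + l : ℕ) : ℝ) + 1 / 2) ^ 2)) =
        ∫ s in Set.Ioi (0 : ℝ), ∑' n, F n s := by
      rw [← hmain.tsum_eq]
      exact tsum_congr fun n => (hFval n).symm
    rw [h3, ← integral_const_mul]
    apply setIntegral_congr_fun measurableSet_Ioi
    intro s hs
    have hs0 : (0 : ℝ) < s := hs
    have hlt : ‖-Real.exp (-s)‖ < 1 := by
      rw [norm_neg, Real.norm_eq_abs, abs_of_pos (Real.exp_pos _)]
      rw [← Real.exp_zero]
      exact Real.exp_lt_exp.mpr (by linarith only [hs0])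
    have hgeo := hasSum_choose_mul_geometric_of_norm_lt_one (2 * B) hlt
    have e4 : ∀ n, F n s = ((-1) ^ B * (2 * B).factorial * Φ s *
        Real.exp (-(((2 * B + 1 : ℕ) : ℝ) * (s / 2)))) *
        (((n + 2 * B).choose (2 * B) : ℝ) * (-Real.exp (-s)) ^ n) := by
      intro n
      rw [hF]
      simp only
      have e5 : Real.exp (-(((N : ℝ) + 1 / 4 + ((n : ℝ) + l + 1 / 4)) * s)) =
          Real.exp (-(((2 * B + 1 : ℕ) : ℝ) * (s / 2))) * Real.exp (-s) ^ n := by
        rw [← Real.exp_nat_mul, ← Real.exp_add]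
        congr 1
        rw [hB]; push_cast; ring
      rw [e5, neg_pow (Real.exp (-s)) n, pow_add]
      ring
    have e6 : ∑' n, F n s = ((-1) ^ B * (2 * B).factorial * Φ s *
        Real.exp (-(((2 * B + 1 : ℕ) : ℝ) * (s / 2)))) * (1 / (1 - -Real.exp (-s)) ^ (2 * B + 1)) := by
      simp_rw [e4]
      rw [tsum_mul_left, hgeo.tsum_eq]
    simp only
    rw [e6]
    have e7 : gg s ^ (2 * N + 2 * l + 1) =
        Real.exp (-(((2 * B + 1 : ℕ) : ℝ) * (s / 2))) / (1 + Real.exp (-s)) ^ (2 * B + 1) := by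
      have e8 : 2 * N + 2 * l + 1 = 2 * B + 1 := by rw [hB]; ring
      rw [e8]
      unfold gg
      rw [div_pow, ← Real.exp_nat_mul]
      congr 2
      ring
    have e9 : 2 * N + 2 * l = 2 * B := by rw [hB]; ring
    rw [e7, e9, sub_neg_eq_add]
    ring

end Vale.Agent.P030.Five
end
end

section

section

/-! The Hankel determinant `HK5 N K` does not vanish. -/

namespace Vale.Agent.P030.Five

open Finset Polynomial MeasureTheory Vale.Agent.P030

theorem HK5_ne_zero (N K : ℕ) (hN : 1 ≤ N) (hK : 2 * K ≤ 5 * N) : HK5 N K ≠ 0 := by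
  intro hdet
  unfold HK5 at hdet
  obtain ⟨v, hv, hMv⟩ := Matrix.exists_mulVec_eq_zero_iff.mpr hdet
  have hrel : ∀ a : Fin K, ∑ b : Fin K, psi5 N (X ^ ((a : ℕ) + (b : ℕ))) * v b = 0 := by
    intro a
    have := congrFun hMv a
    simpa [Matrix.mulVec, dotProduct] using this
  set P : ℝ[X] := ∑ b : Fin K, C (v b) * X ^ (b : ℕ) with hP
  have hcoef : ∀ b : Fin K, P.coeff b = v b := by
    intro b
    rw [hP, finsetSum_coeff]
    rw [Finset.sum_eq_single b]
    · simp
    · intro c _ hc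
      rw [coeff_C_mul, coeff_X_pow, if_neg, mul_zero]
      intro h
      exact hc (Fin.ext h.symm)
    · intro h; exact absurd (Finset.mem_univ b) h
  have hP0 : P ≠ 0 := by
    intro h
    apply hv
    ext b
    rw [← hcoef b, h]
    simp
  have hKpos : 0 < K := by
    rcases Nat.eq_zero_or_pos K with h | h
    · subst h
      exact absurd (Subsingleton.elim v 0) hv
    · exact h
  have hdegP : P.natDegree < K := by
    have h1 : P.natDegree ≤ K - 1 := by
      rw [hP]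
      apply natDegree_sum_le_of_forall_le
      intro b _
      refine (natDegree_C_mul_X_pow_le _ _).trans ?_
      have := b.2
      omega
    omega
  -- orthogonality
  have hpX : ∀ a : ℕ, a < K → psi5 N (P * X ^ a) = 0 := by
    intro a ha
    have h1 := hrel ⟨a, ha⟩
    rw [hP, Finset.sum_mul, map_sum]
    rw [← h1]
    apply Finset.sum_congr rfl
    intro b _
    have e : C (v b) * X ^ (b : ℕ) * X ^ a = (v b) • (X ^ (a + (b : ℕ)) : ℝ[X]) := by
      rw [smul_eq_C_mul, mul_assoc, ← pow_add, add_comm (b : ℕ) a]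
    rw [e, map_smul, smul_eq_mul, mul_comm]
  have hpQ : ∀ Q : ℝ[X], Q.natDegree < K → psi5 N (P * Q) = 0 := by
    intro Q hQ
    rw [Q.as_sum_range_C_mul_X_pow, Finset.mul_sum, map_sum]
    apply Finset.sum_eq_zero
    intro i hi
    have hi' : i < K := by have := Finset.mem_range.mp hi; omega
    have e : P * (C (Q.coeff i) * X ^ i) = (Q.coeff i) • (P * X ^ i) := by
      rw [smul_eq_C_mul]; ring
    rw [e, map_smul, hpX i hi', smul_zero]
  -- the function `Φ`
  obtain ⟨Φ, hsm, hne, hodd, ⟨l, hl, hann⟩, hvan, hgrow, hlap⟩ :=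
    exists_Phi5 N P.natDegree hN P hP0 rfl (by omega)
  have hcont : Continuous Φ := hsm.continuous
  set k := P.natDegree with hk
  -- at most `k` positive zeros
  have hzeros : ∀ S : Finset ℝ, (∀ x ∈ S, 0 < x ∧ Φ x = 0) → S.card ≤ k := by
    intro S hS
    have hdisj : Disjoint S (S.image fun x => -x) := by
      rw [Finset.disjoint_left]
      intro x hx hx'
      obtain ⟨y, hy, hyx⟩ := Finset.mem_image.mp hx'
      have h1 := (hS x hx).1
      have h2 := (hS y hy).1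
      linarith only [hyx, h1, h2]
    have hcard : (S ∪ S.image fun x => -x).card = 2 * S.card := by
      rw [Finset.card_union_of_disjoint hdisj, Finset.card_image_of_injective _ neg_injective]
      ring
    have h3 := rolle_count l Φ hsm hann hne (S ∪ S.image fun x => -x) (by
      intro x hx
      rcases Finset.mem_union.mp hx with h | h
      · exact ⟨(hS x h).2, (hS x h).1.ne'⟩
      · obtain ⟨y, hy, hyx⟩ := Finset.mem_image.mp h
        subst hyx
        refine ⟨by rw [hodd, (hS y hy).2, neg_zero], ?_⟩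
        have := (hS y hy).1
        linarith only [this]) (12 * N + 3 - 2 * k) hvan
    rw [hcard, hl] at h3
    (clear * - hK hdegP h3; omega)
  set Q : ℕ → ℝ[X] := fun l => ∏ i ∈ Ico N (N + l), (X - C (((i : ℝ) + 1 / 2) ^ 2)) with hQ
  have hQdeg : ∀ l, (Q l).natDegree = l := by
    intro l
    simp only [hQ]
    rw [natDegree_prod_of_monic _ _ (fun i _ => monic_X_sub_C _)]
    simp only [natDegree_X_sub_C, sum_const, Nat.card_Ico, smul_eq_mul, mul_one]
    omega
  have hmul : ∀ l, l ≤ k → IntegrableOn (fun s => Φ s * gg s ^ (2 * N + 2 * l + 1)) (Set.Ioi 0) ∧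
      ∫ s in Set.Ioi (0 : ℝ), Φ s * gg s ^ (2 * N + 2 * l + 1) = 0 := by
    intro l hlk
    obtain ⟨h1, h2⟩ := psi5_mul_Qt N k l hN P rfl (by omega) (by omega) Φ hcont hgrow hlap (Q l) rfl
    refine ⟨h1, ?_⟩
    rw [hpQ (Q l) (by rw [hQdeg]; omega)] at h2
    have h3 : ((-1 : ℝ) ^ (N + l) * (2 * N + 2 * l).factorial) ≠ 0 := by
      apply mul_ne_zero
      · exact pow_ne_zero _ (by norm_num)
      · positivity
    exact (mul_eq_zero.mp h2.symm).resolve_left h3
  obtain ⟨q, hq, hint⟩ := exists_sign_poly N k Φ hcont hzeros (fun l hl => (hmul l hl).1)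
  apply hint
  have e1 : (fun s => Φ s * (gg s ^ (2 * N + 1) * q.eval (gg s ^ 2))) = fun s =>
      ∑ l ∈ range (q.natDegree + 1), q.coeff l * (Φ s * gg s ^ (2 * N + 2 * l + 1)) := by
    ext s
    rw [eval_eq_sum_range, Finset.mul_sum, Finset.mul_sum]
    apply Finset.sum_congr rfl
    intro l _
    ring
  rw [e1, integral_finsetSum]
  · apply Finset.sum_eq_zero
    intro l hl
    rw [integral_const_mul, (hmul l (by have := Finset.mem_range.mp hl; omega)).2, mul_zero]
  · intro l hl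
    exact ((hmul l (by have := Finset.mem_range.mp hl; omega)).1).const_mul _

end Vale.Agent.P030.Five
end
end

section

section

/-! Final assembly for `β(2), β(4)`. -/

namespace Vale.Agent.P030.Five

open Finset Vale.Agent.P030

/-! ### elementary valuation facts -/

theorem F5MN_VG_den {p : ℕ} [Fact p.Prime] (x : ℚ) : VG p (-(x.den : ℤ)) x := by
  by_cases hx : x = 0
  · subst hx
    exact VG_zero _
  rw [VG_iff hx, padicValRat]
  have h1 : padicValNat p x.den < x.den := by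
    rcases Nat.eq_zero_or_pos (padicValNat p x.den) with h | h
    · rw [h]; exact x.den_pos
    · have h2 : p ^ padicValNat p x.den ∣ x.den := pow_padicValNat_dvd
      have h3 := Nat.le_of_dvd x.den_pos h2
      exact lt_of_lt_of_le (Nat.lt_pow_self (Fact.out : p.Prime).one_lt) h3
  have h4 : (0 : ℤ) ≤ padicValInt p x.num := by positivity
  have h5 : (padicValNat p x.den : ℤ) < x.den := by exact_mod_cast h1
  omega

theorem F5MN_VG_of_lt {p : ℕ} [Fact p.Prime] (x : ℚ) (h : x.den < p) : VG p 0 x := by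
  by_cases hx : x = 0
  · subst hx
    exact VG_zero _
  rw [VG_iff hx, padicValRat]
  have h1 : padicValNat p x.den = 0 := by
    apply padicValNat.eq_zero_of_not_dvd
    intro hd
    exact absurd (Nat.le_of_dvd x.den_pos hd) (by omega)
  have h4 : (0 : ℤ) ≤ padicValInt p x.num := by positivity
  rw [h1]
  simp

/-- the coefficients `c`. -/
def F5MN_c (q2 q4 : ℚ) (i : ℕ) : ℚ :=
  if i = 2 then 4 * q2 else if i = 4 then 16 * q4 else 0

theorem F5MN_goodC {q2 q4 : ℚ} (h2 : (q2 : ℝ) = beta 2) (h4 : (q4 : ℝ) = beta 4) :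
    GoodC5 (F5MN_c q2 q4) := by
  refine ⟨by simp [F5MN_c], by simp [F5MN_c], by simp [F5MN_c], ?_, ?_⟩
  · rw [← h2]
    simp only [F5MN_c]
    push_cast
    norm_num
  · rw [← h4]
    simp only [F5MN_c]
    push_cast
    norm_num

theorem F5MN_c_VG_den {p : ℕ} [Fact p.Prime] (q2 q4 : ℚ) (i : ℕ) :
    VG p (-((q2.den + q4.den : ℕ) : ℤ)) (F5MN_c q2 q4 i) := by
  unfold F5MN_c
  have key : ∀ (n : ℕ) (q : ℚ) (D : ℕ), q.den ≤ D → VG p (-(D : ℤ)) ((n : ℚ) * q) := by
    intro n q D hD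
    refine VG_mul' (VG_nat n) (F5MN_VG_den q) ?_
    omega
  split_ifs with h h
  · exact_mod_cast key 4 q2 _ (by omega)
  · exact_mod_cast key 16 q4 _ (by omega)
  · exact VG_zero _

theorem F5MN_c_VG_zero {p : ℕ} [Fact p.Prime] (q2 q4 : ℚ)
    (h : q2.den + q4.den < p) (i : ℕ) : VG p 0 (F5MN_c q2 q4 i) := by
  unfold F5MN_c
  have key : ∀ (n : ℕ) (q : ℚ), q.den < p → VG p 0 ((n : ℚ) * q) := by
    intro n q hD
    refine VG_mul' (VG_nat n) (F5MN_VG_of_lt q hD) ?_
    omega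
  split_ifs with h h
  · exact_mod_cast key 4 q2 (by omega)
  · exact_mod_cast key 16 q4 (by omega)
  · exact VG_zero _

/-- the normalized rational number. -/
noncomputable def F5MN_y (N K : ℕ) (x : ℚ) : ℚ :=
  x * ∏ k ∈ range K, (((2 * N).factorial : ℚ) ^ 5 / ((2 * k - 1).factorial : ℚ) ^ 2)

theorem F5MN_y_ne_zero (N K : ℕ) {x : ℚ} (hx : x ≠ 0) : F5MN_y N K x ≠ 0 := by
  unfold F5MN_y
  refine mul_ne_zero hx (Finset.prod_ne_zero_iff.mpr fun k _ => ?_)
  have h1 : ((2 * N).factorial : ℚ) ≠ 0 := by exact_mod_cast (Nat.factorial_pos _).ne'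
  have h2 : ((2 * k - 1).factorial : ℚ) ≠ 0 := by exact_mod_cast (Nat.factorial_pos _).ne'
  positivity

theorem F5MN_padicValRat_y {p : ℕ} [Fact p.Prime] (N K : ℕ) {x : ℚ} (hx : x ≠ 0) :
    padicValRat p (F5MN_y N K x) = padicValRat p x +
      (5 * K * (padicValNat p (2 * N).factorial : ℤ) -
        2 * ∑ k ∈ range K, (padicValNat p (2 * k - 1).factorial : ℤ)) := by
  unfold F5MN_y
  have h1 : ((2 * N).factorial : ℚ) ≠ 0 := by exact_mod_cast (Nat.factorial_pos _).ne'
  have h2 : ∀ k : ℕ, ((2 * k - 1).factorial : ℚ) ≠ 0 := fun k => by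
    exact_mod_cast (Nat.factorial_pos _).ne'
  have h3 : ∀ k : ℕ, (((2 * N).factorial : ℚ) ^ 5 / ((2 * k - 1).factorial : ℚ) ^ 2) ≠ 0 :=
    fun k => div_ne_zero (pow_ne_zero _ h1) (pow_ne_zero _ (h2 k))
  rw [padicValRat.mul hx (Finset.prod_ne_zero_iff.mpr fun k _ => h3 k)]
  congr 1
  induction K with
  | zero => simp
  | succ K ih =>
    rw [prod_range_succ, padicValRat.mul (Finset.prod_ne_zero_iff.mpr fun k _ => h3 k) (h3 K), ih,
      padicValRat.div (pow_ne_zero _ h1) (pow_ne_zero _ (h2 K)), padicValRat.pow,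
      padicValRat.pow, padicValRat.of_nat, padicValRat.of_nat, sum_range_succ]
    push_cast
    ring

theorem F5MN_log_y (N K : ℕ) {x : ℚ} (hx : x ≠ 0) :
    Real.log |((F5MN_y N K x : ℚ) : ℝ)| = Real.log |(x : ℝ)| +
      ∑ k ∈ range K, (5 * Real.log (2 * N).factorial - 2 * Real.log (2 * k - 1).factorial) := by
  unfold F5MN_y
  have h1 : ((2 * N).factorial : ℝ) ≠ 0 := by exact_mod_cast (Nat.factorial_pos _).ne'
  have h2 : ∀ k : ℕ, ((2 * k - 1).factorial : ℝ) ≠ 0 := fun k => by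
    exact_mod_cast (Nat.factorial_pos _).ne'
  have h3 : ∀ k : ℕ, (((2 * N).factorial : ℝ) ^ 5 / ((2 * k - 1).factorial : ℝ) ^ 2) ≠ 0 :=
    fun k => div_ne_zero (pow_ne_zero _ h1) (pow_ne_zero _ (h2 k))
  have hxR : (x : ℝ) ≠ 0 := by exact_mod_cast hx
  push_cast
  rw [Real.log_abs, Real.log_abs,
    Real.log_mul hxR (Finset.prod_ne_zero_iff.mpr fun k _ => h3 k),
    Real.log_prod (fun k _ => h3 k)]
  congr 1
  refine sum_congr rfl fun k _ => ?_
  rw [Real.log_div (pow_ne_zero _ h1) (pow_ne_zero _ (h2 k)), Real.log_pow, Real.log_pow]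
  push_cast
  ring

theorem F5MN_val_factorial {p : ℕ} [Fact p.Prime] {n : ℕ} (h : n < p ^ 2) :
    padicValNat p n.factorial = n / p := by
  have hlog : Nat.log p n < 2 := by
    rcases Nat.eq_zero_or_pos n with h0 | h0
    · subst h0; simp
    · exact Nat.log_lt_of_lt_pow h0.ne' h
  rw [padicValNat_factorial hlog]
  simp

/-- `p = 2`. -/
theorem F5MN_two {N K e d : ℕ} (hN : 1 ≤ N) (hK : 2 * K ≤ 5 * N) (he : 4 * N < 2 ^ (e + 1))
    (he' : 2 * K < 2 ^ (e + 1)) (c : ℕ → ℚ) (hc : GoodC5 c) (hci : ∀ i, VG 2 (-(d : ℤ)) (c i))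
    (x : ℚ) (hx : HK5 N K = (x : ℝ)) (hx0 : x ≠ 0) :
    -(padicValRat 2 (F5MN_y N K x)) ≤ K * (5 * e + d) := by
  have : Fact (Nat.Prime 2) := ⟨Nat.prime_two⟩
  have h := det_crude_two5 N K e d hN hK he he' c hc hci x hx hx0
  rw [F5MN_padicValRat_y N K hx0]
  linarith only [h]

/-- odd `p` with `p² ≤ 2K`. -/
theorem F5MN_crude {p : ℕ} [Fact p.Prime] (hp2 : p ≠ 2) {N K d : ℕ} (hN : 1 ≤ N)
    (hK : 2 * K ≤ 5 * N) (hNK : 4 * N ≤ 2 * K) (c : ℕ → ℚ) (hc : GoodC5 c)
    (hci : ∀ i, VG p (-(d : ℤ)) (c i)) (x : ℚ) (hx : HK5 N K = (x : ℝ)) (hx0 : x ≠ 0)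
    (hp : p ^ 2 ≤ 2 * K) :
    -(padicValRat p (F5MN_y N K x) : ℝ) ≤ Ebd5 d N K p := by
  set e := Nat.log p (2 * K) with he
  have he' : 2 * K < p ^ (e + 1) := Nat.lt_pow_succ_log_self (Fact.out : p.Prime).one_lt _
  have h := det_crude_odd5 hp2 N K e d hN hK (by omega) he' c hc hci x hx hx0
  have h2 : -(padicValRat p (F5MN_y N K x)) ≤ (K : ℤ) * (5 * e + d) := by
    rw [F5MN_padicValRat_y N K hx0]
    linarith only [h]
  unfold Ebd5
  rw [if_pos hp]
  exact_mod_cast h2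

/-- odd `p` with `p² > 2K`. -/
theorem F5MN_refined {p : ℕ} [Fact p.Prime] (hp2 : p ≠ 2) {N K d : ℕ} (hN : 1 ≤ N)
    (hK : 2 * K = 5 * N) (c : ℕ → ℚ) (hc : GoodC5 c)
    (hci : ∀ i, VG p 0 (c i)) (x : ℚ) (hx : HK5 N K = (x : ℝ)) (hx0 : x ≠ 0)
    (hp : 2 * K < p ^ 2) (hpK : p ≤ 2 * K) :
    -(padicValRat p (F5MN_y N K x) : ℝ) ≤ Ebd5 d N K p := by
  have hodd : Odd p := (Fact.out : p.Prime).odd_of_ne_two hp2
  have hp0 : 0 < p := (Fact.out : p.Prime).pos
  have hp1 : 1 < p := (Fact.out : p.Prime).one_lt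
  have hpR : (0 : ℝ) < p := by exact_mod_cast hp0
  obtain ⟨F, hF⟩ : ∃ F : ℕ, F = ∑ k ∈ range K, (2 * k - 1) / p := ⟨_, rfl⟩
  obtain ⟨G, hG⟩ : ∃ G : ℕ, G = 2 * N / p := ⟨_, rfl⟩
  have hval : (padicValRat p (F5MN_y N K x) : ℝ) = (padicValRat p x : ℝ) +
      (5 * K * (G : ℝ) - 2 * (F : ℝ)) := by
    rw [F5MN_padicValRat_y N K hx0, F5MN_val_factorial (by omega), ← hG]
    have : ∑ k ∈ range K, (padicValNat p (2 * k - 1).factorial : ℤ) = (F : ℤ) := by
      rw [hF, Nat.cast_sum]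
      refine sum_congr rfl fun k hk => ?_
      rw [mem_range] at hk
      rw [F5MN_val_factorial (by (clear * - hK hp hpK hp1 hk; omega))]
    rw [this]
    push_cast
    ring
  rw [hval]
  unfold Ebd5
  rw [if_neg (by omega), ← hG]
  have hfl := floor_sum (K := K) hodd
  rw [← hF] at hfl
  have hKR : 2 * (K : ℝ) = 5 * N := by exact_mod_cast hK
  split_ifs with h1 h2 h3 h4
  · -- p ≤ N
    have hr := det_refined5 hp2 N K hN hK.le (by omega) c hc hci x hx hx0 1
    have hcnt := count_small5 (K := K) hodd hp1 h1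
    rw [Nat.cast_one] at hr
    have hKe : (K : ℝ) = 5 * N / 2 := by linarith only [hKR]
    have hNR : (p : ℝ) ≤ N := by exact_mod_cast h1
    have hN1 : (1 : ℝ) ≤ N := by exact_mod_cast hN
    -- the quadratic main terms
    have e1 : 25 / 8 * ((2 * (N : ℝ) + 1) ^ 2 / p) + 2 * (K : ℝ) ^ 2 / p =
        5 * (K : ℝ) * (2 * N / p) + 25 / 8 * ((4 * (N : ℝ) + 1) / p) := by
      rw [hKe]
      field_simp
      ring
    have e2 : 25 / 8 * ((4 * (N : ℝ) + 1) / p) ≤ 16 * N / p := by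
      rw [← mul_div_assoc]
      exact div_le_div_of_nonneg_right (by linarith only [hpR, hNR, hN1]) hpR.le
    have e3 : (2 * (N : ℝ) + 1) / p + 1 ≤ 4 * (N : ℝ) / p := by
      have : (2 * (N : ℝ) + 1) / p + 1 = (2 * (N : ℝ) + 1 + p) / p := by field_simp
      rw [this]
      exact div_le_div_of_nonneg_right (by linarith only [hNR, hN1]) hpR.le
    have e4 : 25 / 8 * ((2 * (N : ℝ) + 1) / p + 1) ^ 2 ≤ 50 * (N : ℝ) ^ 2 / (p : ℝ) ^ 2 := by
      have h0 : (0 : ℝ) ≤ (2 * (N : ℝ) + 1) / p + 1 := by positivity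
      have h5 : ((2 * (N : ℝ) + 1) / p + 1) ^ 2 ≤ (4 * (N : ℝ) / p) ^ 2 :=
        pow_le_pow_left₀ h0 e3 2
      have h6 : 50 * (N : ℝ) ^ 2 / (p : ℝ) ^ 2 = 25 / 8 * (4 * (N : ℝ) / p) ^ 2 := by
        rw [div_pow]
        ring
      rw [h6]
      linarith only [h5]
    linarith only [hfl, hr, hcnt, e1, e2, e4]
  · -- N < p ≤ 2N
    have hr := det_refined5 hp2 N K hN hK.le (by omega) c hc hci x hx hx0 0
    have hcnt := count_mid5 (K := K) hodd (not_le.mp h1) h2
    have e1 : 2 * N / p = 1 := by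
      apply Nat.div_eq_of_lt_le <;> omega
    rw [Nat.cast_zero] at hr
    rw [hG, e1, Nat.cast_one]
    linarith only [hcnt, hr, hfl]
  · -- 2N < p ≤ K
    have hr := det_refined5 hp2 N K hN hK.le (by omega) c hc hci x hx hx0 0
    have hcnt := count_large5 (K := K) hodd (not_le.mp h2) (by omega)
    have e1 : 2 * N / p = 0 := Nat.div_eq_of_lt (not_le.mp h2)
    rw [Nat.cast_zero] at hr
    rw [hG, e1, Nat.cast_zero]
    have h4 := floor_sum_two hodd (by (clear * - hK h2 h3; omega)) h3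
    rw [← hF] at h4
    linarith only [hr, hcnt, h4]
  · -- K < p ≤ 4N
    have hr := det_refined5 hp2 N K hN hK.le (by omega) c hc hci x hx hx0 0
    have hcnt := count_large5 (K := K) hodd (not_le.mp h2) h4
    have e1 : 2 * N / p = 0 := Nat.div_eq_of_lt (not_le.mp h2)
    rw [Nat.cast_zero] at hr
    rw [hG, e1, Nat.cast_zero]
    have h4 := floor_sum_one hodd (not_le.mp h3) hpK
    rw [← hF] at h4
    linarith only [hr, hcnt, h4]
  · -- 4N < p ≤ 2K
    have hr := det_refined5 hp2 N K hN hK.le (by omega) c hc hci x hx hx0 0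
    rw [count_huge5 (K := K) hodd (not_le.mp h4)] at hr
    have e1 : 2 * N / p = 0 := Nat.div_eq_of_lt (not_le.mp h2)
    rw [Nat.cast_zero] at hr
    rw [hG, e1, Nat.cast_zero]
    have h4 := floor_sum_one hodd (not_le.mp h3) hpK
    rw [← hF] at h4
    linarith only [hr, h4]

/-- primes larger than `2K`. -/
theorem F5MN_large {p : ℕ} [Fact p.Prime] (hp2 : p ≠ 2) {N K : ℕ} (hN : 1 ≤ N)
    (hK : 2 * K ≤ 5 * N) (hNK : 4 * N ≤ 2 * K) (c : ℕ → ℚ) (hc : GoodC5 c)
    (hci : ∀ i, VG p 0 (c i)) (x : ℚ) (hx : HK5 N K = (x : ℝ)) (hx0 : x ≠ 0)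
    (hpK : 2 * K < p) : 0 ≤ padicValRat p (F5MN_y N K x) := by
  have hodd : Odd p := (Fact.out : p.Prime).odd_of_ne_two hp2
  have hsq : 2 * K < p ^ 2 := by nlinarith only [hN, hNK, hpK]
  have hr := det_refined5 hp2 N K hN hK (by omega) c hc hci x hx hx0 0
  rw [count_huge5 (K := K) hodd (by omega), Nat.cast_zero] at hr
  rw [F5MN_padicValRat_y N K hx0, F5MN_val_factorial (by omega)]
  have e1 : 2 * N / p = 0 := Nat.div_eq_of_lt (by omega)
  have : ∑ k ∈ range K, (padicValNat p (2 * k - 1).factorial : ℤ) = 0 := by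
    refine sum_eq_zero fun k hk => ?_
    rw [mem_range] at hk
    rw [F5MN_val_factorial (by omega), Nat.div_eq_of_lt (by omega)]
    rfl
  rw [this, e1]
  have h3 : (0 : ℝ) ≤ (padicValRat p x : ℝ) := by linarith only [hr]
  have h4 : 0 ≤ padicValRat p x := by exact_mod_cast h3
  simpa using h4

/-- the contradiction for large `M`. -/
theorem F5MN_growth (d : ℕ) : ∃ M₀ : ℕ, ∀ M ≥ M₀,
    ((5 * M : ℕ) : ℝ) * (5 * (Nat.log 2 (2 * (5 * M)) : ℝ) + d) *
      Real.log 2 + 81.8 * (M : ℝ) ^ 2 < 82.2 * (M : ℝ) ^ 2 := by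
  have h1 : ∀ᶠ M : ℕ in Filter.atTop, Real.log (10 * (M : ℝ)) ≤ 1 / 2000 * (10 * (M : ℝ)) := by
    have h2 := Real.isLittleO_log_id_atTop.def (c := 1 / 2000) (by norm_num)
    have h3 : Filter.Tendsto (fun M : ℕ => 10 * (M : ℝ)) Filter.atTop Filter.atTop :=
      tendsto_natCast_atTop_atTop.const_mul_atTop (by norm_num)
    filter_upwards [h3.eventually h2] with M hM
    simp only [id, Real.norm_eq_abs] at hM
    rw [abs_of_nonneg (by positivity : (0 : ℝ) ≤ 10 * (M : ℝ))] at hM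
    exact le_trans (le_abs_self _) hM
  obtain ⟨M₁, hM₁⟩ := Filter.eventually_atTop.mp h1
  refine ⟨max M₁ (1 + 35 * d), fun M hM => ?_⟩
  have hM1 := hM₁ M (le_trans (le_max_left _ _) hM)
  have hM2 : (1 + 35 * d : ℕ) ≤ M := le_trans (le_max_right _ _) hM
  have hM3 : (1 + 35 * (d : ℝ)) ≤ M := by exact_mod_cast hM2
  have hM0 : (0 : ℝ) < M := by
    have : 0 < M := by omega
    exact_mod_cast this
  have hlog : (Nat.log 2 (2 * (5 * M)) : ℝ) * Real.log 2 ≤ Real.log (10 * (M : ℝ)) := by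
    rw [← Real.log_pow]
    refine Real.log_le_log (by positivity) ?_
    have h4 : 2 ^ Nat.log 2 (2 * (5 * M)) ≤ 2 * (5 * M) := Nat.pow_log_le_self 2 (by omega)
    have h5 : ((2 ^ Nat.log 2 (2 * (5 * M)) : ℕ) : ℝ) ≤ ((2 * (5 * M) : ℕ) : ℝ) := by
      exact_mod_cast h4
    push_cast at h5
    linarith only [h5]
  have hl2 := Real.log_two_lt_d9
  have hl2' := Real.log_two_gt_d9
  have hA : (5 * (M : ℝ)) * (5 * ((Nat.log 2 (2 * (5 * M)) : ℝ) * Real.log 2)) ≤
      (5 * (M : ℝ)) * (5 * (1 / 2000 * (10 * (M : ℝ)))) := by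
    refine mul_le_mul_of_nonneg_left ?_ (by positivity)
    linarith only [hlog, hM1]
  have hd0 : (0 : ℝ) ≤ d := by positivity
  have hB : (5 * (M : ℝ)) * ((d : ℝ) * Real.log 2) ≤ (5 * (M : ℝ)) * (0.02 * M) := by
    refine mul_le_mul_of_nonneg_left ?_ (by positivity)
    have : (d : ℝ) * Real.log 2 ≤ (d : ℝ) * 0.7 :=
      mul_le_mul_of_nonneg_left (by linarith only [hl2, hl2']) (by positivity)
    linarith only [hM3, hl2, hl2', this]
  push_cast
  have hM20 : 0 < (M : ℝ) ^ 2 := by positivity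
  linarith only [hM20, hB, hA]

theorem arch_total5 : ∃ M₀ : ℕ, ∀ M ≥ M₀,
    Real.log |HK5 (2 * M) (5 * M)| +
      ∑ k ∈ range (5 * M), (5 * Real.log (2 * (2 * M)).factorial -
        2 * Real.log (2 * k - 1).factorial) ≤ -82.2 * (M : ℝ) ^ 2 := by
  obtain ⟨M₀, hM₀⟩ := arch_total5_of_ne_of abs_HK5_le row_small row_mid row_large
  refine ⟨max M₀ 1, fun M hM => hM₀ M (le_trans (le_max_left _ _) hM) ?_⟩
  have h1 : 1 ≤ M := le_trans (le_max_right _ _) hM
  exact HK5_ne_zero (2 * M) (5 * M) (by omega) (by omega)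

theorem main5 : Irrational (beta 2) ∨ Irrational (beta 4) := by
  by_contra hcon
  rw [not_or] at hcon
  obtain ⟨h2, h4⟩ := hcon
  unfold Irrational at h2 h4
  rw [not_not] at h2 h4
  obtain ⟨q2, hq2⟩ := h2
  obtain ⟨q4, hq4⟩ := h4
  obtain ⟨c, hcdef⟩ : ∃ c, c = F5MN_c q2 q4 := ⟨_, rfl⟩
  have hc : GoodC5 c := hcdef ▸ F5MN_goodC hq2 hq4
  obtain ⟨d, hd⟩ : ∃ d, d = q2.den + q4.den := ⟨_, rfl⟩
  have hcd : ∀ (p : ℕ) [Fact p.Prime] (i : ℕ), VG p (-(d : ℤ)) (c i) := by
    intro p _ i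
    rw [hcdef, hd]
    exact F5MN_c_VG_den q2 q4 i
  have hc0 : ∀ (p : ℕ) [Fact p.Prime], d < p → ∀ i : ℕ, VG p 0 (c i) := by
    intro p _ hp i
    rw [hcdef]
    exact F5MN_c_VG_zero q2 q4 (hd ▸ hp) i
  obtain ⟨M₁, hM₁⟩ := arch_total5
  obtain ⟨M₂, hM₂⟩ := prime_sum_le5 d
  obtain ⟨M₃, hM₃⟩ := F5MN_growth d
  obtain ⟨M, hM⟩ : ∃ M, M = max (max M₁ M₂) (max M₃ (d ^ 2 + 1)) := ⟨_, rfl⟩
  have h1M : M₁ ≤ M := hM ▸ le_trans (le_max_left _ _) (le_max_left _ _)
  have h2M : M₂ ≤ M := hM ▸ le_trans (le_max_right _ _) (le_max_left _ _)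
  have h3M : M₃ ≤ M := hM ▸ le_trans (le_max_left _ _) (le_max_right _ _)
  have h4M : d ^ 2 + 1 ≤ M := hM ▸ le_trans (le_max_right _ _) (le_max_right _ _)
  have hN1 : 1 ≤ 2 * M := by omega
  have hK5 : 2 * (5 * M) = 5 * (2 * M) := by ring
  have hNK : 4 * (2 * M) ≤ 2 * (5 * M) := by omega
  obtain ⟨x, hx⟩ := exists_rat_HK5 c hc (2 * M) (5 * M) hK5.le
  have hne := HK5_ne_zero (2 * M) (5 * M) hN1 hK5.le
  have hx0 : x ≠ 0 := by
    rintro rfl
    apply hne
    rw [hx]
    norm_num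
  have harch := hM₁ M h1M
  have hprime := hM₂ M h2M
  have hgrow := hM₃ M h3M
  have hlogy := F5MN_log_y (2 * M) (5 * M) hx0
  rw [← hx] at hlogy
  have hy0 := F5MN_y_ne_zero (2 * M) (5 * M) hx0
  have hS := log_abs_ge (F5MN_y (2 * M) (5 * M) x) hy0
    ((range (10 * M + 1)).filter Nat.Prime) (fun p hp => (mem_filter.mp hp).2) (by
      intro p hp hpS
      have : Fact p.Prime := ⟨hp⟩
      have hpl : 10 * M < p := by
        by_contra hcon
        apply hpS
        rw [mem_filter, mem_range]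
        exact ⟨by omega, hp⟩
      have hdp : d < p := by nlinarith only [h4M, hpl]
      exact F5MN_large (by omega) hN1 hK5.le hNK c hc (hc0 p hdp) x hx hx0 (by omega))
  -- split off the prime 2
  have hsplit : ∑ p ∈ (range (10 * M + 1)).filter Nat.Prime,
      (padicValRat p (F5MN_y (2 * M) (5 * M) x) : ℝ) * Real.log p =
      (padicValRat 2 (F5MN_y (2 * M) (5 * M) x) : ℝ) * Real.log (2 : ℕ) +
      ∑ p ∈ (range (10 * M + 1)).filter (fun p => p.Prime ∧ p ≠ 2),
      (padicValRat p (F5MN_y (2 * M) (5 * M) x) : ℝ) * Real.log p := by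
    have hset : (range (10 * M + 1)).filter Nat.Prime =
        insert 2 ((range (10 * M + 1)).filter (fun p => p.Prime ∧ p ≠ 2)) := by
      ext p
      simp only [mem_filter, mem_range, mem_insert]
      constructor
      · rintro ⟨ha, hb⟩
        by_cases h : p = 2
        · exact Or.inl h
        · exact Or.inr ⟨ha, hb, h⟩
      · rintro (h | ⟨ha, hb, _⟩)
        · subst h
          exact ⟨by omega, Nat.prime_two⟩
        · exact ⟨ha, hb⟩
    rw [hset, sum_insert (by simp)]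
  have htwo : -((padicValRat 2 (F5MN_y (2 * M) (5 * M) x) : ℤ) : ℝ) ≤
      ((5 * M : ℕ) : ℝ) * (5 * (Nat.log 2 (2 * (5 * M)) : ℝ) + d) := by
    have : Fact (Nat.Prime 2) := ⟨Nat.prime_two⟩
    have he' : 2 * (5 * M) < 2 ^ (Nat.log 2 (2 * (5 * M)) + 1) :=
      Nat.lt_pow_succ_log_self (by norm_num) _
    have h := F5MN_two (d := d) hN1 hK5.le (by (clear * - hM h2M he'; omega)) he' c hc (hcd 2) x hx hx0
    exact_mod_cast h
  have hodd : ∑ p ∈ (range (10 * M + 1)).filter (fun p => p.Prime ∧ p ≠ 2),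
      -(padicValRat p (F5MN_y (2 * M) (5 * M) x) : ℝ) * Real.log p ≤
      ∑ p ∈ (range (10 * M + 1)).filter (fun p => p.Prime ∧ p ≠ 2),
      Ebd5 d (2 * M) (5 * M) p * Real.log p := by
    refine sum_le_sum fun p hp => ?_
    rw [mem_filter, mem_range] at hp
    obtain ⟨hp1, hp2, hp3⟩ := hp
    have : Fact p.Prime := ⟨hp2⟩
    refine mul_le_mul_of_nonneg_right ?_ (Real.log_natCast_nonneg p)
    by_cases hsq : p ^ 2 ≤ 2 * (5 * M)
    · exact F5MN_crude hp3 hN1 hK5.le hNK c hc (hcd p) x hx hx0 hsq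
    · refine F5MN_refined hp3 hN1 hK5 c hc (hc0 p ?_) x hx hx0 (by omega) (by omega)
      by_contra hcon
      have : p ^ 2 ≤ d ^ 2 := Nat.pow_le_pow_left (by omega) 2
      omega
  simp only [neg_mul, sum_neg_distrib] at hodd
  rw [hsplit] at hS
  have hl2 : (0 : ℝ) ≤ Real.log (2 : ℕ) := Real.log_natCast_nonneg 2
  have h5 := mul_le_mul_of_nonneg_right htwo hl2
  have hcast : Real.log ((2 : ℕ) : ℝ) = Real.log 2 := by norm_num
  rw [hcast] at h5 hS
  linarith only [harch, hprime, hgrow, hlogy, hS, hodd, h5]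

end Vale.Agent.P030.Five
end
end

section

section

/-! Final forms of the bounds of `Lev.lean`. -/

namespace Vale.Agent.P030

open Finset Polynomial

end Vale.Agent.P030
end
end

section

section

/-! T6: summability of `Ssq` and the archimedean bound of the determinant. -/

namespace Vale.Agent.P030

open Finset Polynomial

end Vale.Agent.P030
end
end
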